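import Vale.Agent.P275S.Defs

/-! Local criteria: stalks, local exactness and the maps induced on cohomology sheaves. -/

open CategoryTheory TopologicalSpace Opposite Limits

noncomputable section

namespace P275S

variable {k : Type} [Field k] {X Y : TopCat.{0}}

section Mod

variable {S T : ShortComplex (ModuleCat.{0} k)}

/-- The homology class of a cycle in a short complex of vector spaces. -/
def cl (S : ShortComplex (ModuleCat.{0} k)) (s : S.X₂) (hs : S.g.hom s = 0) : S.homology :=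
  S.homologyπ.hom (S.moduleCatCyclesIso.inv.hom (⟨s, hs⟩ : LinearMap.ker S.g.hom))

theorem cl_surj (z : S.homology) : ∃ s hs, cl S s hs = z := by
  obtain ⟨y, rfl⟩ := (ModuleCat.epi_iff_surjective S.homologyπ).1 inferInstance z
  obtain ⟨w, rfl⟩ := (ModuleCat.epi_iff_surjective S.moduleCatCyclesIso.inv).1 inferInstance y
  exact ⟨w.1, w.2, rfl⟩

theorem cl_eq_zero {s : S.X₂} {hs : S.g.hom s = 0} : cl S s hs = 0 ↔ ∃ t, S.f.hom t = s := by
  have h1 : cl S s hs = S.moduleCatHomologyIso.inv.hom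
      (S.moduleCatLeftHomologyData.π.hom (⟨s, hs⟩ : LinearMap.ker S.g.hom)) :=
    congrArg (fun f => ModuleCat.Hom.hom f (⟨s, hs⟩ : LinearMap.ker S.g.hom))
      S.moduleCatCyclesIso_inv_π
  have h2 : Function.Injective S.moduleCatHomologyIso.inv.hom :=
    (ModuleCat.mono_iff_injective S.moduleCatHomologyIso.inv).1 inferInstance
  rw [h1, map_eq_zero_iff _ h2]
  refine (Submodule.Quotient.mk_eq_zero _).trans ⟨?_, ?_⟩
  · rintro ⟨t, ht⟩
    exact ⟨t, congrArg Subtype.val ht⟩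
  · rintro ⟨t, ht⟩
    exact ⟨t, Subtype.ext ht⟩

theorem cl_sub {s t : S.X₂} (hs : S.g.hom s = 0) (ht : S.g.hom t = 0)
    (h : S.g.hom (s - t) = 0) : cl S (s - t) h = cl S s hs - cl S t ht := by
  exact map_sub (S.homologyπ.hom ∘ₗ S.moduleCatCyclesIso.inv.hom)
    (⟨s, hs⟩ : LinearMap.ker S.g.hom) (⟨t, ht⟩ : LinearMap.ker S.g.hom)

theorem tau_g (φ : S ⟶ T) (s : S.X₂) : T.g.hom (φ.τ₂.hom s) = φ.τ₃.hom (S.g.hom s) :=
  congrArg (fun f => ModuleCat.Hom.hom f s) φ.comm₂₃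

theorem tau_f (φ : S ⟶ T) (s : S.X₁) : T.f.hom (φ.τ₁.hom s) = φ.τ₂.hom (S.f.hom s) :=
  congrArg (fun f => ModuleCat.Hom.hom f s) φ.comm₁₂

theorem cl_map (φ : S ⟶ T) (s : S.X₂) (hs : S.g.hom s = 0) (h : T.g.hom (φ.τ₂.hom s) = 0) :
    (ShortComplex.homologyMap φ).hom (cl S s hs) = cl T (φ.τ₂.hom s) h := by
  have h1 := congrArg (fun f => ModuleCat.Hom.hom f
    (S.moduleCatCyclesIso.inv.hom (⟨s, hs⟩ : LinearMap.ker S.g.hom)))
    (ShortComplex.homologyπ_naturality φ)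
  refine h1.trans (congrArg T.homologyπ.hom ?_)
  refine (ModuleCat.mono_iff_injective T.iCycles).1 inferInstance ?_
  have h2 := congrArg (fun f => ModuleCat.Hom.hom f
    (S.moduleCatCyclesIso.inv.hom (⟨s, hs⟩ : LinearMap.ker S.g.hom)))
    (ShortComplex.cyclesMap_i φ)
  have h3 := congrArg (fun f => ModuleCat.Hom.hom f (⟨s, hs⟩ : LinearMap.ker S.g.hom))
    S.moduleCatCyclesIso_inv_iCycles
  have h4 := congrArg (fun f => ModuleCat.Hom.hom f (⟨_, h⟩ : LinearMap.ker T.g.hom))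
    T.moduleCatCyclesIso_inv_iCycles
  exact h2.trans ((congrArg φ.τ₂.hom h3).trans h4.symm)

theorem mod_zero_iff (φ : S ⟶ T) : ShortComplex.homologyMap φ = 0 ↔
    ∀ s, S.g.hom s = 0 → ∃ t, T.f.hom t = φ.τ₂.hom s := by
  constructor
  · intro h s hs
    have h1 : T.g.hom (φ.τ₂.hom s) = 0 := by rw [tau_g, hs, map_zero]
    rw [← cl_eq_zero (hs := h1), ← cl_map φ s hs, h]
    rfl
  · intro h
    ext z
    obtain ⟨s, hs, rfl⟩ := cl_surj z
    have h1 : T.g.hom (φ.τ₂.hom s) = 0 := by rw [tau_g, hs, map_zero]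
    rw [cl_map φ s hs h1]
    exact cl_eq_zero.2 (h s hs)

theorem mod_epi_iff (φ : S ⟶ T) : Epi (ShortComplex.homologyMap φ) ↔
    ∀ s, T.g.hom s = 0 → ∃ u, S.g.hom u = 0 ∧ ∃ t, φ.τ₂.hom u + T.f.hom t = s := by
  rw [ModuleCat.epi_iff_surjective]
  constructor
  · intro h s hs
    obtain ⟨z, hz⟩ := h (cl T s hs)
    obtain ⟨u, hu, rfl⟩ := cl_surj z
    have h1 : T.g.hom (φ.τ₂.hom u) = 0 := by rw [tau_g, hu, map_zero]
    have h2 : T.g.hom (s - φ.τ₂.hom u) = 0 := by rw [map_sub, hs, h1, sub_self]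
    have h3 : cl T _ h2 = 0 := by
      rw [cl_sub hs h1, ← cl_map φ u hu h1]
      exact sub_eq_zero.2 hz.symm
    obtain ⟨t, ht⟩ := cl_eq_zero.1 h3
    exact ⟨u, hu, t, by rw [ht, add_sub_cancel]⟩
  · intro h z
    obtain ⟨s, hs, rfl⟩ := cl_surj z
    obtain ⟨u, hu, t, ht⟩ := h s hs
    have h1 : T.g.hom (φ.τ₂.hom u) = 0 := by rw [tau_g, hu, map_zero]
    have h2 : T.g.hom (s - φ.τ₂.hom u) = 0 := by rw [map_sub, hs, h1, sub_self]
    have h3 : cl T _ h2 = 0 := cl_eq_zero.2 ⟨t, by rw [← ht, add_sub_cancel_left]⟩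
    rw [cl_sub hs h1, ← cl_map φ u hu h1] at h3
    exact ⟨cl S u hu, (sub_eq_zero.1 h3).symm⟩

theorem mod_mono_iff (φ : S ⟶ T) : Mono (ShortComplex.homologyMap φ) ↔
    ∀ s, S.g.hom s = 0 → ∀ t, T.f.hom t = φ.τ₂.hom s → ∃ u, S.f.hom u = s := by
  rw [ModuleCat.mono_iff_injective]
  refine (injective_iff_map_eq_zero (ShortComplex.homologyMap φ).hom).trans ⟨?_, ?_⟩
  · intro h s hs t ht
    have h1 : T.g.hom (φ.τ₂.hom s) = 0 := by rw [tau_g, hs, map_zero]
    refine (cl_eq_zero (hs := hs)).1 (h _ ?_)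
    rw [cl_map φ s hs h1]
    exact cl_eq_zero.2 ⟨t, ht⟩
  · intro h z hz
    obtain ⟨s, hs, rfl⟩ := cl_surj z
    have h1 : T.g.hom (φ.τ₂.hom s) = 0 := by rw [tau_g, hs, map_zero]
    rw [cl_map φ s hs h1] at hz
    obtain ⟨t, ht⟩ := cl_eq_zero.1 hz
    exact cl_eq_zero.2 (h s hs t ht)

end Mod

/-- The germ of a section. -/
def gm (F : Sh k X) {U : Opens X} {x : X} (hx : x ∈ U) : sec F U →ₗ[k] (Stk k x).obj F :=
  (TopCat.Presheaf.germ F.1 U x hx).hom

theorem gm_res (F : Sh k X) {U V : Opens X} (h : V ≤ U) {x : X} (hx : x ∈ V) (s : sec F U) :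
    gm F hx (res F h s) = gm F (h hx) s :=
  TopCat.Presheaf.germ_res_apply F.1 (homOfLE h) x hx s

theorem stk_map_gm {F G : Sh k X} (φ : F ⟶ G) {U : Opens X} {x : X} (hx : x ∈ U)
    (s : sec F U) : ((Stk k x).map φ).hom (gm F hx s) = gm G hx (app φ U s) :=
  congrArg (fun f => ModuleCat.Hom.hom f s) (TopCat.Presheaf.stalkFunctor_map_germ U x hx φ.1)

theorem exists_gm (F : Sh k X) {x : X} (z : (Stk k x).obj F) {W : Opens X} (hW : x ∈ W) :
    ∃ U, U ≤ W ∧ ∃ (hx : x ∈ U) (s : sec F U), gm F hx s = z :=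
  TopCat.Presheaf.exists_le_germ_eq F.1 z hW

theorem gm_eq_iff (F : Sh k X) {U : Opens X} {x : X} (hx : x ∈ U) (s t : sec F U) :
    gm F hx s = gm F hx t ↔ ∃ V, ∃ hV : V ≤ U, x ∈ V ∧ res F hV s = res F hV t := by
  constructor
  · intro h
    obtain ⟨W, hW, i, j, e⟩ := TopCat.Presheaf.germ_eq F.1 x hx hx s t h
    exact ⟨W, i.le, hW, e⟩
  · rintro ⟨V, hV, hxV, e⟩
    rw [← gm_res F hV hxV, e, gm_res]

theorem gm_eq_zero (F : Sh k X) {U : Opens X} {x : X} (hx : x ∈ U) (s : sec F U) :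
    gm F hx s = 0 ↔ ∃ V, ∃ hV : V ≤ U, x ∈ V ∧ res F hV s = 0 := by
  have := gm_eq_iff F hx s 0
  simp only [map_zero] at this
  exact this

theorem gm_ne_zero (F : Sh k X) {U : Opens X} {x : X} (hx : x ∈ U) (s : sec F U) :
    gm F hx s ≠ 0 ↔ x ∈ supp s := by
  rw [Ne, gm_eq_zero, ← not_mem_supp hx, not_not]

/-- A germ killed by `φ` is the germ of a section killed by `φ`. -/
theorem exists_gm_ker {F G : Sh k X} (φ : F ⟶ G) {x : X} (z : (Stk k x).obj F)
    (hz : ((Stk k x).map φ).hom z = 0) {W : Opens X} (hW : x ∈ W) :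
    ∃ U, U ≤ W ∧ ∃ (hx : x ∈ U) (s : sec F U), gm F hx s = z ∧ app φ U s = 0 := by
  obtain ⟨U, hU, hx, s, rfl⟩ := exists_gm F z hW
  rw [stk_map_gm, gm_eq_zero] at hz
  obtain ⟨V, hV, hxV, e⟩ := hz
  exact ⟨V, hV.trans hU, hxV, res F hV s, gm_res _ _ _ _, by rw [app_res, e]⟩

/-- A section whose germ is in the image of `φ` is locally in the image of `φ`. -/
theorem exists_of_gm {F G : Sh k X} (φ : F ⟶ G) {x : X} (z : (Stk k x).obj F) {U : Opens X}
    (hx : x ∈ U) (s : sec G U) (hz : ((Stk k x).map φ).hom z = gm G hx s) :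
    ∃ V, ∃ hV : V ≤ U, ∃ (hxV : x ∈ V) (t : sec F V), gm F hxV t = z ∧
      app φ V t = res G hV s := by
  obtain ⟨W, hW, hxW, t, rfl⟩ := exists_gm F z hx
  rw [stk_map_gm, ← gm_res G hW hxW, gm_eq_iff] at hz
  obtain ⟨V, hV, hxV, e⟩ := hz
  exact ⟨V, hV.trans hW, hxV, res F hV t, gm_res _ _ _ _, by rw [app_res, e, res_res]⟩

instance (x : X) : (Stk k x).PreservesHomology := inferInstance

theorem stk_surj_iff {F G : Sh k X} (φ : F ⟶ G) (x : X) :
    Function.Surjective ((Stk k x).map φ).hom ↔ ∀ U, x ∈ U → ∀ s : sec G U,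
      ∃ V, ∃ hV : V ≤ U, x ∈ V ∧ ∃ t, app φ V t = res G hV s := by
  constructor
  · intro h U hx s
    obtain ⟨z, hz⟩ := h (gm G hx s)
    obtain ⟨V, hV, hxV, t, -, e⟩ := exists_of_gm φ z hx s hz
    exact ⟨V, hV, hxV, t, e⟩
  · intro h z
    obtain ⟨U, -, hx, s, rfl⟩ := exists_gm G z (W := ⊤) trivial
    obtain ⟨V, hV, hxV, t, e⟩ := h U hx s
    exact ⟨gm F hxV t, by rw [stk_map_gm, e, gm_res]⟩

theorem mono_iff {F G : Sh k X} (φ : F ⟶ G) : Mono φ ↔ ∀ U, Function.Injective (app φ U) := by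
  rw [TopCat.Presheaf.mono_iff_stalk_mono]
  refine Iff.trans (forall_congr' fun x => ModuleCat.mono_iff_injective _) ?_
  exact TopCat.Presheaf.app_injective_iff_stalkFunctor_map_injective φ.1

theorem isZero_iff_stk (F : Sh k X) : IsZero F ↔ ∀ x, IsZero ((Stk k x).obj F) :=
  TopCat.Sheaf.isZero_iff_stalkFunctor_obj_isZero F

theorem isZero_iff_sec (F : Sh k X) : IsZero F ↔ ∀ U (s : sec F U), s = 0 := by
  rw [IsZero.iff_id_eq_zero]
  exact ⟨fun h U s => by rw [← app_id F U s, h, app_zero], fun h => hom_ext fun U s => h U _⟩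

theorem isIso_iff_stk {F G : Sh k X} (φ : F ⟶ G) : IsIso φ ↔ ∀ x, IsIso ((Stk k x).map φ) :=
  TopCat.Presheaf.isIso_iff_stalkFunctor_map_iso φ

theorem eq_zero_iff_stk {F G : Sh k X} (φ : F ⟶ G) : φ = 0 ↔ ∀ x, (Stk k x).map φ = 0 := by
  refine ⟨fun h x => by rw [h, Functor.map_zero], fun h => hom_ext fun U s => ?_⟩
  refine loc_zero G _ fun x hx => (gm_eq_zero G hx _).1 ?_
  rw [← stk_map_gm, h]
  rfl

theorem mono_iff_stk {F G : Sh k X} (φ : F ⟶ G) : Mono φ ↔ ∀ x, Mono ((Stk k x).map φ) :=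
  TopCat.Presheaf.mono_iff_stalk_mono φ

theorem epi_iff_stk {F G : Sh k X} (φ : F ⟶ G) : Epi φ ↔ ∀ x, Epi ((Stk k x).map φ) := by
  refine ⟨fun h x => inferInstance, fun h => ?_⟩
  refine Preadditive.epi_of_cancel_zero φ fun g hg => (eq_zero_iff_stk g).2 fun x => ?_
  rw [← cancel_epi ((Stk k x).map φ), ← Functor.map_comp, hg, Functor.map_zero, comp_zero]

theorem epi_iff {F G : Sh k X} (φ : F ⟶ G) : Epi φ ↔ ∀ U, ∀ s : sec G U, ∀ x ∈ U,
    ∃ V, ∃ hV : V ≤ U, x ∈ V ∧ ∃ t, app φ V t = res G hV s := by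
  rw [epi_iff_stk]
  simp only [ModuleCat.epi_iff_surjective]
  exact ⟨fun h U s x hx => (stk_surj_iff φ x).1 (h x) U hx s,
    fun h x => (stk_surj_iff φ x).2 fun U hx s => h U s x hx⟩

theorem isIso_iff' {F G : Sh k X} (φ : F ⟶ G) : IsIso φ ↔
    (∀ U, Function.Injective (app φ U)) ∧ ∀ U, ∀ s : sec G U, ∀ x ∈ U,
      ∃ V, ∃ hV : V ≤ U, x ∈ V ∧ ∃ t, app φ V t = res G hV s := by
  rw [isIso_iff_mono_and_epi, mono_iff, epi_iff]

theorem isIso_iff {F G : Sh k X} (φ : F ⟶ G) : IsIso φ ↔ ∀ U, Function.Bijective (app φ U) := by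
  constructor
  · intro h U
    refine Function.bijective_iff_has_inverse.2 ⟨app (inv φ) U, fun s => ?_, fun s => ?_⟩
    · rw [← app_comp, IsIso.hom_inv_id, app_id]
    · rw [← app_comp, IsIso.inv_hom_id, app_id]
  · intro h
    refine (isIso_iff' φ).2 ⟨fun U => (h U).1, fun U s x hx => ⟨U, le_rfl, hx, ?_⟩⟩
    simpa using (h U).2 s

theorem stk_exact_iff (S : ShortComplex (Sh k X)) (x : X) : (S.map (Stk k x)).Exact ↔
    ∀ U, x ∈ U → ∀ s : sec S.X₂ U, app S.g U s = 0 →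
      ∃ V, ∃ hV : V ≤ U, x ∈ V ∧ ∃ t, app S.f V t = res _ hV s := by
  rw [ShortComplex.moduleCat_exact_iff]
  constructor
  · intro h U hx s hs
    obtain ⟨z, hz⟩ := h (gm _ hx s) (by
      change ((Stk k x).map S.g).hom _ = 0
      rw [stk_map_gm, hs, map_zero])
    obtain ⟨V, hV, hxV, t, -, e⟩ := exists_of_gm S.f z hx s hz
    exact ⟨V, hV, hxV, t, e⟩
  · intro h z hz
    obtain ⟨U, -, hx, s, rfl, hs⟩ := exists_gm_ker S.g z hz (W := ⊤) trivial
    obtain ⟨V, hV, hxV, t, e⟩ := h U hx s hs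
    refine ⟨gm _ hxV t, ?_⟩
    change ((Stk k x).map S.f).hom _ = _
    rw [stk_map_gm, e, gm_res]

theorem exact_iff (S : ShortComplex (Sh k X)) : S.Exact ↔
    ∀ U, ∀ s : sec S.X₂ U, app S.g U s = 0 → ∀ x ∈ U,
      ∃ V, ∃ hV : V ≤ U, x ∈ V ∧ ∃ t, app S.f V t = res _ hV s := by
  rw [TopCat.Sheaf.exact_iff_stalkFunctor_map_exact]
  exact ⟨fun h U s hs x hx => (stk_exact_iff S x).1 (h x) U hx s hs,
    fun h x => (stk_exact_iff S x).2 fun U hx s hs => h U s hs x hx⟩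

section SC

variable {S T : ShortComplex (Sh k X)}

/-- The stalk of a morphism of short complexes. -/
def stkSC (φ : S ⟶ T) (x : X) : S.map (Stk k x) ⟶ T.map (Stk k x) :=
  (Stk k x).mapShortComplex.map φ

theorem stk_hmap (φ : S ⟶ T) (x : X) : (Stk k x).map (ShortComplex.homologyMap φ) =
    (S.mapHomologyIso (Stk k x)).inv ≫
      ShortComplex.homologyMap (stkSC φ x) ≫ (T.mapHomologyIso (Stk k x)).hom := by
  rw [Iso.eq_inv_comp]
  exact (ShortComplex.mapHomologyIso_hom_naturality φ (Stk k x)).symm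

theorem sc_zero_iff (φ : S ⟶ T) (x : X) : (Stk k x).map (ShortComplex.homologyMap φ) = 0 ↔
    ∀ U, x ∈ U → ∀ s : sec S.X₂ U, app S.g U s = 0 →
      ∃ V, ∃ hV : V ≤ U, x ∈ V ∧ ∃ t, app T.f V t = res _ hV (app φ.τ₂ U s) := by
  rw [stk_hmap, Preadditive.IsIso.comp_left_eq_zero, Preadditive.IsIso.comp_right_eq_zero,
    mod_zero_iff]
  constructor
  · intro h U hx s hs
    obtain ⟨z, hz⟩ := h (gm _ hx s) (by
      change ((Stk k x).map S.g).hom _ = 0
      rw [stk_map_gm, hs, map_zero])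
    obtain ⟨V, hV, hxV, t, -, e⟩ := exists_of_gm T.f z hx (app φ.τ₂ U s)
      (hz.trans (stk_map_gm φ.τ₂ hx s))
    exact ⟨V, hV, hxV, t, e⟩
  · intro h z hz
    obtain ⟨U, -, hx, s, rfl, hs⟩ := exists_gm_ker S.g z hz (W := ⊤) trivial
    obtain ⟨V, hV, hxV, t, e⟩ := h U hx s hs
    refine ⟨gm _ hxV t, ?_⟩
    change ((Stk k x).map T.f).hom _ = ((Stk k x).map φ.τ₂).hom _
    rw [stk_map_gm, e, gm_res, stk_map_gm]

theorem sc_epi_iff (φ : S ⟶ T) (x : X) : Epi ((Stk k x).map (ShortComplex.homologyMap φ)) ↔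
    ∀ U, x ∈ U → ∀ s : sec T.X₂ U, app T.g U s = 0 →
      ∃ V, ∃ hV : V ≤ U, x ∈ V ∧ ∃ u : sec S.X₂ V, app S.g V u = 0 ∧
        ∃ t, app φ.τ₂ V u + app T.f V t = res _ hV s := by
  rw [stk_hmap, epi_comp_iff_of_epi, epi_comp_iff_of_isIso, mod_epi_iff]
  constructor
  · intro h U hx s hs
    obtain ⟨u, hu, z, hz⟩ := h (gm _ hx s) (by
      change ((Stk k x).map T.g).hom _ = 0
      rw [stk_map_gm, hs, map_zero])
    obtain ⟨W, hW, hxW, u, rfl, hu'⟩ := exists_gm_ker S.g u hu hx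
    obtain ⟨V, hV, hxV, t, -, e⟩ := exists_of_gm T.f z hxW (res _ hW s - app φ.τ₂ W u) (by
      rw [map_sub, gm_res, ← stk_map_gm]
      exact eq_sub_of_add_eq' hz)
    refine ⟨V, hV.trans hW, hxV, res _ hV u, by rw [app_res, hu', map_zero], t, ?_⟩
    rw [e, app_res, map_sub, res_res, add_sub_cancel]
  · intro h z hz
    obtain ⟨U, -, hx, s, rfl, hs⟩ := exists_gm_ker T.g z hz (W := ⊤) trivial
    obtain ⟨V, hV, hxV, u, hu, t, e⟩ := h U hx s hs
    refine ⟨gm _ hxV u, ?_, gm _ hxV t, ?_⟩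
    · change ((Stk k x).map S.g).hom _ = 0
      rw [stk_map_gm, hu, map_zero]
    · change ((Stk k x).map φ.τ₂).hom _ + ((Stk k x).map T.f).hom _ = gm T.X₂ hx s
      rw [stk_map_gm, stk_map_gm, ← map_add, e, gm_res]

theorem sc_mono_iff (φ : S ⟶ T) (x : X) : Mono ((Stk k x).map (ShortComplex.homologyMap φ)) ↔
    ∀ U, x ∈ U → ∀ s : sec S.X₂ U, app S.g U s = 0 →
      ∀ t : sec T.X₁ U, app T.f U t = app φ.τ₂ U s →
      ∃ V, ∃ hV : V ≤ U, x ∈ V ∧ ∃ u : sec S.X₁ V, app S.f V u = res _ hV s := by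
  rw [stk_hmap, mono_comp_iff_of_isIso, mono_comp_iff_of_mono, mod_mono_iff]
  constructor
  · intro h U hx s hs t ht
    obtain ⟨z, hz⟩ := h (gm _ hx s) (by
      change ((Stk k x).map S.g).hom _ = 0
      rw [stk_map_gm, hs, map_zero]) (gm _ hx t) (by
      change ((Stk k x).map T.f).hom _ = ((Stk k x).map φ.τ₂).hom _
      rw [stk_map_gm, stk_map_gm, ht])
    obtain ⟨V, hV, hxV, u, -, e⟩ := exists_of_gm S.f z hx s hz
    exact ⟨V, hV, hxV, u, e⟩
  · intro h z hz t ht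
    obtain ⟨U, -, hx, s, rfl, hs⟩ := exists_gm_ker S.g z hz (W := ⊤) trivial
    obtain ⟨W, hW, hxW, t, -, e⟩ := exists_of_gm T.f t hx (app φ.τ₂ U s)
      (ht.trans (stk_map_gm φ.τ₂ hx s))
    obtain ⟨V, hV, hxV, u, e'⟩ := h W hxW (res _ hW s) (by rw [app_res, hs, map_zero]) t
      (by rw [e, app_res])
    refine ⟨gm _ hxV u, ?_⟩
    change ((Stk k x).map S.f).hom _ = gm S.X₂ hx s
    rw [stk_map_gm, e', gm_res, gm_res]

end SC

section Cpx

open HomologicalComplex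

variable {F G H : Cx k X}

theorem zeroAt_iff (f : F ⟶ G) (n : ℤ) (x : X) :
    ZeroAt f n x ↔ (Stk k x).map (homologyMap f n) = 0 := by
  have h : ∀ i j, i = n - 1 → j = n + 1 → (ZeroAt f n x ↔ (Stk k x).map (ShortComplex.homologyMap
      ((shortComplexFunctor' _ (ComplexShape.up ℤ) i n j).map f)) = 0) := by
    rintro _ _ rfl rfl
    exact (sc_zero_iff ((shortComplexFunctor' _ (ComplexShape.up ℤ) (n - 1) n (n + 1)).map f)
      x).symm
  exact h _ _ (CochainComplex.prev ℤ n) (CochainComplex.next ℤ n)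

theorem surjAt_iff (f : F ⟶ G) (n : ℤ) (x : X) :
    SurjAt f n x ↔ Epi ((Stk k x).map (homologyMap f n)) := by
  have h : ∀ i j, i = n - 1 → j = n + 1 → (SurjAt f n x ↔ Epi ((Stk k x).map
      (ShortComplex.homologyMap ((shortComplexFunctor' _ (ComplexShape.up ℤ) i n j).map f)))) := by
    rintro _ _ rfl rfl
    exact (sc_epi_iff ((shortComplexFunctor' _ (ComplexShape.up ℤ) (n - 1) n (n + 1)).map f)
      x).symm
  exact h _ _ (CochainComplex.prev ℤ n) (CochainComplex.next ℤ n)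

theorem injAt_iff (f : F ⟶ G) (n : ℤ) (x : X) :
    InjAt f n x ↔ Mono ((Stk k x).map (homologyMap f n)) := by
  have h : ∀ i j, i = n - 1 → j = n + 1 → (InjAt f n x ↔ Mono ((Stk k x).map
      (ShortComplex.homologyMap ((shortComplexFunctor' _ (ComplexShape.up ℤ) i n j).map f)))) := by
    rintro _ _ rfl rfl
    exact (sc_mono_iff ((shortComplexFunctor' _ (ComplexShape.up ℤ) (n - 1) n (n + 1)).map f)
      x).symm
  exact h _ _ (CochainComplex.prev ℤ n) (CochainComplex.next ℤ n)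

theorem isZero_stk_iff (F : Cx k X) (n : ℤ) (x : X) :
    IsZero ((Stk k x).obj (F.homology n)) ↔ ExAt F n x := by
  rw [← zeroAt_id, zeroAt_iff, homologyMap_id, CategoryTheory.Functor.map_id,
    IsZero.iff_id_eq_zero]

theorem exactAt_iff (F : Cx k X) (n : ℤ) : F.ExactAt n ↔ ∀ x, ExAt F n x := by
  rw [exactAt_iff_isZero_homology, isZero_iff_stk]
  exact forall_congr' fun x => isZero_stk_iff F n x

theorem homologyMap_eq_zero_iff (f : F ⟶ G) (n : ℤ) :
    homologyMap f n = 0 ↔ ∀ x, ZeroAt f n x := by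
  rw [eq_zero_iff_stk]
  exact forall_congr' fun x => (zeroAt_iff f n x).symm

theorem epi_homologyMap_loc (f : F ⟶ G) (n : ℤ) :
    Epi (homologyMap f n) ↔ ∀ x, SurjAt f n x := by
  rw [epi_iff_stk]
  exact forall_congr' fun x => (surjAt_iff f n x).symm

theorem mono_homologyMap_loc (f : F ⟶ G) (n : ℤ) :
    Mono (homologyMap f n) ↔ ∀ x, InjAt f n x := by
  rw [mono_iff_stk]
  exact forall_congr' fun x => (injAt_iff f n x).symm

theorem isIso_stk_iff (f : F ⟶ G) (n : ℤ) (x : X) :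
    IsIso ((Stk k x).map (homologyMap f n)) ↔ SurjAt f n x ∧ InjAt f n x := by
  rw [isIso_iff_mono_and_epi, surjAt_iff, injAt_iff, and_comm]

theorem qisAt_iff (f : F ⟶ G) (x : X) :
    QisAt f x ↔ ∀ n, IsIso ((Stk k x).map (homologyMap f n)) :=
  forall_congr' fun n => (isIso_stk_iff f n x).symm

theorem quasiIsoAt_iff_loc (f : F ⟶ G) (n : ℤ) :
    QuasiIsoAt f n ↔ ∀ x, SurjAt f n x ∧ InjAt f n x := by
  rw [quasiIsoAt_iff_isIso_homologyMap, isIso_iff_stk]
  exact forall_congr' fun x => isIso_stk_iff f n x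

theorem quasiIso_iff (f : F ⟶ G) : QuasiIso f ↔ ∀ x, QisAt f x := by
  rw [_root_.quasiIso_iff]
  simp only [quasiIsoAt_iff_loc]
  exact forall_comm

/-- The cohomology of the stalk complex is the stalk of the cohomology sheaf. -/
def stkHomologyIso (F : Cx k X) (n : ℤ) (x : X) :
    ((mapC (Stk k x)).obj F).homology n ≅ (Stk k x).obj (F.homology n) :=
  (F.sc n).mapHomologyIso (Stk k x)

theorem stk_homologyMap (f : F ⟶ G) (n : ℤ) (x : X) : (Stk k x).map (homologyMap f n) =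
    (stkHomologyIso F n x).inv ≫ homologyMap ((mapC (Stk k x)).map f) n ≫
      (stkHomologyIso G n x).hom :=
  stk_hmap ((shortComplexFunctor _ (ComplexShape.up ℤ) n).map f) x

theorem exAt_iff_stk (F : Cx k X) (n : ℤ) (x : X) :
    ExAt F n x ↔ ((mapC (Stk k x)).obj F).ExactAt n := by
  rw [← isZero_stk_iff, exactAt_iff_isZero_homology, (stkHomologyIso F n x).isZero_iff]

theorem zeroAt_iff_stk (f : F ⟶ G) (n : ℤ) (x : X) :
    ZeroAt f n x ↔ homologyMap ((mapC (Stk k x)).map f) n = 0 := by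
  rw [zeroAt_iff, stk_homologyMap, Preadditive.IsIso.comp_left_eq_zero,
    Preadditive.IsIso.comp_right_eq_zero]

theorem qisAt_iff_stk (f : F ⟶ G) (x : X) : QisAt f x ↔ QuasiIso ((mapC (Stk k x)).map f) := by
  rw [qisAt_iff, _root_.quasiIso_iff]
  refine forall_congr' fun n => ?_
  rw [quasiIsoAt_iff_isIso_homologyMap, stk_homologyMap, isIso_comp_left_iff,
    isIso_comp_right_iff]

/-- In an abelian category a chain map is a quasi-isomorphism iff its cone is acyclic. -/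
theorem quasiIso_iff_cone {C : Type*} [Category C] [Abelian C] {K L : CochainComplex C ℤ}
    (f : K ⟶ L) : QuasiIso f ↔ ∀ n, (CochainComplex.mappingCone f).ExactAt n := by
  rw [← HomotopyCategory.quotient_obj_mem_subcategoryAcyclic_iff_exactAt,
    ← HomologicalComplex.mem_quasiIso_iff, ← HomotopyCategory.quotient_map_mem_quasiIso_iff,
    HomotopyCategory.quasiIso_eq_trW_subcategoryAcyclic]
  exact ObjectProperty.trW_iff_of_distinguished _ _
    (HomotopyCategory.mappingCone_triangleh_distinguished f)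

theorem qisAt_iff_cone (f : F ⟶ G) (x : X) :
    QisAt f x ↔ ∀ n, ExAt (CochainComplex.mappingCone f) n x := by
  rw [qisAt_iff_stk, quasiIso_iff_cone]
  refine forall_congr' fun n => ?_
  rw [exAt_iff_stk]
  exact exactAt_iff_of_quasiIsoAt
    (CochainComplex.mappingCone.mapHomologicalComplexIso f (Stk k x)).inv n

theorem ZeroAt.comp_right {f : F ⟶ G} {n : ℤ} {x : X} (h : ZeroAt f n x) (g : G ⟶ H) :
    ZeroAt (f ≫ g) n x := by
  rw [zeroAt_iff] at h ⊢
  rw [homologyMap_comp, Functor.map_comp, h, zero_comp]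

theorem ZeroAt.comp_left {g : G ⟶ H} {n : ℤ} {x : X} (h : ZeroAt g n x) (f : F ⟶ G) :
    ZeroAt (f ≫ g) n x := by
  rw [zeroAt_iff] at h ⊢
  rw [homologyMap_comp, Functor.map_comp, h, comp_zero]

theorem zeroAt_zero (F G : Cx k X) (n : ℤ) (x : X) : ZeroAt (0 : F ⟶ G) n x := by
  rw [zeroAt_iff, homologyMap_zero, Functor.map_zero]

theorem ZeroAt.add {f g : F ⟶ G} {n : ℤ} {x : X} (h : ZeroAt f n x) (h' : ZeroAt g n x) :
    ZeroAt (f + g) n x := by
  rw [zeroAt_iff] at h h' ⊢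
  rw [homologyMap_add, Functor.map_add, h, h', add_zero]

theorem ZeroAt.neg {f : F ⟶ G} {n : ℤ} {x : X} (h : ZeroAt f n x) : ZeroAt (-f) n x := by
  rw [zeroAt_iff] at h ⊢
  rw [homologyMap_neg, Functor.map_neg, h, neg_zero]

theorem ZeroAt.sub {f g : F ⟶ G} {n : ℤ} {x : X} (h : ZeroAt f n x) (h' : ZeroAt g n x) :
    ZeroAt (f - g) n x := by
  rw [sub_eq_add_neg]
  exact h.add h'.neg

theorem ExAt.zeroAt_left {n : ℤ} {x : X} (h : ExAt F n x) (f : F ⟶ G) : ZeroAt f n x := by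
  simpa using ((zeroAt_id F n x).2 h).comp_right f

theorem ExAt.zeroAt_right {n : ℤ} {x : X} (h : ExAt G n x) (f : F ⟶ G) : ZeroAt f n x := by
  simpa using ((zeroAt_id G n x).2 h).comp_left f

theorem zeroAt_of_homotopy {f g : F ⟶ G} (h : Homotopy f g) (n : ℤ) (x : X) :
    ZeroAt f n x ↔ ZeroAt g n x := by
  rw [zeroAt_iff, zeroAt_iff, h.homologyMap_eq]

theorem surjAt_of_homotopy {f g : F ⟶ G} (h : Homotopy f g) (n : ℤ) (x : X) :
    SurjAt f n x ↔ SurjAt g n x := by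
  rw [surjAt_iff, surjAt_iff, h.homologyMap_eq]

theorem injAt_of_homotopy {f g : F ⟶ G} (h : Homotopy f g) (n : ℤ) (x : X) :
    InjAt f n x ↔ InjAt g n x := by
  rw [injAt_iff, injAt_iff, h.homologyMap_eq]

theorem qisAt_of_homotopy {f g : F ⟶ G} (h : Homotopy f g) (x : X) : QisAt f x ↔ QisAt g x :=
  forall_congr' fun n => and_congr (surjAt_of_homotopy h n x) (injAt_of_homotopy h n x)

theorem homologyMap_eq_of_Q {f g : F ⟶ G}
    (h : (DerivedCategory.Q.map f : DerivedCategory.Q.obj F ⟶ _) = DerivedCategory.Q.map g)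
    (n : ℤ) : homologyMap f n = homologyMap g n := by
  have h1 := (DerivedCategory.homologyFunctorFactors (Sh k X) n).hom.naturality f
  have h2 := (DerivedCategory.homologyFunctorFactors (Sh k X) n).hom.naturality g
  rw [Functor.comp_map, h] at h1
  exact (cancel_epi ((DerivedCategory.homologyFunctorFactors (Sh k X) n).app F).hom).1
    (h1.symm.trans h2)

theorem zeroAt_of_Q {f g : F ⟶ G}
    (h : (DerivedCategory.Q.map f : DerivedCategory.Q.obj F ⟶ _) = DerivedCategory.Q.map g)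
    (n : ℤ) (x : X) : ZeroAt f n x ↔ ZeroAt g n x := by
  rw [zeroAt_iff, zeroAt_iff, homologyMap_eq_of_Q h]

theorem qisAt_of_quasiIso (f : F ⟶ G) [h : QuasiIso f] (x : X) : QisAt f x :=
  (quasiIso_iff f).1 h x

theorem QisAt.comp {f : F ⟶ G} {g : G ⟶ H} {x : X} (hf : QisAt f x) (hg : QisAt g x) :
    QisAt (f ≫ g) x := by
  rw [qisAt_iff_stk] at hf hg ⊢
  rw [Functor.map_comp]
  infer_instance

theorem QisAt.of_comp_left {f : F ⟶ G} {g : G ⟶ H} {x : X} (hf : QisAt f x)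
    (h : QisAt (f ≫ g) x) : QisAt g x := by
  rw [qisAt_iff_stk] at hf h ⊢
  rw [Functor.map_comp] at h
  exact quasiIso_of_comp_left ((mapC (Stk k x)).map f) _

theorem QisAt.of_comp_right {f : F ⟶ G} {g : G ⟶ H} {x : X} (hg : QisAt g x)
    (h : QisAt (f ≫ g) x) : QisAt f x := by
  rw [qisAt_iff_stk] at hg h ⊢
  rw [Functor.map_comp] at h
  exact quasiIso_of_comp_right _ ((mapC (Stk k x)).map g)

theorem QisAt.exAt_iff {f : F ⟶ G} {x : X} (h : QisAt f x) (n : ℤ) :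
    ExAt F n x ↔ ExAt G n x := by
  rw [← isZero_stk_iff, ← isZero_stk_iff]
  have := (qisAt_iff f x).1 h n
  exact (asIso ((Stk k x).map (homologyMap f n))).isZero_iff

theorem QisAt.zeroAt_comp_left {f : F ⟶ G} {x : X} (h : QisAt f x) (g : G ⟶ H) (n : ℤ) :
    ZeroAt (f ≫ g) n x ↔ ZeroAt g n x := by
  have := (qisAt_iff f x).1 h n
  rw [zeroAt_iff, zeroAt_iff, homologyMap_comp, Functor.map_comp,
    Preadditive.IsIso.comp_left_eq_zero]

theorem QisAt.zeroAt_comp_right {g : G ⟶ H} {x : X} (h : QisAt g x) (f : F ⟶ G) (n : ℤ) :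
    ZeroAt (f ≫ g) n x ↔ ZeroAt f n x := by
  have := (qisAt_iff g x).1 h n
  rw [zeroAt_iff, zeroAt_iff, homologyMap_comp, Functor.map_comp,
    Preadditive.IsIso.comp_right_eq_zero]

theorem qisAt_of_exAt (f : F ⟶ G) {x : X} (hF : ∀ n, ExAt F n x) (hG : ∀ n, ExAt G n x) :
    QisAt f x :=
  (qisAt_iff f x).2 fun n =>
    isIso_of_source_target_iso_zero _ ((isZero_stk_iff F n x).2 (hF n)).isoZero
      ((isZero_stk_iff G n x).2 (hG n)).isoZero

theorem exAt_of_isZero {n : ℤ} (h : IsZero (F.X n)) (x : X) : ExAt F n x :=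
  fun U hx s _ => ⟨U, le_rfl, hx, 0, by rw [(isZero_iff_sec _).1 h U s, map_zero, map_zero]⟩

theorem isLE_iff (F : Cx k X) (n : ℤ) :
    (DerivedCategory.Q.obj F : Der k X).IsLE n ↔ ∀ i, n < i → ∀ x, ExAt F i x := by
  rw [DerivedCategory.isLE_Q_obj_iff, CochainComplex.isLE_iff]
  simp only [exactAt_iff]

theorem isGE_iff (F : Cx k X) (n : ℤ) :
    (DerivedCategory.Q.obj F : Der k X).IsGE n ↔ ∀ i, i < n → ∀ x, ExAt F i x := by
  rw [DerivedCategory.isGE_Q_obj_iff, CochainComplex.isGE_iff]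
  simp only [exactAt_iff]

theorem isIso_Q_iff (f : F ⟶ G) :
    IsIso (DerivedCategory.Q.map f : DerivedCategory.Q.obj F ⟶ _) ↔ ∀ x, QisAt f x := by
  rw [DerivedCategory.isIso_Q_map_iff_quasiIso, quasiIso_iff]

theorem isZero_Q_loc (F : Cx k X) :
    IsZero (DerivedCategory.Q.obj F : Der k X) ↔ ∀ n x, ExAt F n x := by
  constructor
  · intro h n
    rw [← exactAt_iff, exactAt_iff_isZero_homology]
    exact ((DerivedCategory.homologyFunctor _ n).map_isZero h).of_iso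
      ((DerivedCategory.homologyFunctorFactors (Sh k X) n).app F).symm
  · intro h
    have h0 : IsIso (DerivedCategory.Q.map (0 : F ⟶ F)) :=
      (isIso_Q_iff _).2 fun x => qisAt_of_exAt _ (fun n => h n x) fun n => h n x
    rw [Functor.map_zero] at h0
    exact (isIsoZero_iff_source_target_isZero _ _).1 h0 |>.1

end Cpx

end P275S
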