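import Vale.Agent.P275S.God

/-! Soft complexes of sheaves: sections over open sets, compact supports, closed supports and
direct images. -/

open CategoryTheory TopologicalSpace Opposite Limits Set
open Vale.Agent

noncomputable section

namespace P275S

variable {k : Type} [Field k] {X Y : TopCat.{0}} {F G : Cx k X} {p : F ⟶ F} {q : F ⟶ G}
  {A B : Set X} {n : ℤ}

theorem Van.flex (h : Van q A B n) {i l : ℤ} (hi : i + 1 = n) (hl : n + 1 = l)
    {s : sec (F.X n) ⊤} (hs : s ∈ Nv (F.X n) (A ∩ B)) (hd : app (F.d n l) ⊤ s ∈ Nv (F.X l) B) :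
    ∃ t ∈ Nv (G.X i) (A ∩ B), app (G.d i n) ⊤ t - app (q.f n) ⊤ s ∈ Nv (G.X n) B := by
  obtain rfl : i = n - 1 := by omega
  subst hl
  exact h s hs hd

theorem mem_Nv_of_res {E : Sh k X} {s : sec E ⊤} {W : Opens X} (hW : B ⊆ W)
    (h : res E (le_top : W ≤ ⊤) s = 0) : s ∈ Nv E B :=
  mem_Nv'.2 (((res_eq_zero_iff _ s).1 h).symm.mono_left hW)

theorem res_eq_of_mem_Nv {E : Sh k X} {s t : sec E ⊤} {W : Opens X} (hW : (W : Set X) ⊆ B)
    (h : s - t ∈ Nv E B) : res E (le_top : W ≤ ⊤) s = res E le_top t := by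
  rw [← sub_eq_zero, ← map_sub, res_eq_zero_iff]
  exact ((mem_Nv'.1 h).mono_left hW).symm

theorem mem_Nv_univ {E : Sh k X} {s : sec E ⊤} : s ∈ Nv E univ ↔ s = 0 := by
  rw [mem_Nv, compl_univ, subset_empty_iff, supp_eq_empty]

theorem exists_exhaust [Nice X] (U : Opens X) : ∃ K : ℕ → Set X, (∀ m, IsCompact (K m)) ∧
    (∀ m, K m ⊆ U) ∧ Monotone K ∧ ∀ x ∈ U, ∃ m, x ∈ interior (K m) := by
  have : LocallyCompactSpace U := U.2.locallyCompactSpace
  let E := CompactExhaustion.choice U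
  refine ⟨fun m => Subtype.val '' E m, fun m => (E.isCompact m).image continuous_subtype_val,
    fun m => Subtype.coe_image_subset _ _, fun a b h => image_mono (E.subset h), fun x hx => ?_⟩
  obtain ⟨m, hm⟩ := E.exists_mem ⟨x, hx⟩
  exact ⟨m + 1, interior_maximal (image_mono interior_subset)
    (U.2.isOpenMap_subtype_val _ isOpen_interior) ⟨_, E.subset_interior_succ m hm, rfl⟩⟩

/-- Sections over an open set, relative to a closed set `A`. -/
theorem gam_of_van_rel [Nice X] (hF : SoftC F) (hp : Homotopy (p ≫ p) p) (hA : IsClosed A)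
    (U : Opens X) (h₀ : ∀ C, IsCompact C → C ⊆ U → Van p A C (n - 1))
    (h₁ : ∀ C, IsCompact C → C ⊆ U → Van p A C n) (s : sec (F.X n) U) (hsA : supp s ⊆ Aᶜ)
    (hs : app (F.d n (n + 1)) U s = 0) : ∃ t : sec (F.X (n - 1)) U, supp t ⊆ Aᶜ ∧
      app (F.d (n - 1) n) U t = app (p.f n) U s := by
  obtain ⟨K, k1, k2, k3, k4⟩ := exists_exhaust U
  choose σ _ s2 W hW s3 s4 using fun m => (hF.2 n).cut (k1 m) (k2 m) s hA.isOpen_compl
    (inter_subset_right.trans hsA)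
  choose t t1 t2 using fun m => h₁ (K m) (k1 m) (k2 m) (σ m)
    (Nv_anti inter_subset_left (mem_Nv.2 (s2 m)))
    (mem_Nv_of_res (s3 m) (by rw [← app_res, s4, app_res, hs, map_zero]))
  have s5 : ∀ m, σ (m + 1) - σ m ∈ Nv (F.X n) (K m) := fun m =>
    mem_Nv_of_res (W := W (m + 1) ⊓ W m)
      (subset_inter ((k3 (Nat.le_succ m)).trans (s3 (m + 1))) (s3 m)) (by
      rw [map_sub, ← res_res _ le_top inf_le_left, s4, ← res_res _ le_top inf_le_right (σ m), s4,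
        res_res, res_res, sub_self])
  have hw : ∀ m, ∃ w : sec (F.X (n - 1 - 1)) ⊤, supp w ⊆ Aᶜ ∧ app (F.d (n - 1 - 1) (n - 1)) ⊤ w -
      app (p.f (n - 1)) ⊤ (t (m + 1) - t m) ∈ Nv _ (K m) := fun m => by
    obtain ⟨w, a, b⟩ := (h₀ (K m) (k1 m) (k2 m)).flex (i := n - 1 - 1) (l := n) (by omega)
      (by omega) (s := t (m + 1) - t m) (sub_mem (Nv_anti (inter_subset_inter_right _
        (k3 (Nat.le_succ m))) (t1 _)) (t1 m)) (by
        have := add_mem (sub_mem (Nv_anti (k3 (Nat.le_succ m)) (t2 (m + 1))) (t2 m))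
          (app_mem_Nv (p.f n) (s5 m))
        rwa [map_sub, show ∀ a b c d : sec (F.X n) ⊤, a - b - (c - d) + (b - d) = a - c from
          fun _ _ _ _ => by abel, ← map_sub] at this)
    obtain ⟨w', -, c, d⟩ := (hF.2 _).cut_top (k1 m) w hA.isOpen_compl fun x hx e =>
      mem_Nv.1 a hx.2 ⟨e, hx.1⟩
    refine ⟨w', c, ?_⟩
    have := add_mem b (app_mem_Nv (F.d (n - 1 - 1) (n - 1)) d)
    rwa [map_sub (app (F.d _ _) ⊤), show ∀ a b c : sec (F.X (n - 1)) ⊤, a - b + (c - a) = c - b from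
      fun _ _ _ => by abel] at this
  choose w w1 w2 using hw
  let u : ℕ → sec (F.X (n - 1)) ⊤ := fun m =>
    app (p.f (n - 1)) ⊤ (t m) - app (F.d (n - 1 - 1) (n - 1)) ⊤ (∑ i ∈ Finset.range m, w i)
  have u1 : ∀ m m', m ≤ m' → u m' - u m ∈ Nv _ (K m) := fun m m' h => by
    induction m', h using Nat.le_induction with
    | base => rw [sub_self]; exact zero_mem _
    | succ a ha ih =>
      have := sub_mem ih (Nv_anti (k3 ha) (w2 a))
      rwa [show u a - u m - (app (F.d (n - 1 - 1) (n - 1)) ⊤ (w a) -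
        app (p.f (n - 1)) ⊤ (t (a + 1) - t a)) = u (a + 1) - u m by
          simp only [u, Finset.sum_range_succ, map_add, map_sub]; abel] at this
  let V : ℕ → Opens X := fun m => ⟨interior (K m), isOpen_interior⟩
  have hV : ∀ m, V m ≤ U := fun m => interior_subset.trans (k2 m)
  obtain ⟨v, hv⟩ := glue (F.X (n - 1)) V U hV
    (fun x hx => Opens.mem_iSup.2 (k4 x hx)) (fun m => res _ le_top (u m)) fun a b => by
      rw [res_res, res_res]
      rcases le_total a b with h | h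
      · exact (res_eq_of_mem_Nv (inter_subset_left.trans interior_subset) (u1 a b h)).symm
      · exact res_eq_of_mem_Nv (inter_subset_right.trans interior_subset) (u1 b a h)
  refine ⟨v - app (hp.hom n (n - 1)) U s, (supp_sub _ _).trans (union_subset (fun x hx e => ?_)
    ((supp_app _ s).trans hsA)), ?_⟩
  · obtain ⟨m, hm⟩ := k4 x hx.1
    have a : x ∈ supp (res _ (hV m) v) := by rw [supp_res]; exact ⟨hx, hm⟩
    rw [hv, supp_res] at a
    have b : u m ∈ Nv _ (A ∩ K m) := sub_mem (app_mem_Nv _ (t1 m)) (app_mem_Nv _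
      (sum_mem fun i _ => Nv_anti inter_subset_left (mem_Nv.2 (w1 i))))
    exact mem_Nv.1 b a.1 ⟨e, interior_subset hm⟩
  · have e := app_homotopy hp (show n - 1 + 1 = n by omega) rfl U s
    rw [hs, map_zero, zero_add, HomologicalComplex.comp_f, app_comp] at e
    rw [map_sub, sub_eq_iff_eq_add', ← e]
    refine loc_ext _ _ _ fun x hx => ?_
    obtain ⟨m, hm⟩ := k4 x hx
    refine ⟨V m ⊓ W m, inf_le_left.trans (hV m), ⟨hm, s3 m (interior_subset hm)⟩, ?_⟩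
    have e1 := congrArg (res _ (inf_le_left : V m ⊓ W m ≤ V m)) (hv m)
    have e2 := congrArg (res _ (inf_le_right : V m ⊓ W m ≤ W m)) (s4 m)
    have e3 := res_eq_of_mem_Nv (W := V m ⊓ W m) (inter_subset_left.trans interior_subset) (t2 m)
    simp only [res_res] at e1 e2
    rw [← app_res, e1, app_res, ← app_res (p.f n), ← app_res (p.f n), ← e2, app_res (p.f n), ← e3,
      app_res]
    simp only [u, map_sub, app_d_d, app_f_d, sub_zero]

/-- Sections over an open set. -/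
theorem gam_of_van [Nice X] (hF : SoftC F) (hp : Homotopy (p ≫ p) p)
    (U : Opens X) (h₀ : ∀ C, IsCompact C → C ⊆ U → Van p ∅ C (n - 1))
    (h₁ : ∀ C, IsCompact C → C ⊆ U → Van p ∅ C n) (s : sec (F.X n) U)
    (hs : app (F.d n (n + 1)) U s = 0) :
    ∃ t : sec (F.X (n - 1)) U, app (F.d (n - 1) n) U t = app (p.f n) U s := by
  obtain ⟨t, -, ht⟩ := gam_of_van_rel hF hp isClosed_empty U h₀ h₁ s (by simp) hs
  exact ⟨t, ht⟩

theorem zero_gam [Nice X] (hF : SoftC F) (hp : Homotopy (p ≫ p) p) (U : Opens X)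
    (h : ∀ x ∈ U, ∀ m ≤ n, ZeroAt p m x) (s : sec (F.X n) U) (hs : app (F.d n (n + 1)) U s = 0) :
    ∃ t : sec (F.X (n - 1)) U, app (F.d (n - 1) n) U t = app (p.f n) U s :=
  gam_of_van hF hp U
    (fun _ a b => van_loc hF hp isClosed_empty a fun x hx _ m hm => h x (b hx) m (by omega))
    (fun _ a b => van_loc hF hp isClosed_empty a fun x hx _ => h x (b hx)) s hs

/-- A soft complex that is locally exact in degrees `≤ n` on `U` has exact sections over `U` in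
degree `n`. -/
theorem ex_gam [Nice X] (hF : SoftC F) (U : Opens X) (h : ∀ x ∈ U, ∀ m ≤ n, ExAt F m x)
    (s : sec (F.X n) U) (hs : app (F.d n (n + 1)) U s = 0) :
    ∃ t : sec (F.X (n - 1)) U, app (F.d (n - 1) n) U t = s :=
  zero_gam hF (idemId F) U h s hs

theorem mem_cpt_iff [Nice X] {E : Sh k X} {U : Opens X} {s : sec E ⊤} :
    s ∈ cpt E U ↔ IsCompact (supp s) ∧ supp s ⊆ U :=
  ⟨fun ⟨_, a, b, c⟩ => ⟨a.of_isClosed_subset (isClosed_supp s) c, c.trans b⟩,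
    fun h => ⟨_, h.1, h.2, Subset.rfl⟩⟩

theorem mem_cpt_diff [Nice X] {E : Sh k X} {U V : Opens X} {Z : Set X}
    (hV : (V : Set X) = (U : Set X) \ Z) {s : sec E ⊤} :
    s ∈ cpt E V ↔ s ∈ cpt E U ∧ s ∈ Nv E Z := by
  rw [mem_cpt_iff, mem_cpt_iff, hV, mem_Nv, Set.sdiff_eq, subset_inter_iff, and_assoc]

theorem mem_cpt_bot {E : Sh k X} {s : sec E ⊤} : s ∈ cpt E ⊥ ↔ s = 0 :=
  ⟨fun ⟨_, _, b, c⟩ => supp_eq_empty.1 (subset_empty_iff.1 (c.trans b)),
    fun h => h ▸ zero_mem _⟩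

/-- Compact supports in `Z ∩ U`. -/
theorem gamc_of_van_rel [Nice X] (hG : CSoft (G.X (n - 1))) (U : Opens X) {Z : Set X}
    (hZ : IsClosed Z) (h : ∀ L, IsCompact L → L ⊆ U → Van q (interior L)ᶜ (L ∩ Z) n)
    {s : sec (F.X n) ⊤} (hs : s ∈ cpt (F.X n) U) (hd : app (F.d n (n + 1)) ⊤ s ∈ Nv _ Z) :
    ∃ t ∈ cpt (G.X (n - 1)) U, app (G.d (n - 1) n) ⊤ t - app (q.f n) ⊤ s ∈ Nv _ Z := by
  obtain ⟨C, c1, c2, c3⟩ := hs
  obtain ⟨L, l1, l2, l3⟩ := exists_compact_between c1 U.2 c2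
  obtain ⟨t, a, b⟩ := h L l1 l3 s (mem_Nv.2 fun x hx e => e.1 (l2 (c3 hx)))
    (Nv_anti inter_subset_right hd)
  obtain ⟨u, u1, u2, u3⟩ := hG.cut_top (l1.inter_right hZ) t (isOpen_interior (s := L))
    fun x hx => by
      by_contra e
      exact mem_Nv.1 a hx.2 ⟨e, hx.1⟩
  refine ⟨u, ⟨_, u1, u2.trans (interior_subset.trans l3), Subset.rfl⟩, mem_Nv.2 fun x hx e => ?_⟩
  have := add_mem b (app_mem_Nv (G.d (n - 1) n) u3)
  rw [map_sub, show ∀ a b c : sec (G.X n) ⊤, a - b + (c - a) = c - b from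
    fun _ _ _ => by abel] at this
  refine mem_Nv.1 this hx ⟨interior_subset ?_, e⟩
  exact (supp_sub _ _ hx).elim (fun a => u2 (supp_app _ _ a)) fun a => l2 (c3 (supp_app _ _ a))

/-- Compact supports. -/
theorem gamc_of_van [Nice X] (hG : CSoft (G.X (n - 1))) (U : Opens X)
    (h : ∀ L, IsCompact L → L ⊆ U → Van q (interior L)ᶜ L n)
    {s : sec (F.X n) ⊤} (hs : s ∈ cpt (F.X n) U) (hd : app (F.d n (n + 1)) ⊤ s = 0) :
    ∃ t ∈ cpt (G.X (n - 1)) U, app (G.d (n - 1) n) ⊤ t = app (q.f n) ⊤ s := by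
  obtain ⟨t, a, b⟩ := gamc_of_van_rel hG U isClosed_univ (by simpa using h) hs
    (mem_Nv_univ.2 hd)
  exact ⟨t, a, sub_eq_zero.1 (mem_Nv_univ.1 b)⟩

theorem zero_gamc_rel [Nice X] (hF : SoftC F) (hp : Homotopy (p ≫ p) p) (U : Opens X) {Z : Set X}
    (hZ : IsClosed Z) (h : ∀ x ∈ U, x ∈ Z → ∀ m ≤ n, ZeroAt p m x) {s : sec (F.X n) ⊤}
    (hs : s ∈ cpt (F.X n) U) (hd : app (F.d n (n + 1)) ⊤ s ∈ Nv _ Z) :
    ∃ t ∈ cpt (F.X (n - 1)) U, app (F.d (n - 1) n) ⊤ t - app (p.f n) ⊤ s ∈ Nv _ Z :=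
  gamc_of_van_rel (hF.2 _) U hZ (fun _ a b => van_loc hF hp isOpen_interior.isClosed_compl
    (a.inter_right hZ) fun x hx _ => h x (b hx.1) hx.2) hs hd

theorem zero_gamc [Nice X] (hF : SoftC F) (hp : Homotopy (p ≫ p) p) (U : Opens X)
    (h : ∀ x ∈ U, ∀ m ≤ n, ZeroAt p m x) {s : sec (F.X n) ⊤} (hs : s ∈ cpt (F.X n) U)
    (hd : app (F.d n (n + 1)) ⊤ s = 0) :
    ∃ t ∈ cpt (F.X (n - 1)) U, app (F.d (n - 1) n) ⊤ t = app (p.f n) ⊤ s :=
  gamc_of_van (hF.2 _) U (fun _ a b => van_loc hF hp isOpen_interior.isClosed_compl a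
    fun x hx _ => h x (b hx)) hs hd

theorem ex_gamc [Nice X] (hF : SoftC F) (U : Opens X) (h : ∀ x ∈ U, ∀ m ≤ n, ExAt F m x)
    {s : sec (F.X n) ⊤} (hs : s ∈ cpt (F.X n) U) (hd : app (F.d n (n + 1)) ⊤ s = 0) :
    ∃ t ∈ cpt (F.X (n - 1)) U, app (F.d (n - 1) n) ⊤ t = s :=
  zero_gamc hF (idemId F) U h hs hd

/-- `Van` in terms of compact supports: `T (A, B) = Γ_c (U) / Γ_c (U - Z)`. -/
theorem van_iff_cpt [Nice X] (hF : CSoft (F.X n)) (hG : CSoft (G.X (n - 1))) {U : Opens X}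
    {Z : Set X} (hB : IsCompact B) (h₁ : Z ∩ U ⊆ B) (h₂ : B ⊆ Z) (hA : A ∩ B = B \ U) :
    Van q A B n ↔ ∀ s ∈ cpt (F.X n) U, app (F.d n (n + 1)) ⊤ s ∈ Nv _ Z →
      ∃ t ∈ cpt (G.X (n - 1)) U, app (G.d (n - 1) n) ⊤ t - app (q.f n) ⊤ s ∈ Nv _ Z := by
  have a1 : ∀ {E : Sh k X} {s : sec E ⊤}, s ∈ cpt E U → s ∈ Nv E (A ∩ B) := fun hs =>
    mem_Nv.2 fun x hx e => (hA ▸ e).2 ((mem_cpt_iff.1 hs).2 hx)
  have a2 : ∀ {E : Sh k X} {s : sec E ⊤}, s ∈ cpt E U → s ∈ Nv E B → s ∈ Nv E Z := fun hs h =>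
    mem_Nv.2 fun x hx e => mem_Nv.1 h hx (h₁ ⟨e, (mem_cpt_iff.1 hs).2 hx⟩)
  have a3 : ∀ {E : Sh k X} {s : sec E ⊤}, CSoft E → s ∈ Nv E (A ∩ B) →
      ∃ t ∈ cpt E U, t - s ∈ Nv E B := fun {E s} hE hs => by
    obtain ⟨t, b, c, d⟩ := hE.cut_top hB s U.2 fun x hx => by
      by_contra e
      exact mem_Nv.1 hs hx.2 (hA ▸ ⟨hx.1, e⟩)
    exact ⟨t, mem_cpt_iff.2 ⟨b, c⟩, d⟩
  constructor
  · intro h s hs hd
    obtain ⟨t, a, b⟩ := h s (a1 hs) (Nv_anti h₂ hd)
    obtain ⟨u, c, d⟩ := a3 hG a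
    refine ⟨u, c, a2 (sub_mem (app_mem_cpt _ c) (app_mem_cpt _ hs)) ?_⟩
    have := add_mem b (app_mem_Nv (G.d (n - 1) n) d)
    rwa [map_sub, show ∀ a b c : sec (G.X n) ⊤, a - b + (c - a) = c - b from
      fun _ _ _ => by abel] at this
  · intro h s hs hd
    obtain ⟨u, c, d⟩ := a3 hF hs
    obtain ⟨t, a, b⟩ := h u c (a2 (app_mem_cpt _ c) (by
      have := add_mem (app_mem_Nv (F.d n (n + 1)) d) hd
      rwa [map_sub, sub_add_cancel] at this))
    refine ⟨t, a1 a, ?_⟩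
    have := add_mem (Nv_anti h₂ b) (app_mem_Nv (q.f n) d)
    rwa [map_sub, sub_add_sub_cancel] at this

/-- Sections with support in a closed set `Z` of a flabby complex. -/
theorem zero_supp [Nice X] (hF : FlqC F) (hp : Homotopy (p ≫ p) p) {Z : Set X} (hZ : IsClosed Z)
    (U : Opens X) (h : ∀ x ∈ U, ∀ m ≤ n, ZeroAt p m x) (s : sec (F.X n) U) (hsZ : supp s ⊆ Z)
    (hs : app (F.d n (n + 1)) U s = 0) : ∃ t : sec (F.X (n - 1)) U, supp t ⊆ Z ∧
      app (F.d (n - 1) n) U t = app (p.f n) U s := by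
  obtain ⟨t, ht⟩ := zero_gam hF.softC hp U h s hs
  let V : Opens X := U ⊓ ⟨Zᶜ, hZ.isOpen_compl⟩
  have s0 : res _ (inf_le_left : V ≤ U) s = 0 :=
    (res_eq_zero_iff _ s).2 (Set.disjoint_left.2 fun x hx e => e.2 (hsZ hx))
  obtain ⟨w, hw⟩ := zero_gam (n := n - 1) hF.softC hp V (fun x hx m hm => h x hx.1 m (by omega))
    (res _ inf_le_left t) (by
      have e : n = n - 1 + 1 := by omega
      rw [← F.d_comp_XIsoOfEq_hom e, app_comp, app_res, ht, ← app_res, s0, map_zero, map_zero])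
  obtain ⟨w', rfl⟩ := hF.2 _ U V inf_le_left w
  have e := app_homotopy hp (show n - 1 + 1 = n by omega) rfl U s
  rw [hs, map_zero, zero_add, HomologicalComplex.comp_f, app_comp] at e
  refine ⟨app (p.f _) U t - app (F.d (n - 1 - 1) (n - 1)) U w' - app (hp.hom n (n - 1)) U s,
    (supp_sub _ _).trans (union_subset (fun x hx => ?_) ((supp_app _ s).trans hsZ)), ?_⟩
  · by_contra a
    refine hx.2 V inf_le_left ⟨hx.1, a⟩ ?_
    rw [map_sub, ← app_res, ← app_res, hw, sub_self]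
  · rw [map_sub, map_sub, app_d_d, sub_zero, ← app_f_d, ht, e, add_sub_cancel_left]

theorem zeroAt_gamS [Nice X] (hF : FlqC F) (hp : Homotopy (p ≫ p) p) {Z : Set X} (hZ : IsClosed Z)
    {U : Opens X} (h : ∀ x ∈ U, ∀ m ≤ n, ZeroAt p m x) {x : X} (hx : x ∈ U) :
    ZeroAt ((mapC (GamS k Z)).map p) n x := by
  intro V xV s hs
  obtain ⟨t, a, b⟩ := zero_supp hF hp hZ (V ⊓ U) (fun y hy => h y hy.2)
    (res _ inf_le_left (app (P275SO.gi Z (F.X n)) V s))
    (by rw [supp_res]; exact inter_subset_left.trans (P275SO.gi_mem s)) (by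
      have := (congrArg (app (P275SO.gi Z (F.X (n + 1))) V) hs).trans (map_zero _)
      rw [app_res]
      exact (congrArg _ this).trans (map_zero _))
  obtain ⟨t, rfl⟩ := P275SO.exists_gi t a
  refine ⟨V ⊓ U, inf_le_left, ⟨xV, hx⟩, t, P275SO.gi_inj Z _ ?_⟩
  rw [app_res] at b
  exact b

/-- A flabby complex that is locally exact in degrees `≤ n` has locally exact sections with
support in `Z` in degree `n`. -/
theorem ex_gamS [Nice X] (hF : FlqC F) {Z : Set X} (hZ : IsClosed Z) {U : Opens X}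
    (h : ∀ x ∈ U, ∀ m ≤ n, ExAt F m x) {x : X} (hx : x ∈ U) :
    ExAt ((mapC (GamS k Z)).obj F) n x := by
  have := zeroAt_gamS hF (idemId F) hZ h hx
  rwa [CategoryTheory.Functor.map_id] at this

theorem FlqC.gamS_closed (hF : FlqC F) {Z : Set X} (hZ : IsClosed Z) :
    FlqC ((mapC (GamS k Z)).obj F) := by
  obtain ⟨a, ha⟩ := hF.1
  exact ⟨⟨a, inferInstance⟩, fun n => (hF.2 n).gamS_closed hZ⟩

theorem SoftC.gamS_open [Nice X] (hF : SoftC F) {S : Set X} (hS : IsOpen S) :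
    SoftC ((mapC (GamS k S)).obj F) :=
  ⟨mapC_bdd _ hF.1, fun n => (hF.2 n).gamS_open hS⟩

/-! ### Direct images -/

theorem mem_Nv_push {h : X ⟶ Y} (hh : IsClosedMap h) {E : Sh k X} {B : Set Y}
    (s : sec ((push k h).obj E) ⊤) :
    s ∈ Nv ((push k h).obj E) B ↔ (show sec E ⊤ from s) ∈ Nv E (h ⁻¹' B) := by
  constructor
  · intro a
    refine mem_Nv.2 fun x hx e => ?_
    obtain ⟨V, hV, xV, h0⟩ := (not_mem_supp (s := s) (x := h x) trivial).1
      fun b => mem_Nv.1 a b e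
    exact hx.2 ((Opens.map h).obj V) le_top xV h0
  · intro a
    refine mem_Nv.2 fun y hy e => hy.2 ⟨(h '' supp (show sec E ⊤ from s))ᶜ,
      (hh _ (isClosed_supp _)).isOpen_compl⟩ le_top ?_ ?_
    · rintro ⟨x, hx, rfl⟩
      exact mem_Nv.1 a hx e
    · exact (res_eq_zero_iff (F := E) le_top _).2
        (Set.disjoint_left.2 fun x hx b => b ⟨x, hx, rfl⟩)

theorem van_push {h : X ⟶ Y} (hh : IsClosedMap h) {A B : Set Y} :
    Van ((pushC k h).map q) A B n ↔ Van q (h ⁻¹' A) (h ⁻¹' B) n := by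
  unfold Van
  rw [← preimage_inter]
  exact forall_congr' fun s => imp_congr (mem_Nv_push hh s) (imp_congr (mem_Nv_push hh _)
    (exists_congr fun t => and_congr (mem_Nv_push hh t) (mem_Nv_push hh _)))

theorem CSoft.push_proper {h : X ⟶ Y} (hh : IsProperMap h) {E : Sh k X} (hE : CSoft E) :
    CSoft ((P275S.push k h).obj E) := hE.push h hh

theorem SoftC.push_proper {h : X ⟶ Y} (hh : IsProperMap h) (hF : SoftC F) :
    SoftC ((pushC k h).obj F) := by
  obtain ⟨a, ha⟩ := hF.1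
  exact ⟨⟨a, inferInstance⟩, fun n => (hF.2 n).push_proper hh⟩

theorem FlqC.pushC (h : X ⟶ Y) (hF : FlqC F) : FlqC ((pushC k h).obj F) := by
  obtain ⟨a, ha⟩ := hF.1
  exact ⟨⟨a, inferInstance⟩, fun n => flq_iff.2 ((flq_iff.1 (hF.2 n)).push h)⟩

/-- **Proper base change**, element form. -/
theorem zeroAt_push_iff {h : X ⟶ Y} (hh : IsProperMap h) (hF : CSoft (F.X n))
    (hG : CSoft (G.X (n - 1))) (a : Y) :
    ZeroAt ((pushC k h).map q) n a ↔ Van q ∅ (h ⁻¹' {a}) n := by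
  rw [← preimage_empty (f := h), ← van_push hh.isClosedMap]
  exact ⟨van_pt (hG.push_proper hh) (notMem_empty a),
    zeroAt_of_van (hF.push_proper hh) (notMem_empty a)⟩

theorem exAt_push_iff {h : X ⟶ Y} (hh : IsProperMap h) (hF : SoftC F) (a : Y) :
    ExAt ((pushC k h).obj F) n a ↔ Van (𝟙 F) ∅ (h ⁻¹' {a}) n := by
  rw [← zeroAt_push_iff hh (hF.2 _) (hF.2 _), CategoryTheory.Functor.map_id, zeroAt_id]

/-- Vanishing along the fibre gives vanishing of the stalk of a proper direct image. -/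
theorem zeroAt_push [Nice X] {h : X ⟶ Y} (hh : IsProperMap h) (hF : SoftC F)
    (hp : Homotopy (p ≫ p) p) {a : Y} (H : ∀ x, h x = a → ∀ m ≤ n, ZeroAt p m x) :
    ZeroAt ((pushC k h).map p) n a :=
  (zeroAt_push_iff hh (hF.2 _) (hF.2 _) a).2 (van_loc hF hp isClosed_empty
    (hh.isCompact_preimage isCompact_singleton) fun x hx _ => H x hx)

/-- Vanishing on the inverse image of an open set gives vanishing of any direct image. -/
theorem zeroAt_push_open [Nice X] (h : X ⟶ Y) (hF : SoftC F) (hp : Homotopy (p ≫ p) p)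
    {U : Opens Y} (H : ∀ x, h x ∈ U → ∀ m ≤ n, ZeroAt p m x) {a : Y} (ha : a ∈ U) :
    ZeroAt ((pushC k h).map p) n a := by
  intro V aV s hs
  obtain ⟨t, ht⟩ := zero_gam hF hp ((Opens.map h).obj (V ⊓ U)) (fun x hx => H x hx.2)
    (res (((pushC k h).obj F).X n) inf_le_left s) (by
      have := congrArg (res _ (inf_le_left : V ⊓ U ≤ V)) hs
      rwa [← app_res, map_zero] at this)
  exact ⟨V ⊓ U, inf_le_left, ⟨aV, ha⟩, t, ht.trans (app_res (((pushC k h).map p).f n) _ s)⟩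

theorem exAt_push_open [Nice X] (h : X ⟶ Y) (hF : SoftC F) {U : Opens Y}
    (H : ∀ x, h x ∈ U → ∀ m ≤ n, ExAt F m x) {a : Y} (ha : a ∈ U) :
    ExAt ((pushC k h).obj F) n a := by
  have := zeroAt_push_open h hF (idemId F) H ha
  rwa [CategoryTheory.Functor.map_id] at this

end P275S
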