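import Mathlib

/-! Functions on lists: coboundary and cup product. -/

set_option linter.all false

namespace P275S.ASL

variable {k : Type} [Field k] {X : Type}

/-- The coboundary of a function on lists. -/
def dd : List X → (List X → k) → k
  | [], _ => 0
  | x :: l, f => f l - dd l fun m => f (x :: m)

theorem dd_add (l : List X) (f g : List X → k) : dd l (f + g) = dd l f + dd l g := by
  induction l generalizing f g with
  | nil => simp [dd]
  | cons x l ih =>
    have := ih (fun m => f (x :: m)) (fun m => g (x :: m))
    simp only [dd, Pi.add_apply]
    rw [show (fun m => f (x :: m) + g (x :: m)) = (fun m => f (x :: m)) + fun m => g (x :: m)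
      from rfl, this]
    ring

theorem dd_smul (l : List X) (c : k) (f : List X → k) : dd l (c • f) = c * dd l f := by
  induction l generalizing f with
  | nil => simp [dd]
  | cons x l ih =>
    have := ih (fun m => f (x :: m))
    simp only [dd, Pi.smul_apply, smul_eq_mul]
    rw [show (fun m => c * f (x :: m)) = c • fun m => f (x :: m) from rfl, this]
    ring

/-- The coboundary as a linear map. -/
def D (k : Type) [Field k] (X : Type) : (List X → k) →ₗ[k] (List X → k) where
  toFun f l := dd l f
  map_add' f g := funext fun l => dd_add l f g
  map_smul' c f := funext fun l => dd_smul l c f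

theorem D_nil (f : List X → k) : D k X f [] = 0 := rfl

theorem D_cons (f : List X → k) (x : X) (l : List X) :
    D k X f (x :: l) = f l - D k X (fun m => f (x :: m)) l := rfl

theorem D_D (f : List X → k) (l : List X) : D k X (D k X f) l = 0 := by
  induction l generalizing f with
  | nil => rfl
  | cons x l ih =>
    rw [D_cons, show (fun m => D k X f (x :: m)) = f - D k X (fun m => f (x :: m)) from rfl,
      map_sub, Pi.sub_apply, ih, sub_zero, sub_self]

theorem D_zero (f : List X → k) (l : List X)
    (h : ∀ m : List X, m.Sublist l → m.length + 1 = l.length → f m = 0) : D k X f l = 0 := by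
  induction l generalizing f with
  | nil => rfl
  | cons x l ih =>
    rw [D_cons, h l (List.sublist_cons_self x l) rfl, ih _ fun m hm e =>
      h _ (hm.cons₂ x) (by simp [e]), sub_zero]

theorem D_congr (f g : List X → k) (l : List X)
    (h : ∀ m : List X, m.Sublist l → m.length + 1 = l.length → f m = g m) :
    D k X f l = D k X g l := by
  rw [← sub_eq_zero, ← Pi.sub_apply, ← map_sub]
  exact D_zero _ _ fun m h1 h2 => sub_eq_zero.2 (h m h1 h2)

/-- The cup product, the first factor has degree `p`. -/
def cup (p : ℕ) : (List X → k) →ₗ[k] (List X → k) →ₗ[k] (List X → k) :=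
  LinearMap.mk₂ k (fun a f l => a (l.take (p + 1)) * f (l.drop p))
    (fun _ _ _ => funext fun _ => add_mul _ _ _)
    (fun _ _ _ => funext fun _ => mul_assoc _ _ _)
    (fun _ _ _ => funext fun _ => mul_add _ _ _)
    (fun _ _ _ => funext fun _ => mul_left_comm _ _ _)

theorem cup_apply (p : ℕ) (a f : List X → k) (l : List X) :
    cup p a f l = a (l.take (p + 1)) * f (l.drop p) := rfl

theorem D_cup (p : ℕ) (a f : List X → k) (l : List X) (h : p + 2 ≤ l.length) :
    D k X (cup p a f) l = cup (p + 1) (D k X a) f l + (-1) ^ p * cup p a (D k X f) l := by
  induction p generalizing a l with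
  | zero =>
    match l, h with
    | x :: y :: l, _ =>
      rw [D_cons, show (fun m => cup 0 a f (x :: m)) = a [x] • fun m => f (x :: m) from rfl,
        map_smul]
      simp only [cup_apply, List.take_succ_cons, List.take_zero, List.drop_zero, List.drop_succ_cons,
        D_cons, D_nil, Pi.smul_apply, smul_eq_mul, zero_add]
      ring
  | succ p ih =>
    match l, h with
    | x :: l, h =>
      rw [D_cons, show (fun m => cup (p + 1) a f (x :: m)) = cup p (fun m => a (x :: m)) f from rfl,
        ih _ l (by simpa using h)]
      simp only [cup_apply, List.take_succ_cons, List.drop_succ_cons, D_cons]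
      ring

theorem cup_assoc (p q : ℕ) (a f b : List X → k) :
    cup p a (cup q f b) = cup (p + q) (cup p a f) b := by
  funext l
  simp only [cup_apply, List.take_take, List.drop_drop, List.take_drop, mul_assoc]
  rw [min_eq_left (by omega), add_assoc]

end P275S.ASL
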