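import Vale.Agent.P275S.Loc
import Vale.Agent.P275S.ASL

/-! The Alexander-Spanier complex: a flabby resolution of the constant sheaf with products. -/

set_option linter.all false

open CategoryTheory TopologicalSpace Opposite Limits Topology Filter
open CochainComplex CochainComplex.HomComplex

noncomputable section

namespace P275S

open ASL

variable {k : Type} [Field k] {X : TopCat.{0}}

/-- `f` vanishes on the lists of degree `n` near `x`. -/
def Nr (n : ℤ) (x : X) (f : List X → k) : Prop :=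
  ∃ V ∈ 𝓝 x, ∀ l : List X, 0 ≤ n → (l.length : ℤ) = n + 1 → (∀ y ∈ l, y ∈ V) → f l = 0

theorem Nr.near {n : ℤ} {x : X} {f : List X → k} (h : Nr n x f) : ∀ᶠ y in 𝓝 x, Nr n y f := by
  obtain ⟨V, hV, h⟩ := h
  filter_upwards [eventually_mem_nhds_iff.2 hV] with y hy using ⟨V, hy, h⟩

theorem Nr.add {n : ℤ} {x : X} {f g : List X → k} (h : Nr n x f) (h' : Nr n x g) :
    Nr n x (f + g) := by
  obtain ⟨V, hV, h⟩ := h
  obtain ⟨W, hW, h'⟩ := h'
  exact ⟨V ∩ W, inter_mem hV hW, fun l a b c => by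
    rw [Pi.add_apply, h l a b fun y hy => (c y hy).1, h' l a b fun y hy => (c y hy).2, add_zero]⟩

/-- The functions which vanish near the diagonal of `U`. -/
def Zn (k : Type) [Field k] (n : ℤ) (U : Opens X) : Submodule k (List X → k) where
  carrier := {f | ∀ x ∈ U, Nr n x f}
  zero_mem' := fun x _ => ⟨Set.univ, univ_mem, fun _ _ _ _ => rfl⟩
  add_mem' := fun ha hb x hx => (ha x hx).add (hb x hx)
  smul_mem' := fun c f hf x hx => by
    obtain ⟨V, hV, h⟩ := hf x hx
    exact ⟨V, hV, fun l a b e => by rw [Pi.smul_apply, h l a b e, smul_zero]⟩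

theorem exists_glue [Nice X] (n : ℤ) {ι : Type} (V : ι → Opens X) (f : ι → List X → k)
    (h : ∀ i j, f i - f j ∈ Zn k n (V i ⊓ V j)) : ∃ g : List X → k, ∀ i, g - f i ∈ Zn k n (V i) := by
  classical
  have h1 : ∀ x : X, x ∈ iSup V → ∃ i, ∃ C ∈ 𝓝 x, IsClosed C ∧ C ⊆ V i := fun x hx => by
    obtain ⟨i, hi⟩ := Opens.mem_iSup.1 hx
    exact ⟨i, exists_mem_nhds_isClosed_subset ((V i).2.mem_nhds hi)⟩
  by_cases hne : Nonempty ι
  swap
  · exact ⟨0, fun i => (hne ⟨i⟩).elim⟩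
  choose! a C hC1 hC2 hC3 using h1
  obtain ⟨t, ht1, ht2, ht3⟩ := TopologicalSpace.countable_cover_nhdsWithin
    (s := ((iSup V : Opens X) : Set X)) (f := fun x => interior (C x))
    fun x hx => mem_nhdsWithin_of_mem_nhds (interior_mem_nhds.2 (hC1 x hx))
  obtain ⟨e, he⟩ := Set.countable_iff_exists_injOn.1 ht2
  have h2 : ∀ z : X, z ∈ iSup V → ∃ j : ℕ, ∃ x ∈ t, e x = j ∧ z ∈ interior (C x) := fun z hz => by
    obtain ⟨x, hx, hz⟩ := Set.mem_iUnion₂.1 (ht3 hz)
    exact ⟨_, x, hx, rfl, hz⟩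
  have h3 : ∀ z : X, z ∈ iSup V → ∃ x ∈ t, z ∈ C x ∧ ∀ x' ∈ t, z ∈ interior (C x') → e x ≤ e x' :=
    fun z hz => by
      obtain ⟨x, hx, e1, e2⟩ := Nat.find_spec (h2 z hz)
      exact ⟨x, hx, interior_subset e2, fun x' hx' hz' =>
        e1 ▸ Nat.find_min' (h2 z hz) ⟨x', hx', rfl, hz'⟩⟩
  have h3' : ∀ z : X, ∃ x, z ∈ iSup V →
      x ∈ t ∧ z ∈ C x ∧ ∀ x' ∈ t, z ∈ interior (C x') → e x ≤ e x' := fun z => by
    by_cases hz : z ∈ iSup V
    · obtain ⟨x, hx⟩ := h3 z hz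
      exact ⟨x, fun _ => hx⟩
    · exact ⟨z, fun h => (hz h).elim⟩
  choose b hb using h3'
  let g : List X → k := fun l => match l with
    | [] => 0
    | z :: l => f (a (b z)) (z :: l)
  refine ⟨g, fun i y hy => ?_⟩
  have hyV : y ∈ iSup V := le_iSup V i hy
  obtain ⟨x0, hx0, hy0⟩ := Set.mem_iUnion₂.1 (ht3 hyV)
  have hfin : (t ∩ e ⁻¹' Set.Iic (e x0)).Finite :=
    Set.Finite.of_finite_image (f := e) ((Set.finite_Iic (e x0)).subset (by
      rintro _ ⟨x, hx, rfl⟩
      exact hx.2)) (he.mono Set.inter_subset_left)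
  have h4 : ∀ x ∈ t ∩ e ⁻¹' Set.Iic (e x0), ∃ W ∈ 𝓝 y, ∀ l : List X, 0 ≤ n →
      (l.length : ℤ) = n + 1 → (∀ z ∈ l, z ∈ W) → (∃ z ∈ l, z ∈ C x) → f (a x) l = f i l := by
    intro x hx
    by_cases hyx : y ∈ C x
    · obtain ⟨W, hW, h5⟩ := h (a x) i y ⟨hC3 x (ht1 hx.1) hyx, hy⟩
      exact ⟨W, hW, fun l c1 c2 c3 _ => sub_eq_zero.1 (h5 l c1 c2 c3)⟩
    · exact ⟨(C x)ᶜ, (hC2 x (ht1 hx.1)).isOpen_compl.mem_nhds hyx,
        fun l _ _ c3 ⟨z, c4, c5⟩ => (c3 z c4 c5).elim⟩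
  choose! W hW1 hW2 using h4
  refine ⟨(interior (C x0) ∩ V i) ∩ ⋂ x ∈ t ∩ e ⁻¹' Set.Iic (e x0), W x,
    inter_mem (inter_mem (isOpen_interior.mem_nhds hy0) ((V i).2.mem_nhds hy))
      ((biInter_mem hfin).2 hW1), fun l c1 c2 c3 => ?_⟩
  match l, c2, c3 with
  | [], c2, _ => simp at c2; omega
  | z :: l, c2, c3 =>
    have hz := c3 z List.mem_cons_self
    obtain ⟨d1, d2, d3⟩ := hb z (le_iSup V i hz.1.2)
    have hm : b z ∈ t ∩ e ⁻¹' Set.Iic (e x0) := ⟨d1, d3 x0 hx0 hz.1.1⟩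
    exact sub_eq_zero.2 (hW2 _ hm _ c1 c2 (fun w hw => Set.mem_iInter₂.1 (c3 w hw).2 _ hm)
      ⟨z, List.mem_cons_self, d2⟩)

variable [Nice X]

/-- The sheaf of cochains of degree `n`. -/
def ASn (k : Type) [Field k] (X : TopCat.{0}) [Nice X] (n : ℤ) : Sh k X :=
  Data.sh
    { M := fun U => ModuleCat.of k ((List X → k) ⧸ Zn k n U)
      r := fun {U V} h => Submodule.factor fun f hf x hx => hf x (h hx)
      r_self := fun U s => by
        obtain ⟨f, rfl⟩ := Submodule.Quotient.mk_surjective _ s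
        rfl
      r_r := fun h h' s => by
        obtain ⟨f, rfl⟩ := Submodule.Quotient.mk_surjective _ s
        rfl
      loc := fun U s hs => by
        obtain ⟨f, rfl⟩ := Submodule.Quotient.mk_surjective _ s
        refine (Submodule.Quotient.mk_eq_zero _).2 fun x hx => ?_
        obtain ⟨V, hV, hxV, h0⟩ := hs x hx
        exact (Submodule.Quotient.mk_eq_zero (Zn k n V)).1 h0 x hxV
      gl := fun V s hs => by
        choose f hf using fun i => Submodule.Quotient.mk_surjective _ (s i)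
        obtain ⟨g, hg⟩ := exists_glue n V f fun i j => by
          have := hs i j
          rw [← hf i, ← hf j] at this
          exact (Submodule.Quotient.eq (Zn k n (V i ⊓ V j))).1 this
        refine ⟨Submodule.Quotient.mk g, fun i => ?_⟩
        rw [← hf i]
        exact (Submodule.Quotient.eq (Zn k n (V i))).2 (hg i) }

/-- The section defined by a function. -/
def asMk (n : ℤ) (U : Opens X) : (List X → k) →ₗ[k] sec (ASn k X n) U := (Zn k n U).mkQ

theorem asMk_surj (n : ℤ) (U : Opens X) (s : sec (ASn k X n) U) : ∃ f, asMk n U f = s :=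
  Submodule.Quotient.mk_surjective (Zn k n U) s

theorem asMk_eq_zero {n : ℤ} {U : Opens X} {f : List X → k} :
    asMk n U f = 0 ↔ ∀ x ∈ U, Nr n x f := Submodule.Quotient.mk_eq_zero (Zn k n U)

theorem asMk_eq {n : ℤ} {U : Opens X} {f g : List X → k} :
    asMk n U f = asMk n U g ↔ ∀ x ∈ U, Nr n x (f - g) := Submodule.Quotient.eq (Zn k n U)

theorem res_asMk {n : ℤ} {U V : Opens X} (h : V ≤ U) (f : List X → k) :
    res (ASn k X n) h (asMk n U f) = asMk n V f := rfl

theorem flq_ASn (n : ℤ) : Flq (ASn k X n) := fun U V h s => by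
  obtain ⟨f, rfl⟩ := asMk_surj n V s
  exact ⟨asMk n U f, rfl⟩

theorem asMk_neg {n : ℤ} (h : n < 0) (U : Opens X) (f : List X → k) : asMk n U f = 0 :=
  asMk_eq_zero.2 fun x _ => ⟨Set.univ, univ_mem, fun _ c => absurd c (by omega)⟩

theorem as_neg {n : ℤ} (h : n < 0) {U : Opens X} (s : sec (ASn k X n) U) : s = 0 := by
  obtain ⟨f, rfl⟩ := asMk_surj n U s
  exact asMk_neg h U f

theorem as_ext {n : ℤ} {F : Sh k X} {φ ψ : ASn k X n ⟶ F}
    (h : ∀ p : ℕ, (p : ℤ) = n → ∀ U f, app φ U (asMk n U f) = app ψ U (asMk n U f)) : φ = ψ := by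
  refine hom_ext fun U s => ?_
  by_cases hn : 0 ≤ n
  · obtain ⟨f, rfl⟩ := asMk_surj n U s
    exact h n.toNat (Int.toNat_of_nonneg hn) U f
  · rw [as_neg (not_le.1 hn) s, map_zero, map_zero]

theorem isZero_ASn {n : ℤ} (h : n < 0) : IsZero (ASn k X n) :=
  (IsZero.iff_id_eq_zero _).2 (as_ext fun p hp => by omega)

/-- The morphism defined by a local operator. -/
def asOp (n m : ℤ) (T : (List X → k) →ₗ[k] (List X → k))
    (hT : 0 ≤ n → ∀ x f, Nr n x f → Nr m x (T f)) : ASn k X n ⟶ ASn k X m :=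
  if h : 0 ≤ n then
    mkHom (fun U => Submodule.mapQ (Zn k n U) (Zn k m U) T fun f hf x hx => hT h x f (hf x hx))
      fun U V hV s => by
        obtain ⟨f, rfl⟩ := asMk_surj n U s
        rfl
  else 0

theorem asOp_mk {n m : ℤ} (h : 0 ≤ n) (T : (List X → k) →ₗ[k] (List X → k)) (hT) (U : Opens X)
    (f : List X → k) : app (asOp n m T hT) U (asMk n U f) = asMk m U (T f) := by
  rw [asOp, dif_pos h]
  rfl

theorem nr_D {n : ℤ} (h : 0 ≤ n) (x : X) (f : List X → k) (hf : Nr n x f) :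
    Nr (n + 1) x (D k X f) := by
  obtain ⟨V, hV, hf⟩ := hf
  exact ⟨V, hV, fun l _ c2 c3 => D_zero _ _ fun m d1 d2 =>
    hf m h (by omega) fun y hy => c3 y (d1.subset hy)⟩

theorem nr_cupL {p : ℕ} {q : ℤ} (h : 0 ≤ q) {x : X} {a : List X → k} (ha : Nr p x a)
    (f : List X → k) : Nr (p + q) x (cup p a f) := by
  obtain ⟨V, hV, ha⟩ := ha
  refine ⟨V, hV, fun l _ c2 c3 => ?_⟩
  rw [cup_apply, ha _ (by omega) (by rw [List.length_take]; omega)
    fun y hy => c3 y (List.mem_of_mem_take hy), zero_mul]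

theorem nr_cupR {p : ℕ} {q : ℤ} (h : 0 ≤ q) {x : X} (a : List X → k) {f : List X → k}
    (hf : Nr q x f) : Nr (p + q) x (cup p a f) := by
  obtain ⟨V, hV, hf⟩ := hf
  refine ⟨V, hV, fun l _ c2 c3 => ?_⟩
  rw [cup_apply, hf _ h (by rw [List.length_drop]; omega)
    fun y hy => c3 y (List.mem_of_mem_drop hy), mul_zero]

/-- The Alexander-Spanier complex. -/
def AS (k : Type) [Field k] (X : TopCat.{0}) [Nice X] : Cx k X :=
  CochainComplex.of (ASn k X) (fun n => asOp n (n + 1) (D k X) nr_D) fun n =>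
    as_ext fun p hp U f => by
      rw [app_comp, asOp_mk (by omega), asOp_mk (by omega),
        show D k X (D k X f) = 0 from funext (D_D f), map_zero, app_zero]

theorem AS_d (n : ℤ) : (AS k X).d n (n + 1) = asOp n (n + 1) (D k X) nr_D :=
  CochainComplex.of_d (ASn k X) (fun n => asOp n (n + 1) (D k X) nr_D) n

/-- The cochain defined by a function. -/
def am (n : ℤ) (U : Opens X) : (List X → k) →ₗ[k] sec ((AS k X).X n) U := asMk n U

theorem am_surj (n : ℤ) (U : Opens X) (s : sec ((AS k X).X n) U) : ∃ f, am n U f = s :=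
  asMk_surj n U s

theorem am_eq_zero {n : ℤ} {U : Opens X} {f : List X → k} :
    am n U f = 0 ↔ ∀ x ∈ U, Nr n x f := asMk_eq_zero

theorem am_eq {n : ℤ} {U : Opens X} {f g : List X → k} :
    am n U f = am n U g ↔ ∀ x ∈ U, Nr n x (f - g) := asMk_eq

theorem res_am {n : ℤ} {U V : Opens X} (h : V ≤ U) (f : List X → k) :
    res ((AS k X).X n) h (am n U f) = am n V f := rfl

theorem a_neg {n : ℤ} (h : n < 0) {U : Opens X} (s : sec ((AS k X).X n) U) : s = 0 := as_neg h s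

theorem a_ext {n : ℤ} {F : Sh k X} {φ ψ : (AS k X).X n ⟶ F}
    (h : ∀ p : ℕ, (p : ℤ) = n → ∀ U f, app φ U (am n U f) = app ψ U (am n U f)) : φ = ψ :=
  as_ext h

/-- The morphism defined by a local operator. -/
def aOp (n m : ℤ) (T : (List X → k) →ₗ[k] (List X → k))
    (hT : 0 ≤ n → ∀ x f, Nr n x f → Nr m x (T f)) : (AS k X).X n ⟶ (AS k X).X m := asOp n m T hT

theorem aOp_mk {n m : ℤ} (h : 0 ≤ n) (T : (List X → k) →ₗ[k] (List X → k)) (hT) (U : Opens X)
    (f : List X → k) : app (aOp n m T hT) U (am n U f) = am m U (T f) := asOp_mk h T hT U f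

theorem AS_d_mk {n m : ℤ} (h : 0 ≤ n) (e : n + 1 = m) (U : Opens X) (f : List X → k) :
    app ((AS k X).d n m) U (am n U f) = am m U (D k X f) := by
  subst e
  rw [AS_d]
  exact asOp_mk h _ _ U f

theorem ge_AS : (AS k X).IsStrictlyGE 0 :=
  (CochainComplex.isStrictlyGE_iff _ _).2 fun _ h => isZero_ASn h

theorem flqC_AS : FlqC (AS k X) := ⟨⟨0, ge_AS⟩, flq_ASn⟩

theorem softC_AS : SoftC (AS k X) := ⟨⟨0, ge_AS⟩, fun n K _ U hU s => by
  obtain ⟨t, ht⟩ := flq_ASn (k := k) n ⊤ U le_top s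
  exact ⟨t, U, le_rfl, hU, by rw [res_self]; exact ht⟩⟩

/-- The unit. -/
def asOne (k : Type) [Field k] (X : TopCat.{0}) [Nice X] : sec ((AS k X).X 0) ⊤ :=
  am 0 ⊤ fun _ => 1

theorem d_asOne : app ((AS k X).d 0 (0 + 1)) ⊤ (asOne k X) = 0 := by
  rw [asOne, AS_d_mk le_rfl rfl, am_eq_zero]
  refine fun x _ => ⟨Set.univ, univ_mem, fun l _ c _ => ?_⟩
  match l, c with
  | [y, z], _ => simp [D_cons, D_nil]
  | [], c => simp at c
  | [_], c => simp at c
  | _ :: _ :: _ :: _, c => simp at c; omega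

theorem exAt_AS {n : ℤ} (hn : n ≠ 0) (x : X) : ExAt (AS k X) n x := by
  intro U hx s hs
  by_cases h : n < 0
  · exact ⟨U, le_rfl, hx, 0, by rw [a_neg h s, map_zero, map_zero]⟩
  obtain ⟨f, rfl⟩ := am_surj n U s
  rw [AS_d_mk (by omega) rfl, am_eq_zero] at hs
  obtain ⟨V, hV, h1⟩ := hs x hx
  refine ⟨U ⊓ ⟨interior V, isOpen_interior⟩, inf_le_left, ⟨hx, mem_interior_iff_mem_nhds.2 hV⟩,
    am (n - 1) _ fun m => f (x :: m), ?_⟩
  rw [AS_d_mk (by omega) (by omega), res_am]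
  refine am_eq.2 fun y hy => ⟨V, mem_interior_iff_mem_nhds.1 hy.2, fun l _ c2 c3 => ?_⟩
  have := h1 (x :: l) (by omega) (by simp; omega) fun z hz =>
    (List.mem_cons.1 hz).elim (fun e => e ▸ mem_of_mem_nhds hV) (c3 z)
  rw [D_cons, sub_eq_zero] at this
  exact sub_eq_zero.2 this.symm

theorem as_zero_loc {U : Opens X} {x : X} (hx : x ∈ U) (s : sec ((AS k X).X 0) U)
    (hs : app ((AS k X).d 0 (0 + 1)) U s = 0) :
    ∃ V, ∃ hV : V ≤ U, x ∈ V ∧ ∃ a : k, res _ hV s = a • res _ le_top (asOne k X) := by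
  obtain ⟨f, rfl⟩ := am_surj 0 U s
  rw [AS_d_mk le_rfl rfl, am_eq_zero] at hs
  obtain ⟨V, hV, h1⟩ := hs x hx
  refine ⟨U ⊓ ⟨interior V, isOpen_interior⟩, inf_le_left, ⟨hx, mem_interior_iff_mem_nhds.2 hV⟩,
    f [x], ?_⟩
  rw [asOne, res_am, res_am, ← map_smul]
  refine am_eq.2 fun y hy => ⟨V, mem_interior_iff_mem_nhds.1 hy.2, fun l _ c2 c3 => ?_⟩
  match l, c2, c3 with
  | [z], _, c3 =>
    have := h1 [x, z] (by omega) (by simp) fun w hw =>
      (List.mem_cons.1 hw).elim (fun e => e ▸ mem_of_mem_nhds hV) (c3 w)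
    simpa [D_cons, D_nil] using this
  | [], c, _ => simp at c
  | _ :: _ :: _, c, _ => simp at c; omega

theorem as_one_ne {U : Opens X} {x : X} (hx : x ∈ U) {a : k}
    (h : a • res _ (le_top : U ≤ ⊤) (asOne k X) = 0) : a = 0 := by
  rw [asOne, res_am, ← map_smul] at h
  obtain ⟨V, hV, h2⟩ := am_eq_zero.1 h x hx
  simpa using h2 [x] le_rfl (by simp) fun y hy => by
    rw [List.mem_singleton.1 hy]; exact mem_of_mem_nhds hV

omit [Nice X] in
/-- A criterion for a resolution of the constant sheaf. -/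
theorem qisAt_clsC {F : Cx k X} (c : sec (F.X 0) ⊤) (hc : app (F.d 0 (0 + 1)) ⊤ c = 0) (x : X)
    (h1 : ∀ n, n ≠ 0 → ExAt F n x)
    (h2 : ∀ U, x ∈ U → ∀ s : sec (F.X 0) U, app (F.d 0 (0 + 1)) U s = 0 →
      ∃ V, ∃ hV : V ≤ U, x ∈ V ∧ ∃ (a : k) (t : sec (F.X (0 - 1)) V),
        a • res _ le_top c + app (F.d (0 - 1) 0) V t = res _ hV s)
    (h3 : ∀ U, x ∈ U → ∀ (a : k) (t : sec (F.X (0 - 1)) U),
      app (F.d (0 - 1) 0) U t = a • res _ le_top c → a = 0) : QisAt (clsC c hc) x := by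
  let e : (cstAt k X 0).X 0 ≅ cst k X :=
    HomologicalComplex.singleObjXSelf (ComplexShape.up ℤ) 0 (cst k X)
  have he : (clsC c hc).f 0 = e.hom ≫ secHom c := HomologicalComplex.mkHomFromSingle_f _ _
  have hz : ∀ n, n ≠ 0 → ∀ U (s : sec ((cstAt k X 0).X n) U), s = 0 := fun n hn U s => by
    have h0 : IsZero ((cstAt k X 0).X n) :=
      HomologicalComplex.isZero_single_obj_X (ComplexShape.up ℤ) 0 (cst k X) n hn
    rw [← app_id _ U s, h0.eq_of_src (𝟙 _) 0, app_zero]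
  have ho : ∀ V : Opens X, app (secHom c) V (cstOne k V) = res _ le_top c := fun V => by
    rw [← res_cstOne (le_top : V ≤ ⊤), app_res, secHom_one]
  intro n
  by_cases hn : n = 0
  · subst hn
    constructor
    · intro U hx s hs
      obtain ⟨V, hV, hxV, a, t, h⟩ := h2 U hx s hs
      refine ⟨V, hV, hxV, app e.inv V (a • cstOne k V), hz _ (by omega) _ _, t, ?_⟩
      rw [← app_comp, he, e.inv_hom_id_assoc, map_smul, ho, h]
    · intro U hx s _ t ht
      obtain ⟨V, hV, hxV, a, ha⟩ := exists_cst_eq (app e.hom U s) hx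
      have h4 : a = 0 := h3 V hxV a (res _ hV t) (by
        rw [app_res, ht, he, app_comp, ← app_res, ha, map_smul, ho])
      refine ⟨V, hV, hxV, 0, ?_⟩
      rw [map_zero, ← app_id _ U s, ← e.hom_inv_id, app_comp, ← app_res, ha, h4, zero_smul,
        map_zero]
  · constructor
    · intro U hx s hs
      obtain ⟨V, hV, hxV, t, ht⟩ := h1 n hn U hx s hs
      exact ⟨V, hV, hxV, 0, map_zero _, t, by rw [map_zero, zero_add, ht]⟩
    · intro U hx s _ t _
      exact ⟨U, le_rfl, hx, 0, by rw [hz n hn U s, map_zero, map_zero]⟩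

theorem qisAt_AS (x : X) : QisAt (clsC (asOne k X) d_asOne) x :=
  qisAt_clsC _ _ x (fun _ hn => exAt_AS hn x)
    (fun U hx s hs => by
      obtain ⟨V, hV, hxV, a, h⟩ := as_zero_loc hx s hs
      exact ⟨V, hV, hxV, a, 0, by rw [map_zero, add_zero, h]⟩)
    fun U hx a t h => as_one_ne hx (by rw [← h, a_neg (by omega) t, map_zero])

instance quasiIso_AS : QuasiIso (clsC (asOne k X) d_asOne) := (quasiIso_iff _).2 qisAt_AS

/-- Left multiplication. -/
def asL (p : ℕ) (a : List X → k) : Cochain (AS k X) (AS k X) p :=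
  Cochain.mk fun q r h => aOp q r (cup p a) fun hq x f hf => by
    rw [← h, add_comm]; exact nr_cupR hq a hf

/-- Right multiplication. -/
def asR (p : ℕ) (b : List X → k) : Cochain (AS k X) (AS k X) p :=
  Cochain.mk fun q r h => (p * q).negOnePow • aOp q r ((cup q.toNat).flip b) fun hq x f hf => by
    obtain ⟨q, rfl⟩ := Int.eq_ofNat_of_zero_le hq
    rw [← h]; exact nr_cupL (by omega) hf b

omit [Nice X] in
theorem app_units {F G : Sh k X} (u : ℤˣ) (φ : F ⟶ G) (U : Opens X) (s : sec F U) :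
    app (u • φ) U s = u • app φ U s := by
  rcases Int.units_eq_one_or u with rfl | rfl <;> simp

theorem asL_mk (p q : ℕ) {r : ℤ} (h) (a f : List X → k) (U : Opens X) :
    app ((asL p a).v q r h) U (am q U f) = am r U (cup p a f) := by
  rw [asL, Cochain.mk_v, aOp_mk (by omega)]

theorem asR_mk (p q : ℕ) {r : ℤ} (h) (b f : List X → k) (U : Opens X) :
    app ((asR p b).v q r h) U (am q U f) = ((p : ℤ) * q).negOnePow • am r U (cup q f b) := by
  rw [asR, Cochain.mk_v, app_units, aOp_mk (by omega)]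
  rfl

omit [Nice X] in
theorem neg_smul_eq {M : Type} [AddCommGroup M] [Module k M] (p : ℕ) (v : M) :
    (p : ℤ).negOnePow • v = ((-1 : k) ^ p) • v := by
  rcases Nat.even_or_odd p with h | h
  · rw [Int.negOnePow_even _ (by exact_mod_cast h), h.neg_one_pow, one_smul, one_smul]
  · rw [Int.negOnePow_odd _ (by exact_mod_cast h), h.neg_one_pow]; simp

theorem am_D_cup (p q : ℕ) {r : ℤ} (h : (p : ℤ) + q + 1 = r) (a f : List X → k) (U : Opens X) :
    am r U (D k X (cup p a f)) =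
      am r U (cup (p + 1) (D k X a) f) + (p : ℤ).negOnePow • am r U (cup p a (D k X f)) := by
  rw [neg_smul_eq (k := k), ← map_smul, ← map_add]
  exact am_eq.2 fun x _ => ⟨Set.univ, univ_mem, fun l _ c _ =>
    sub_eq_zero.2 (D_cup p a f l (by omega))⟩

theorem δ_asL (p : ℕ) (a : List X → k) (ha : ∀ x, Nr (p + 1) x (D k X a)) :
    δ p (p + 1) (asL p a) = 0 := by
  ext q r h
  rw [δ_v _ _ rfl _ q r h (r - 1) (q + 1) rfl rfl, Cochain.zero_v]
  refine a_ext fun q' hq U f => ?_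
  subst hq
  rw [app_add, app_units, app_comp, app_comp, asL_mk, AS_d_mk (by omega) (by omega),
    AS_d_mk (by omega) rfl, app_zero, am_D_cup p q' (by omega)]
  erw [asL_mk p (q' + 1)]
  rw [am_eq_zero.2 fun x _ => by
      rw [← h, show (q' : ℤ) + (p + 1) = (p + 1 : ℕ) + q' by omega]
      exact nr_cupL (by omega) (ha x) f,
    zero_add, Int.negOnePow_succ, Units.neg_smul, add_neg_cancel]

theorem δ_asR (p : ℕ) (b : List X → k) (hb : ∀ x, Nr (p + 1) x (D k X b)) :
    δ p (p + 1) (asR p b) = 0 := by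
  ext q r h
  rw [δ_v _ _ rfl _ q r h (r - 1) (q + 1) rfl rfl, Cochain.zero_v]
  refine a_ext fun q' hq U f => ?_
  subst hq
  rw [app_add, app_units, app_comp, app_comp, asR_mk, Units.smul_def, map_zsmul,
    AS_d_mk (by omega) (by omega), AS_d_mk (by omega) rfl, app_zero, am_D_cup q' p (by omega)]
  erw [asR_mk p (q' + 1)]
  rw [am_eq_zero (f := cup q' f (D k X b)).2 fun x _ => by
      rw [← h]
      exact nr_cupR (by omega) f (hb x),
    smul_zero, add_zero, ← Units.smul_def, smul_smul, ← Int.negOnePow_add,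
    show (p : ℤ) + 1 + p * ((q' + 1 : ℕ) : ℤ) = p * q' + 1 + 2 * p by push_cast; ring,
    Int.negOnePow_add, Int.negOnePow_two_mul, mul_one, Int.negOnePow_succ, Units.neg_smul,
    add_neg_cancel]

theorem asL_one (p : ℕ) (a : List X → k) :
    app ((asL p a).v 0 p (zero_add _)) ⊤ (asOne k X) = am p ⊤ a := by
  refine (asL_mk p 0 _ a _ ⊤).trans (am_eq.2 fun x _ => ⟨Set.univ, univ_mem, fun l _ c _ => ?_⟩)
  rw [Pi.sub_apply, cup_apply, List.take_of_length_le (by omega), mul_one, sub_self]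

theorem asR_one (p : ℕ) (b : List X → k) :
    app ((asR p b).v 0 p (zero_add _)) ⊤ (asOne k X) = am p ⊤ b := by
  refine (asR_mk p 0 _ b _ ⊤).trans ?_
  rw [Nat.cast_zero, mul_zero, Int.negOnePow_zero, one_smul]
  exact congrArg _ (funext fun l => one_mul _)

theorem asR_asL (p m : ℕ) (a b : List X → k) {r : ℤ} (h1 : (p : ℤ) + m = r) (h2 : (m : ℤ) + p = r) :
    (asR m b).comp (asL p a) h2 = ((p : ℤ) * m).negOnePow • (asL p a).comp (asR m b) h1 := by
  ext q s h
  rw [Cochain.units_smul_v]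
  refine a_ext fun q' hq U f => ?_
  subst hq
  rw [Cochain.comp_v _ _ h2 q' (q' + m : ℕ) s (by omega) (by omega),
    Cochain.comp_v _ _ h1 q' (p + q' : ℕ) s (by omega) (by omega), app_units, app_comp, app_comp,
    asR_mk, asL_mk, Units.smul_def, map_zsmul, asL_mk, asR_mk, cup_assoc, ← Units.smul_def,
    smul_smul, ← Int.negOnePow_add,
    show (p : ℤ) * m + m * ((p + q' : ℕ) : ℤ) = m * q' + 2 * (p * m) by push_cast; ring,
    Int.negOnePow_add, Int.negOnePow_two_mul, mul_one]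

/-- Left and right multiplications by global cocycles commute up to sign. -/
theorem exists_LR : ∃ L R : ∀ (n : ℤ) (a : sec ((AS k X).X n) ⊤),
      app ((AS k X).d n (n + 1)) ⊤ a = 0 → Cocycle (AS k X) (AS k X) n,
    (∀ n a ha, app ((L n a ha).1.v 0 n (zero_add n)) ⊤ (asOne k X) = a) ∧
    (∀ n a ha, app ((R n a ha).1.v 0 n (zero_add n)) ⊤ (asOne k X) = a) ∧
    ∀ n m a ha b hb r (h1 : n + m = r) (h2 : m + n = r),
      (R m b hb).1.comp (L n a ha).1 h2 =
        (n * m).negOnePow • (L n a ha).1.comp (R m b hb).1 h1 := by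
  choose f hf using fun n => am_surj (k := k) (X := X) n ⊤
  have hd : ∀ (p : ℕ) (a : sec ((AS k X).X p) ⊤), app ((AS k X).d p (p + 1)) ⊤ a = 0 →
      ∀ x, Nr (p + 1) x (D k X (f p a)) := fun p a ha x => by
    rw [← hf p a, AS_d_mk (by omega) rfl] at ha
    exact am_eq_zero.1 ha x trivial
  refine ⟨fun n => match n with
      | Int.ofNat p => fun a ha => Cocycle.mk (asL p (f p a)) _ rfl (δ_asL p _ (hd p a ha))
      | Int.negSucc _ => fun _ _ => 0,
    fun n => match n with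
      | Int.ofNat p => fun a ha => Cocycle.mk (asR p (f p a)) _ rfl (δ_asR p _ (hd p a ha))
      | Int.negSucc _ => fun _ _ => 0, ?_, ?_, ?_⟩
  · rintro (p | p) a ha
    · exact (asL_one p _).trans (hf p a)
    · exact (a_neg (Int.negSucc_lt_zero p) _).trans (a_neg (Int.negSucc_lt_zero p) a).symm
  · rintro (p | p) a ha
    · exact (asR_one p _).trans (hf p a)
    · exact (a_neg (Int.negSucc_lt_zero p) _).trans (a_neg (Int.negSucc_lt_zero p) a).symm
  · rintro (p | p) (m | m) a ha b hb r h1 h2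
    · exact asR_asL p m _ _ h1 h2
    all_goals simp

end P275S
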