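import Vale.Agent.P275S.SoftB

/-! Soft and flabby complexes are acyclic for the functors of sections. -/

open CategoryTheory TopologicalSpace Opposite Limits Set HomologicalComplex CochainComplex
open Vale.Agent

noncomputable section

namespace P275S

variable {k : Type} [Field k] {X Y : TopCat.{0}} {F G : Cx k X} {p : F ⟶ F} {q : F ⟶ G}
  {A B : Set X} {n : ℤ}

theorem hmap_zero_mod {M N : CochainComplex (ModuleCat.{0} k) ℤ} (φ : M ⟶ N) (n : ℤ) :
    homologyMap φ n = 0 ↔ ∀ s : M.X n, (M.d n (n + 1)).hom s = 0 →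
      ∃ t : N.X (n - 1), (N.d (n - 1) n).hom t = (φ.f n).hom s := by
  have h : ∀ i j, i = n - 1 → j = n + 1 → (ShortComplex.homologyMap
      ((shortComplexFunctor' _ (ComplexShape.up ℤ) i n j).map φ) = 0 ↔
      ∀ s : M.X n, (M.d n (n + 1)).hom s = 0 →
        ∃ t : N.X (n - 1), (N.d (n - 1) n).hom t = (φ.f n).hom s) := by
    rintro _ _ rfl rfl
    exact mod_zero_iff _
  exact h _ _ (CochainComplex.prev ℤ n) (CochainComplex.next ℤ n)

theorem exactAt_mod (M : CochainComplex (ModuleCat.{0} k) ℤ) (n : ℤ) :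
    M.ExactAt n ↔ ∀ s : M.X n, (M.d n (n + 1)).hom s = 0 →
      ∃ t : M.X (n - 1), (M.d (n - 1) n).hom t = s := by
  rw [exactAt_iff_isZero_homology, IsZero.iff_id_eq_zero, ← homologyMap_id]
  exact hmap_zero_mod (𝟙 M) n

theorem quasiIso_mapC_iff {C D : Type*} [Category C] [Category D] [Abelian C] [Abelian D]
    (Φ : C ⥤ D) [Φ.Additive] {K L : CochainComplex C ℤ} (f : K ⟶ L) :
    QuasiIso ((mapC Φ).map f) ↔ ∀ n, ((mapC Φ).obj (mappingCone f)).ExactAt n := by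
  rw [quasiIso_iff_cone]
  exact forall_congr' fun n =>
    exactAt_iff_of_quasiIsoAt (mappingCone.mapHomologicalComplexIso f Φ).inv n

theorem qisAt_mapC_iff (Φ : Sh k X ⥤ Sh k Y) [Φ.Additive] (f : F ⟶ G) (y : Y) :
    QisAt ((mapC Φ).map f) y ↔ ∀ n, ExAt ((mapC Φ).obj (mappingCone f)) n y := by
  rw [qisAt_iff_cone]
  exact forall_congr' fun n => (((quasiIso_iff (mappingCone.mapHomologicalComplexIso f Φ).hom).1
    inferInstance y).exAt_iff n).symm

/-- The class in `T (A, B)` of a global section vanishing near `A ∩ B`. -/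
def tabMk {E : Sh k X} (A B : Set X) : Nv E (A ∩ B) →ₗ[k] (TAB k A B).obj E := Submodule.mkQ _

theorem tabMk_surj {E : Sh k X} (z : (TAB k A B).obj E) : ∃ s, tabMk A B s = z :=
  Submodule.Quotient.mk_surjective _ z

theorem tabMk_eq_zero {E : Sh k X} {s : Nv E (A ∩ B)} : tabMk A B s = 0 ↔ s.1 ∈ Nv E B :=
  Submodule.Quotient.mk_eq_zero ((Nv E B).comap (Nv E (A ∩ B)).subtype)

theorem tabMk_eq {E : Sh k X} {s t : Nv E (A ∩ B)} :
    tabMk A B s = tabMk A B t ↔ s.1 - t.1 ∈ Nv E B :=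
  Submodule.Quotient.eq ((Nv E B).comap (Nv E (A ∩ B)).subtype)

theorem map_tabMk {E E' : Sh k X} (φ : E ⟶ E') (s : Nv E (A ∩ B)) :
    ((TAB k A B).map φ).hom (tabMk A B s) = tabMk A B ⟨app φ ⊤ s.1, app_mem_Nv φ s.2⟩ := rfl

/-- `Van` says that the map induced on the cohomology of `T (A, B)` is zero. -/
theorem van_iff_tab : Van q A B n ↔ homologyMap ((mapC (TAB k A B)).map q) n = 0 := by
  rw [hmap_zero_mod]
  constructor
  · intro h s hs
    obtain ⟨s, rfl⟩ := tabMk_surj (E := F.X n) s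
    obtain ⟨t, a, b⟩ := h s.1 s.2 (tabMk_eq_zero.1 ((map_tabMk _ s).symm.trans hs))
    exact ⟨tabMk A B ⟨t, a⟩, (map_tabMk _ _).trans ((tabMk_eq.2 b).trans (map_tabMk _ s).symm)⟩
  · intro h s hs hd
    obtain ⟨t, ht⟩ := h (tabMk A B ⟨s, hs⟩) ((map_tabMk _ _).trans (tabMk_eq_zero.2 hd))
    obtain ⟨t, rfl⟩ := tabMk_surj (E := G.X (n - 1)) t
    exact ⟨t.1, t.2, tabMk_eq.1 ((map_tabMk _ t).symm.trans (ht.trans (map_tabMk _ _)))⟩

theorem van_id_iff : Van (𝟙 F) A B n ↔ ((mapC (TAB k A B)).obj F).ExactAt n := by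
  rw [van_iff_tab, CategoryTheory.Functor.map_id, homologyMap_id, exactAt_iff_isZero_homology,
    IsZero.iff_id_eq_zero]

theorem hmap_gam_iff (U : Opens X) : homologyMap ((mapC (Gam k U)).map q) n = 0 ↔
    ∀ s : sec (F.X n) U, app (F.d n (n + 1)) U s = 0 →
      ∃ t : sec (G.X (n - 1)) U, app (G.d (n - 1) n) U t = app (q.f n) U s := hmap_zero_mod _ n

theorem exactAt_gam_iff (U : Opens X) : ((mapC (Gam k U)).obj F).ExactAt n ↔
    ∀ s : sec (F.X n) U, app (F.d n (n + 1)) U s = 0 →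
      ∃ t : sec (F.X (n - 1)) U, app (F.d (n - 1) n) U t = s := exactAt_mod _ n

theorem hmap_gamc_iff (U : Opens X) : homologyMap ((mapC (Gamc k U)).map q) n = 0 ↔
    ∀ s ∈ cpt (F.X n) U, app (F.d n (n + 1)) ⊤ s = 0 →
      ∃ t ∈ cpt (G.X (n - 1)) U, app (G.d (n - 1) n) ⊤ t = app (q.f n) ⊤ s := by
  rw [hmap_zero_mod]
  constructor
  · intro h s hs hd
    obtain ⟨t, ht⟩ := h ⟨s, hs⟩ (Subtype.ext hd)
    exact ⟨t.1, t.2, congrArg Subtype.val ht⟩
  · intro h s hs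
    obtain ⟨t, a, b⟩ := h s.1 s.2 (congrArg Subtype.val hs)
    exact ⟨⟨t, a⟩, Subtype.ext b⟩

theorem exactAt_gamc_iff (U : Opens X) : ((mapC (Gamc k U)).obj F).ExactAt n ↔
    ∀ s ∈ cpt (F.X n) U, app (F.d n (n + 1)) ⊤ s = 0 →
      ∃ t ∈ cpt (F.X (n - 1)) U, app (F.d (n - 1) n) ⊤ t = s := by
  refine Iff.trans ?_ (hmap_gamc_iff (q := 𝟙 F) U)
  rw [CategoryTheory.Functor.map_id, homologyMap_id, exactAt_iff_isZero_homology,
    IsZero.iff_id_eq_zero]

/-- Extension by zero is exact. -/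
theorem zeroAt_gamS_open {S : Set X} (hS : IsOpen S) {x : X} (h : x ∈ S → ZeroAt q n x) :
    ZeroAt ((mapC (GamS k S)).map q) n x := by
  intro U xU s hs
  by_cases a : x ∈ S
  · obtain ⟨V, hV, xV, t, ht⟩ := h a (U ⊓ ⟨S, hS⟩) ⟨xU, a⟩
      (res _ inf_le_left (app (P275SO.gi S (F.X n)) U s)) (by
      have := (congrArg (app (P275SO.gi S (F.X (n + 1))) U) hs).trans (map_zero _)
      rw [app_res]
      exact (congrArg _ this).trans (map_zero _))
    obtain ⟨t, rfl⟩ := P275SO.exists_gi (S := S) t fun y hy => (hV hy.1).2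
    refine ⟨V, hV.trans inf_le_left, xV, t, P275SO.gi_inj S _ ?_⟩
    rw [app_res, res_res] at ht
    exact ht
  · obtain ⟨V, hV, xV, e⟩ := (not_mem_supp (s := s) xU).1 fun b =>
      a (P275SO.gi_mem s (P275SO.supp_gi s ▸ b))
    exact ⟨V, hV, xV, 0, by rw [map_zero, ← app_res, e, map_zero]⟩

theorem exAt_gamS_open {S : Set X} (hS : IsOpen S) {x : X} (h : x ∈ S → ExAt F n x) :
    ExAt ((mapC (GamS k S)).obj F) n x := by
  have := zeroAt_gamS_open (q := 𝟙 F) hS h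
  rwa [CategoryTheory.Functor.map_id] at this

theorem qisAt_gamS_open {S : Set X} (hS : IsOpen S) {x : X} (h : x ∈ S → QisAt q x) :
    QisAt ((mapC (GamS k S)).map q) x :=
  (qisAt_mapC_iff _ q x).2 fun m => exAt_gamS_open hS fun a => (qisAt_iff_cone q x).1 (h a) m

theorem qis_gamS_open {S : Set X} (hS : IsOpen S) (h : ∀ x ∈ S, QisAt q x) :
    QuasiIso ((mapC (GamS k S)).map q) :=
  (quasiIso_iff _).2 fun x => qisAt_gamS_open hS (h x)

section Nice

variable [Nice X]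

theorem exactAt_gam (hF : SoftC F) (U : Opens X) (h : ∀ x ∈ U, ∀ m ≤ n, ExAt F m x) :
    ((mapC (Gam k U)).obj F).ExactAt n := (exactAt_gam_iff U).2 (ex_gam hF U h)

theorem exactAt_gamc (hF : SoftC F) (U : Opens X) (h : ∀ x ∈ U, ∀ m ≤ n, ExAt F m x) :
    ((mapC (Gamc k U)).obj F).ExactAt n := (exactAt_gamc_iff U).2 fun _ => ex_gamc hF U h

theorem exactAt_tab (hF : SoftC F) (hA : IsClosed A) (hB : IsCompact B)
    (h : ∀ x ∈ B, x ∉ A → ∀ m ≤ n, ExAt F m x) : ((mapC (TAB k A B)).obj F).ExactAt n :=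
  van_id_iff.1 (van_loc hF (idemId F) hA hB h)

theorem qis_gam_loc (hF : SoftC F) (hG : SoftC G) (f : F ⟶ G) (U : Opens X)
    (h : ∀ x ∈ U, QisAt f x) : QuasiIso ((mapC (Gam k U)).map f) :=
  (quasiIso_mapC_iff _ f).2 fun _ => exactAt_gam (hF.cone hG f) U
    fun x hx m _ => (qisAt_iff_cone f x).1 (h x hx) m

theorem qis_gam (hF : SoftC F) (hG : SoftC G) (f : F ⟶ G) [hf : QuasiIso f] (U : Opens X) :
    QuasiIso ((mapC (Gam k U)).map f) :=
  qis_gam_loc hF hG f U fun x _ => (quasiIso_iff f).1 hf x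

theorem qis_gamc_loc (hF : SoftC F) (hG : SoftC G) (f : F ⟶ G) (U : Opens X)
    (h : ∀ x ∈ U, QisAt f x) : QuasiIso ((mapC (Gamc k U)).map f) :=
  (quasiIso_mapC_iff _ f).2 fun _ => exactAt_gamc (hF.cone hG f) U
    fun x hx m _ => (qisAt_iff_cone f x).1 (h x hx) m

theorem qis_gamc (hF : SoftC F) (hG : SoftC G) (f : F ⟶ G) [hf : QuasiIso f] (U : Opens X) :
    QuasiIso ((mapC (Gamc k U)).map f) :=
  qis_gamc_loc hF hG f U fun x _ => (quasiIso_iff f).1 hf x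

theorem qis_tab (hF : SoftC F) (hG : SoftC G) (f : F ⟶ G) (hA : IsClosed A) (hB : IsCompact B)
    (h : ∀ x ∈ B, x ∉ A → QisAt f x) : QuasiIso ((mapC (TAB k A B)).map f) :=
  (quasiIso_mapC_iff _ f).2 fun _ => exactAt_tab (hF.cone hG f) hA hB
    fun x hx hx' m _ => (qisAt_iff_cone f x).1 (h x hx hx') m

theorem qisAt_gamS (hF : FlqC F) (hG : FlqC G) (f : F ⟶ G) {Z : Set X} (hZ : IsClosed Z)
    {U : Opens X} (h : ∀ x ∈ U, QisAt f x) {x : X} (hx : x ∈ U) :
    QisAt ((mapC (GamS k Z)).map f) x :=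
  (qisAt_mapC_iff _ f x).2 fun _ => ex_gamS (hF.cone hG f) hZ
    (fun y hy m _ => (qisAt_iff_cone f y).1 (h y hy) m) hx

theorem qis_gamS (hF : FlqC F) (hG : FlqC G) (f : F ⟶ G) [hf : QuasiIso f] {Z : Set X}
    (hZ : IsClosed Z) : QuasiIso ((mapC (GamS k Z)).map f) :=
  (quasiIso_iff _).2 fun x => qisAt_gamS hF hG f hZ (U := ⊤)
    (fun y _ => (quasiIso_iff f).1 hf y) (x := x) trivial

/-- Direct images of soft complexes: a quasi-isomorphism over `h⁻¹ U`. -/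
theorem qisAt_push_open (h : X ⟶ Y) (hF : SoftC F) (hG : SoftC G) (f : F ⟶ G) {U : Opens Y}
    (H : ∀ x, h x ∈ U → QisAt f x) {a : Y} (ha : a ∈ U) : QisAt ((pushC k h).map f) a :=
  (qisAt_mapC_iff (push k h) f a).2 fun _ => exAt_push_open h (hF.cone hG f)
    (fun y hy m _ => (qisAt_iff_cone f y).1 (H y hy) m) ha

theorem qis_push (h : X ⟶ Y) (hF : SoftC F) (hG : SoftC G) (f : F ⟶ G) [hf : QuasiIso f] :
    QuasiIso ((pushC k h).map f) :=
  (quasiIso_iff _).2 fun a => qisAt_push_open h hF hG f (U := ⊤)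
    (fun y _ => (quasiIso_iff f).1 hf y) (a := a) trivial

theorem exAt_push {h : X ⟶ Y} (hh : IsProperMap h) (hF : SoftC F) {a : Y}
    (H : ∀ x, h x = a → ∀ m ≤ n, ExAt F m x) : ExAt ((pushC k h).obj F) n a := by
  have := zeroAt_push hh hF (idemId F) H
  rwa [CategoryTheory.Functor.map_id] at this

/-- Proper direct images: a quasi-isomorphism along the fibre. -/
theorem qisAt_push {h : X ⟶ Y} (hh : IsProperMap h) (hF : SoftC F) (hG : SoftC G) (f : F ⟶ G)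
    {a : Y} (H : ∀ x, h x = a → QisAt f x) : QisAt ((pushC k h).map f) a :=
  (qisAt_mapC_iff (push k h) f a).2 fun _ => exAt_push hh (hF.cone hG f)
    fun y hy m _ => (qisAt_iff_cone f y).1 (H y hy) m

end Nice

theorem qisAt_push_iff {h : X ⟶ Y} (hh : IsProperMap h) (hF : SoftC F) (hG : SoftC G)
    (f : F ⟶ G) (a : Y) :
    QisAt ((pushC k h).map f) a ↔ QuasiIso ((mapC (TAB k ∅ (h ⁻¹' {a}))).map f) := by
  rw [quasiIso_mapC_iff]
  refine (qisAt_mapC_iff (push k h) f a).trans (forall_congr' fun m => ?_)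
  rw [← van_id_iff]
  exact exAt_push_iff hh (hF.cone hG f) a

end P275S
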