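import Vale.Agent.P275S.Calc
import Vale.Agent.P275S.Soft
import Vale.Agent.P275S.AS

/-! Evaluation of hypercohomology classes, realisation of classes in other resolutions, graded
commutativity. -/

open CategoryTheory Limits TopologicalSpace CochainComplex CochainComplex.HomComplex

noncomputable section

set_option backward.isDefEq.respectTransparency false

namespace P275S

variable {k : Type} [Field k] {X X' Y : TopCat.{0}}

section evf

variable (Φ : Sh k X ⥤ ModuleCat.{0} k) [Φ.Additive] [Φ.Linear k] (γ : Gam k ⊤ ⟶ Φ)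

omit [Φ.Additive] [Φ.Linear k] in
theorem nat_app {E E' : Sh k X} (φ : E ⟶ E') (s : sec E ⊤) :
    Φ.map φ (γ.app E s) = γ.app E' (app φ ⊤ s) :=
  (congrArg (fun g : (Gam k ⊤).obj E ⟶ Φ.obj E' => g s) (γ.naturality φ)).symm

omit [Φ.Linear k] in
theorem nat_cocycle {F : Cx k X} {n : ℤ} (c : sec (F.X n) ⊤) (hc : app (F.d n (n + 1)) ⊤ c = 0) :
    ((mapC Φ).obj F).d n (n + 1) (γ.app (F.X n) c) = 0 :=
  (nat_app Φ γ _ c).trans (by rw [hc]; exact map_zero _)

/-- The class in the cohomology of `Φ A` of a morphism `k_X ⟶ A`. -/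
def evF (A : KG k (Sh k X)) : (kk k X ⟶ A) →ₗ[k] HT ((KG.map k Φ).obj A) :=
  (Linear.leftComp k _ (HT.mk (M := (mapC Φ).obj (cstAt k X 0)) (n := 0) (γ.app _ (one0 k X))
    (nat_cocycle Φ γ _ d_one0))).comp ((KG.map k Φ).mapLinearMap k)

theorem evF_apply {A : KG k (Sh k X)} (x : kk k X ⟶ A) :
    evF Φ γ A x = (HT.mk (M := (mapC Φ).obj (cstAt k X 0)) (n := 0) (γ.app _ (one0 k X))
      (nat_cocycle Φ γ _ d_one0) : HT ((KG.map k Φ).obj (kk k X))) ≫ (KG.map k Φ).map x := rfl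

theorem evF_comp {A B : KG k (Sh k X)} (x : kk k X ⟶ A) (f : A ⟶ B) :
    evF Φ γ B (x ≫ f) = evF Φ γ A x ≫ (KG.map k Φ).map f := by
  rw [evF_apply, evF_apply, Functor.map_comp, Category.assoc]

theorem evF_gcl {F : Cx k X} {n : ℤ} (c : sec (F.X n) ⊤) (hc : app (F.d n (n + 1)) ⊤ c = 0) :
    evF Φ γ (KG.of F) (gcl c hc) =
      HT.mk (M := (mapC Φ).obj F) (γ.app _ c) (nat_cocycle Φ γ c hc) := by
  have e2 : app ((Cocycle.fromSingleMk (secHom c) (zero_add n) (n + 1) rfl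
      (by rw [secHom_comp, hc, secHom_zero]) : Cocycle (cstAt k X 0) F n).1.v 0 n (zero_add n))
      ⊤ (one0 k X) = c := by
    rw [Cocycle.fromSingleMk_coe, Cochain.fromSingleMk_v]
    exact (congrArg (fun g => app g ⊤ (cstOne k ⊤)) (Iso.inv_hom_id_assoc _ _)).trans
      (secHom_one c)
  refine (congrArg (_ ≫ ·) (KG.map_mk Φ _)).trans ((HT.mk_comp_mk (zero_add n) _ _ _).trans
    (HT.mk_congr ?_ _))
  exact (nat_app Φ γ _ _).trans (congrArg (γ.app _) e2)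

theorem evF_mem {A : KG k (Sh k X)} {n : ℤ} {x : kk k X ⟶ A} (hx : x ∈ KG.deg k _ _ n) :
    evF Φ γ A x ∈ KG.deg k _ _ n :=
  KG.comp_mem_deg (zero_add n) (HT.mk_mem _ _) (KG.map_mem_deg Φ hx)

theorem evF_pr {A : KG k (Sh k X)} (n : ℤ) (x : kk k X ⟶ A) :
    evF Φ γ A (KG.pr n x) = KG.pr n (evF Φ γ A x) :=
  (congrArg (_ ≫ ·) (KG.map_pr Φ n x)).trans
    (KG.pr_comp_of_left (zero_add n) (HT.mk_mem _ _) _).symm

theorem evF_bijective (A : KG k (Sh k X)) (h : ∀ n, Function.Bijective (γ.app (A.c.X n))) :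
    Function.Bijective (evF Φ γ A) := by
  obtain ⟨F⟩ := A
  constructor
  · refine (injective_iff_map_eq_zero _).2 fun g hg => KG.ext_pr fun n => ?_
    obtain ⟨c, hc, e⟩ := exists_gcl (KG.pr_mem_deg n g)
    have h1 : evF Φ γ _ (gcl c hc) = 0 := by rw [e, evF_pr, hg, map_zero]
    rw [evF_gcl, HT.mk_eq_zero_iff _ _ (n - 1) (by simp)] at h1
    obtain ⟨b, hb⟩ := h1
    obtain ⟨b, rfl⟩ := (h (n - 1)).2 b
    rw [map_zero, ← e, gcl_eq_zero_iff _ _ (n - 1) (by simp)]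
    exact ⟨b, (h n).1 ((nat_app Φ γ _ b).symm.trans hb)⟩
  · intro y
    induction y using HT.ind (M := (mapC Φ).obj F) with
    | h0 => exact ⟨0, map_zero _⟩
    | hmk n c hc =>
      obtain ⟨c, rfl⟩ := (h n).2 c
      exact ⟨gcl c ((h (n + 1)).1 ((nat_app Φ γ _ c).symm.trans (hc.trans (map_zero _).symm))),
        evF_gcl Φ γ _ _⟩
    | hadd x y hx hy =>
      obtain ⟨a, rfl⟩ := hx
      obtain ⟨b, rfl⟩ := hy
      exact ⟨a + b, map_add _ _ _⟩

end evf

/-- Morphisms `k_X ⟶ A` are the cohomology of the global sections. -/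
def glob (A : KG k (Sh k X)) : (kk k X ⟶ A) ≃ₗ[k] HT ((KG.map k (Gam k ⊤)).obj A) :=
  LinearEquiv.ofBijective (evF (Gam k ⊤) (𝟙 _) A)
    (evF_bijective _ _ A fun _ => Function.bijective_id)

theorem glob_comp {A B : KG k (Sh k X)} (x : kk k X ⟶ A) (f : A ⟶ B) :
    glob B (x ≫ f) = glob A x ≫ (KG.map k (Gam k ⊤)).map f := evF_comp _ _ x f

theorem glob_gcl {F : Cx k X} {n : ℤ} (c : sec (F.X n) ⊤) (hc : app (F.d n (n + 1)) ⊤ c = 0) :
    glob (KG.of F) (gcl c hc) = HT.mk (M := (mapC (Gam k ⊤)).obj F) c hc := evF_gcl _ _ c hc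

theorem glob_pr {A : KG k (Sh k X)} (n : ℤ) (x : kk k X ⟶ A) :
    glob A (KG.pr n x) = KG.pr n (glob A x) := evF_pr _ _ n x

theorem kk_bijective_of_gam {F G : Cx k X} (φ : F ⟶ G)
    (h : QuasiIso ((mapC (Gam k ⊤)).map φ)) :
    Function.Bijective fun x : kk k X ⟶ KG.of F => x ≫ KG.hom k φ := by
  have h1 := (HT.bijective_iff _).2 h
  rw [← Function.Bijective.of_comp_iff' (glob (KG.of G)).bijective]
  have : (glob (KG.of G)) ∘ (fun x : kk k X ⟶ KG.of F => x ≫ KG.hom k φ) =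
      (fun x => x ≫ KG.hom k ((mapC (Gam k ⊤)).map φ)) ∘ glob (KG.of F) := by
    funext x
    exact (glob_comp x _).trans (congrArg (_ ≫ ·) (KG.map_hom _ φ))
  rw [this]
  exact h1.comp (glob (KG.of F)).bijective

/-- A quasi-isomorphism of c-soft complexes is bijective on global classes. -/
theorem kk_bijective [Nice X] {F G : Cx k X} (hF : SoftC F) (hG : SoftC G) (φ : F ⟶ G)
    [QuasiIso φ] : Function.Bijective fun x : kk k X ⟶ KG.of F => x ≫ KG.hom k φ :=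
  kk_bijective_of_gam φ (qis_gam hF hG φ ⊤)

theorem hom_clsC {F : Cx k X} (c : sec (F.X 0) ⊤) (hc : app (F.d 0 (0 + 1)) ⊤ c = 0) :
    (KG.hom k (clsC c hc) : kk k X ⟶ KG.of F) = gcl c hc := by
  refine (mk_eq_gcl _).trans (gcl_congr ?_ _)
  rw [Cocycle.ofHom_coe, Cochain.ofHom_v, clsC, HomologicalComplex.mkHomFromSingle_f]
  exact (congrArg (fun g => app g ⊤ (cstOne k ⊤)) (Iso.inv_hom_id_assoc _ _)).trans
    (secHom_one c)

/-- Cohomology classes as morphisms `k_X ⟶ I X`. -/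
def evI (k : Type) [Field k] (X : TopCat.{0}) : H k X ≃ₗ[k] (kk k X ⟶ IK k X) :=
  LinearEquiv.ofBijective (Linear.leftComp k _ (unit k X)) (unit_bijective (injC_I k X))

theorem evI_apply (a : H k X) : evI k X a = unit k X ≫ a := rfl

theorem evK_id (a : H k X) : evK (𝟙 X) a = evI k X a := by
  rw [evK_apply, uK_id, mul_id]
  rfl

theorem evI_mem_iff {n : ℤ} {a : H k X} : evI k X a ∈ KG.deg k _ _ n ↔ a ∈ Hd k X n := by
  have : evI k X (KG.pr n a) = KG.pr n (evI k X a) :=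
    (KG.pr_comp_of_left (zero_add n) unit_mem a).symm
  rw [KG.mem_deg_iff_pr, ← this, (evI k X).injective.eq_iff]
  exact KG.mem_deg_iff_pr.symm

theorem evK_eq (h : X ⟶ Y) (a : H k X) : evK h a = cU k h ≫ (pushK k h).map (evI k X a) := by
  rw [evI_apply, Functor.map_comp, ← Category.assoc]
  rfl

/-- A resolution of the constant sheaf with its comparison map to the injective resolution. -/
structure Rz (k : Type) [Field k] (X : TopCat.{0}) where
  /-- the complex -/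
  A : Cx k X
  /-- the section `1` -/
  o : sec (A.X 0) ⊤
  ho : app (A.d 0 (0 + 1)) ⊤ o = 0
  qis : QuasiIso (clsC o ho)
  /-- the comparison -/
  ρ : A ⟶ I k X
  hρ : gcl o ho ≫ KG.hom k ρ = unit k X

theorem exists_Rz (A : Cx k X) (o : sec (A.X 0) ⊤) (ho : app (A.d 0 (0 + 1)) ⊤ o = 0)
    [h : QuasiIso (clsC o ho)] : ∃ ρ : A ⟶ I k X, gcl o ho ≫ KG.hom k ρ = unit k X := by
  obtain ⟨ρ, e⟩ := KG.exists_lift_hom (k := k) (clsC o ho) (injC_I k X) (ιI k X)
  exact ⟨ρ, by rw [← hom_clsC]; exact e⟩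

/-- The resolution datum of a resolution. -/
def Rz.mk' (A : Cx k X) (o : sec (A.X 0) ⊤) (ho : app (A.d 0 (0 + 1)) ⊤ o = 0)
    [h : QuasiIso (clsC o ho)] : Rz k X :=
  ⟨A, o, ho, h, (exists_Rz A o ho).choose, (exists_Rz A o ho).choose_spec⟩

namespace Rz

variable (R : Rz k X)

instance : QuasiIso R.ρ := by
  have := R.qis
  obtain ⟨h⟩ := (KG.hom_eq_iff k (clsC R.o R.ho ≫ R.ρ) (ιI k X)).1 (by
    rw [KG.hom_comp, hom_clsC]
    exact R.hρ)
  have : QuasiIso (clsC R.o R.ho ≫ R.ρ) := by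
    rw [quasiIso_iff]
    exact fun x => (qisAt_of_homotopy h x).2 (qisAt_of_quasiIso _ x)
  exact quasiIso_of_comp_left (clsC R.o R.ho) R.ρ

/-- Morphisms from the resolution to injective complexes are determined on the unit. -/
theorem cancel {B : KG k (Sh k X)} (hB : InjC B.c) {g g' : KG.of R.A ⟶ B}
    (h : gcl R.o R.ho ≫ g = gcl R.o R.ho ≫ g') : g = g' := by
  have := R.qis
  rw [← hom_clsC] at h
  exact KG.cancel_qis (clsC R.o R.ho) hB h

theorem cancel_ρ {B : KG k (Sh k X)} (hB : InjC B.c) {g g' : IK k X ⟶ B}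
    (h : KG.hom k R.ρ ≫ g = KG.hom k R.ρ ≫ g') : g = g' := KG.cancel_qis R.ρ hB h

/-- The cohomology class of a morphism `k_X ⟶ A`. -/
def clx : (kk k X ⟶ KG.of R.A) →ₗ[k] H k X :=
  (evI k X).symm.toLinearMap ∘ₗ Linear.rightComp k _ (KG.hom k R.ρ)

theorem evI_clx (x : kk k X ⟶ KG.of R.A) : evI k X (R.clx x) = x ≫ KG.hom k R.ρ :=
  (evI k X).apply_symm_apply _

theorem clx_bijective [Nice X] (hA : SoftC R.A) : Function.Bijective R.clx :=
  (evI k X).symm.bijective.comp (kk_bijective hA (softC_I k X) R.ρ)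

/-- The cohomology class of a global cocycle of the resolution. -/
def cl {n : ℤ} (c : sec (R.A.X n) ⊤) (hc : app (R.A.d n (n + 1)) ⊤ c = 0) : H k X :=
  R.clx (gcl c hc)

theorem evI_cl {n : ℤ} (c : sec (R.A.X n) ⊤) (hc : app (R.A.d n (n + 1)) ⊤ c = 0) :
    evI k X (R.cl c hc) = gcl c hc ≫ KG.hom k R.ρ := R.evI_clx _

theorem cl_mem {n : ℤ} (c : sec (R.A.X n) ⊤) (hc : app (R.A.d n (n + 1)) ⊤ c = 0) :
    R.cl c hc ∈ Hd k X n := by
  rw [← evI_mem_iff, evI_cl]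
  exact KG.comp_mem_deg (add_zero n) (gcl_mem _ _) (KG.hom_mem_deg _)

theorem cl_one : R.cl R.o R.ho = 1 := (evI k X).injective (by
  rw [evI_cl, R.hρ]
  exact (Category.comp_id _).symm)

theorem cl_add {n : ℤ} (c c' : sec (R.A.X n) ⊤) (hc : app (R.A.d n (n + 1)) ⊤ c = 0)
    (hc' : app (R.A.d n (n + 1)) ⊤ c' = 0) :
    R.cl (c + c') (by rw [map_add, hc, hc', add_zero]) = R.cl c hc + R.cl c' hc' := by
  rw [cl, gcl_add c c' hc hc', map_add]
  rfl

theorem cl_smul {n : ℤ} (r : k) (c : sec (R.A.X n) ⊤) (hc : app (R.A.d n (n + 1)) ⊤ c = 0) :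
    R.cl (r • c) (by rw [map_smul, hc, smul_zero]) = r • R.cl c hc := by
  rw [cl, gcl_smul r c hc, map_smul]
  rfl

theorem cl_congr {n : ℤ} {c c' : sec (R.A.X n) ⊤} (h : c = c')
    (hc : app (R.A.d n (n + 1)) ⊤ c = 0) : R.cl c hc = R.cl c' (h ▸ hc) := by
  subst h
  rfl

theorem cl_eq_of_d {n : ℤ} (c c' : sec (R.A.X n) ⊤) (hc : app (R.A.d n (n + 1)) ⊤ c = 0)
    (hc' : app (R.A.d n (n + 1)) ⊤ c' = 0) (m : ℤ) (h : m + 1 = n) (b : sec (R.A.X m) ⊤)
    (hb : app (R.A.d m n) ⊤ b = c - c') : R.cl c hc = R.cl c' hc' :=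
  congrArg R.clx ((gcl_eq_iff c c' hc hc' m h).2 ⟨b, hb⟩)

theorem cl_eq_iff [Nice X] (hA : SoftC R.A) {n : ℤ} (c c' : sec (R.A.X n) ⊤)
    (hc : app (R.A.d n (n + 1)) ⊤ c = 0) (hc' : app (R.A.d n (n + 1)) ⊤ c' = 0) (m : ℤ)
    (h : m + 1 = n) : R.cl c hc = R.cl c' hc' ↔ ∃ b, app (R.A.d m n) ⊤ b = c - c' :=
  (R.clx_bijective hA).1.eq_iff.trans (gcl_eq_iff c c' hc hc' m h)

theorem cl_eq_zero_iff [Nice X] (hA : SoftC R.A) {n : ℤ} (c : sec (R.A.X n) ⊤)
    (hc : app (R.A.d n (n + 1)) ⊤ c = 0) (m : ℤ) (h : m + 1 = n) :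
    R.cl c hc = 0 ↔ ∃ b, app (R.A.d m n) ⊤ b = c :=
  (map_eq_zero_iff R.clx (R.clx_bijective hA).1).trans (gcl_eq_zero_iff c hc m h)

theorem clx_pr (n : ℤ) (x : kk k X ⟶ KG.of R.A) : R.clx (KG.pr n x) = KG.pr n (R.clx x) :=
  (evI k X).injective (by
    rw [evI_clx, ← evK_id, evK_pr, evK_id, evI_clx]
    exact (KG.pr_comp_of_right (add_zero n) x (KG.hom_mem_deg _)).symm)

theorem cl_surj [Nice X] (hA : SoftC R.A) {n : ℤ} {a : H k X} (ha : a ∈ Hd k X n) :
    ∃ c hc, R.cl (n := n) c hc = a := by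
  obtain ⟨x, rfl⟩ := (R.clx_bijective hA).2 a
  obtain ⟨c, hc, e⟩ := exists_gcl (KG.pr_mem_deg n x)
  exact ⟨c, hc, by rw [cl, e, clx_pr]; exact KG.pr_of_mem ha⟩

/-- An operator between two resolutions realises the class of the image of the unit. -/
theorem realise (R' : Rz k X) (z : (KG.of R.A : KG k (Sh k X)) ⟶ KG.of R'.A) :
    KG.hom k R.ρ ≫ R'.clx (gcl R.o R.ho ≫ z) = z ≫ KG.hom k R'.ρ :=
  R.cancel (injC_I k X) (by
    rw [← Category.assoc, R.hρ]
    exact (R'.evI_clx _).trans (Category.assoc _ _ _))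

theorem realise_mk (R' : Rz k X) {n : ℤ} (z : Cocycle R.A R'.A n) {c : sec (R'.A.X n) ⊤}
    (hc : app (R'.A.d n (n + 1)) ⊤ c = 0) (h : app (z.1.v 0 n (zero_add n)) ⊤ R.o = c) :
    KG.hom k R.ρ ≫ R'.cl c hc = KG.mk k z ≫ KG.hom k R'.ρ := by
  subst h
  rw [← realise, gcl_comp_mk (zero_add n)]
  rfl

/-- The product with a class realised by an operator. -/
theorem mul_clx (R' : Rz k X) {a : H k X} {z : (KG.of R.A : KG k (Sh k X)) ⟶ KG.of R'.A}
    (h : KG.hom k R.ρ ≫ a = z ≫ KG.hom k R'.ρ) (x : kk k X ⟶ KG.of R.A) :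
    a * R.clx x = R'.clx (x ≫ z) := (evI k X).injective (by
  rw [evI_clx, Category.assoc, ← h, ← Category.assoc, ← evI_clx, evI_apply, evI_apply,
    End.mul_def, Category.assoc])

/-- A chain map `A ⟶ f_* A'` preserving the unit realises the pull-back. -/
theorem realise_pull (R' : Rz k X') (f : X' ⟶ X) (φ : R.A ⟶ (pushC k f).obj R'.A)
    (hφ : app (φ.f 0) ⊤ R.o = R'.o) :
    KG.hom k R.ρ ≫ pullI k f = KG.hom k φ ≫ (pushK k f).map (KG.hom k R'.ρ) :=
  R.cancel (injC_K f) (by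
    rw [← Category.assoc, R.hρ, unit_pullI, ← Category.assoc, gcl_comp_hom, uK, ← R'.hρ,
      Functor.map_comp, ← Category.assoc, cU_gcl]
    exact congrArg (· ≫ _) (gcl_congr (F := (pushC k f).obj R'.A) hφ.symm _))

theorem pb_cl (R' : Rz k X') (f : X' ⟶ X) (φ : R.A ⟶ (pushC k f).obj R'.A)
    (hφ : app (φ.f 0) ⊤ R.o = R'.o) {n : ℤ} (c : sec (R.A.X n) ⊤)
    (hc : app (R.A.d n (n + 1)) ⊤ c = 0) :
    pb f (R.cl c hc) = R'.cl (n := n) (app (φ.f n) ⊤ c) (hom_app_cocycle c hc φ) :=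
  (evK f).injective (by
    rw [evK_pb, ← Category.assoc, ← evI_apply, evI_cl, Category.assoc, R.realise_pull R' f φ hφ,
      ← Category.assoc, gcl_comp_hom, evK_eq, evI_cl, Functor.map_comp, ← Category.assoc, cU_gcl])

end Rz

/-- The injective resolution as a resolution datum. -/
def oneI (k : Type) [Field k] (X : TopCat.{0}) : sec ((I k X).X 0) ⊤ :=
  app ((ιI k X).f 0) ⊤ (one0 k X)

theorem d_oneI : app ((I k X).d 0 (0 + 1)) ⊤ (oneI k X) = 0 := hom_app_cocycle _ d_one0 _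

theorem gcl_oneI : gcl (oneI k X) d_oneI = unit k X := by
  rw [unit, ← Category.id_comp (KG.hom k (ιI k X))]
  exact (gcl_comp_hom _ d_one0 _).symm.trans (congrArg (· ≫ _) gcl_one0)

/-- Graded commutativity of the cohomology ring. -/
theorem mul_comm_Hd [Nice X] {a b : H k X} {m n : ℤ} (ha : a ∈ Hd k X m) (hb : b ∈ Hd k X n) :
    a * b = (m * n).negOnePow • (b * a) := by
  let R : Rz k X := Rz.mk' (AS k X) (asOne k X) d_asOne
  obtain ⟨L, L', h1, h2, h3⟩ := exists_LR (k := k) (X := X)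
  obtain ⟨c, hc, rfl⟩ := R.cl_surj softC_AS ha
  obtain ⟨c', hc', rfl⟩ := R.cl_surj softC_AS hb
  have e1 := R.realise_mk R (L m c hc) hc (h1 m c hc)
  have e2 := R.realise_mk R (L' n c' hc') hc' (h2 n c' hc')
  have e3 : (KG.mk k (L' n c' hc') ≫ KG.mk k (L m c hc) : (KG.of R.A : KG k (Sh k X)) ⟶ _) =
      (m * n).negOnePow • (KG.mk k (L m c hc) ≫ KG.mk k (L' n c' hc')) := by
    rw [KG.mk_comp k (add_comm n m), KG.mk_comp k rfl, Units.smul_def, ← map_zsmul]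
    exact congrArg _ (Cocycle.ext (h3 m n c hc c' hc' _ rfl (add_comm n m)))
  refine R.cancel_ρ (injC_I k X) ?_
  generalize (KG.mk k (L' n c' hc') : (KG.of R.A : KG k (Sh k X)) ⟶ KG.of R.A) = u at e2 e3
  generalize (KG.mk k (L m c hc) : (KG.of R.A : KG k (Sh k X)) ⟶ KG.of R.A) = v at e1 e3
  rw [End.mul_def, End.mul_def, Units.smul_def, Preadditive.comp_zsmul, ← Category.assoc, e2,
    Category.assoc, e1, ← Category.assoc, e3, ← Category.assoc, e1, Category.assoc, e2,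
    Units.smul_def, Preadditive.zsmul_comp, Category.assoc]

theorem commute_of_even [Nice X] {a : H k X} {m : ℤ} (ha : a ∈ Hd k X m) (hm : Even m)
    (b : H k X) : Commute a b := by
  induction b using KG.ind_deg with
  | h0 => exact Commute.zero_right a
  | hadd x y hx hy => exact hx.add_right hy
  | hmk n b hb =>
    have := mul_comm_Hd ha hb
    rw [Int.negOnePow_even _ (hm.mul_right n), one_smul] at this
    exact this

end P275S
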