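import Vale.Agent.P275S.Chern
import Vale.Agent.P275S.Real

/-! Classes of global cocycles in the cohomology ring, first Chern classes, small spaces. -/

open CategoryTheory Limits TopologicalSpace CochainComplex CochainComplex.HomComplex
open P275CC (LB Co)

noncomputable section

set_option backward.isDefEq.respectTransparency false

namespace P275S

variable {k : Type} [Field k] {X X' : TopCat.{0}}

/-- The class in the cohomology ring of a global cocycle of the resolution. -/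
def hc {n : ℤ} (c : sec ((I k X).X n) ⊤) (h : app ((I k X).d n (n + 1)) ⊤ c = 0) : H k X :=
  (evI k X).symm (gcl c h)

theorem unit_hc {n : ℤ} (c : sec ((I k X).X n) ⊤) (h : app ((I k X).d n (n + 1)) ⊤ c = 0) :
    unit k X ≫ hc c h = gcl c h := (evI k X).apply_symm_apply _

theorem hc_mem {n : ℤ} (c : sec ((I k X).X n) ⊤) (h : app ((I k X).d n (n + 1)) ⊤ c = 0) :
    hc c h ∈ Hd k X n := evI_mem_iff.1 (by rw [evI_apply, unit_hc]; exact gcl_mem _ _)

theorem exists_hc {n : ℤ} {a : H k X} (ha : a ∈ Hd k X n) :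
    ∃ (c : sec ((I k X).X n) ⊤) (h : app ((I k X).d n (n + 1)) ⊤ c = 0), hc c h = a := by
  obtain ⟨c, h, e⟩ := exists_gcl (evI_mem_iff.2 ha)
  exact ⟨c, h, by rw [hc, e, LinearEquiv.symm_apply_apply]⟩

theorem hc_eq_zero_iff {n : ℤ} (c : sec ((I k X).X n) ⊤)
    (h : app ((I k X).d n (n + 1)) ⊤ c = 0) (m : ℤ) (e : m + 1 = n) :
    hc c h = 0 ↔ ∃ b : sec ((I k X).X m) ⊤, app ((I k X).d m n) ⊤ b = c :=
  (evI k X).symm.map_eq_zero_iff.trans (gcl_eq_zero_iff c h m e)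

theorem hc_eq_iff {n : ℤ} (c c' : sec ((I k X).X n) ⊤) (h : app ((I k X).d n (n + 1)) ⊤ c = 0)
    (h' : app ((I k X).d n (n + 1)) ⊤ c' = 0) (m : ℤ) (e : m + 1 = n) :
    hc c h = hc c' h' ↔ ∃ b : sec ((I k X).X m) ⊤, app ((I k X).d m n) ⊤ b = c - c' :=
  (evI k X).symm.injective.eq_iff.trans (gcl_eq_iff c c' h h' m e)

theorem hc_add {n : ℤ} (c c' : sec ((I k X).X n) ⊤) (h : app ((I k X).d n (n + 1)) ⊤ c = 0)
    (h' : app ((I k X).d n (n + 1)) ⊤ c' = 0) :
    hc (c + c') (by rw [map_add, h, h', add_zero]) = hc c h + hc c' h' :=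
  (congrArg (evI k X).symm (gcl_add c c' h h')).trans (map_add _ _ _)

theorem hc_sub {n : ℤ} (c c' : sec ((I k X).X n) ⊤) (h : app ((I k X).d n (n + 1)) ⊤ c = 0)
    (h' : app ((I k X).d n (n + 1)) ⊤ c' = 0) :
    hc (c - c') (by rw [map_sub, h, h', sub_zero]) = hc c h - hc c' h' :=
  (congrArg (evI k X).symm (gcl_sub c c' h h')).trans (map_sub _ _ _)

theorem hc_smul {n : ℤ} (r : k) (c : sec ((I k X).X n) ⊤)
    (h : app ((I k X).d n (n + 1)) ⊤ c = 0) :
    hc (r • c) (by rw [map_smul, h, smul_zero]) = r • hc c h :=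
  (congrArg (evI k X).symm (gcl_smul r c h)).trans (map_smul _ _ _)

theorem hc_congr {n : ℤ} {c c' : sec ((I k X).X n) ⊤} (e : c = c')
    (h : app ((I k X).d n (n + 1)) ⊤ c = 0) : hc c h = hc c' (e ▸ h) := by
  subst e
  rfl

theorem d_eI : app ((I k X).d 0 (0 + 1)) ⊤ (eI k X) = 0 := (rs_I k X).de

theorem gcl_eI : gcl (eI k X) d_eI = unit k X := by
  have := gcl_comp_hom (one0 k X) d_one0 (ιI k X)
  rw [gcl_one0] at this
  exact this.symm.trans (Category.id_comp _)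

theorem hc_one : hc (eI k X) d_eI = 1 :=
  (evI k X).injective ((unit_hc _ _).trans (gcl_eI.trans (Category.comp_id _).symm))

theorem mk_mul_hc {n a m : ℤ} (e : n + a = m) (c : sec ((I k X).X n) ⊤)
    (h : app ((I k X).d n (n + 1)) ⊤ c = 0) (z : Cocycle (I k X) (I k X) a) :
    (show H k X from KG.mk k z) * hc c h = hc (app (z.1.v n m e) ⊤ c) (cocycle_app e c h z) :=
  (evI k X).injective (by
    rw [evI_apply, evI_apply, unit_hc, End.mul_def, ← Category.assoc, unit_hc]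
    exact gcl_comp_mk e c h z)

theorem d_pz {f : X' ⟶ X} {F : Cx k X} {G : Cx k X'} (ρ : F ⟶ (pushC k f).obj G) (i j : ℤ)
    (c : sec (F.X i) ⊤) : app (G.d i j) ⊤ (pz ρ i c) = pz ρ j (app (F.d i j) ⊤ c) :=
  (app_f_d ρ i j ⊤ c).symm

theorem evK_hc (f : X' ⟶ X) {n : ℤ} (c : sec ((I k X').X n) ⊤)
    (h : app ((I k X').d n (n + 1)) ⊤ c = 0) :
    evK f (hc c h) = gcl (F := (pushC k f).obj (I k X')) c h := by
  rw [evK_apply, uK, mul_def, Category.assoc, ← Functor.map_comp, unit_hc, cU_gcl]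

theorem pb_hc (f : X' ⟶ X) {n : ℤ} (c : sec ((I k X).X n) ⊤)
    (h : app ((I k X).d n (n + 1)) ⊤ c = 0) :
    pb f (hc c h) = hc (pz (pullC k f) n c) (by rw [d_pz, h, map_zero]) :=
  (evK f).injective (by
    rw [evK_pb, evK_hc, ← Category.assoc, unit_hc]
    exact gcl_comp_hom c h (pullC k f))

theorem pz_eI (f : X' ⟶ X) : pz (pullC k f) 0 (eI k X) = eI k X' := by
  have := pb_hc f (eI k X) d_eI
  rw [hc_one, map_one, ← hc_one, hc_eq_iff _ _ _ _ (-1) rfl] at this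
  obtain ⟨b, hb⟩ := this
  rw [(rs_I k X').neg _ (by omega) _ b, map_zero] at hb
  exact (sub_eq_zero.1 hb.symm).symm

theorem pz_eq_zero {f : X' ⟶ X} {F : Cx k X} {G : Cx k X'} (ρ : F ⟶ (pushC k f).obj G) {n : ℤ}
    {c : sec (F.X n) ⊤} (hc : c ∈ Nv (F.X n) (Set.range f)) : pz ρ n c = 0 := by
  obtain ⟨V, hV, h⟩ := mem_Nv_iff_res.1 hc
  refine loc_zero (G.X n) _ fun x _ => ⟨(Opens.map f).obj V, le_top, hV ⟨x, rfl⟩, ?_⟩
  have := app_res (ρ.f n) (le_top : V ≤ ⊤) c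
  rw [h, map_zero] at this
  exact this.symm

/-- A class that vanishes near the image of `f` pulls back to zero. -/
theorem pb_hc_eq_zero (f : X' ⟶ X) {n m : ℤ} (e : m + 1 = n) (c : sec ((I k X).X n) ⊤)
    (h : app ((I k X).d n (n + 1)) ⊤ c = 0) (t : sec ((I k X).X m) ⊤)
    (ht : c - app ((I k X).d m n) ⊤ t ∈ Nv _ (Set.range f)) : pb f (hc c h) = 0 := by
  rw [pb_hc, hc_eq_zero_iff _ _ m e]
  have := pz_eq_zero (pullC k f) ht
  rw [map_sub, sub_eq_zero, ← d_pz] at this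
  exact ⟨_, this.symm⟩

theorem pb_pr (f : X' ⟶ X) (n : ℤ) (a : H k X) : pb f (KG.pr n a) = KG.pr n (pb f a) := by
  induction a using KG.ind_deg with
  | h0 => simp only [map_zero]
  | hadd x y hx hy => simp only [map_add, hx, hy]
  | hmk m a ha =>
    by_cases e : m = n
    · subst e
      rw [KG.pr_of_mem ha, KG.pr_of_mem (pb_mem f ha)]
    · rw [KG.pr_of_ne ha e, KG.pr_of_ne (pb_mem f ha) e, map_zero]

theorem eq_zero_of_neg {n : ℤ} (hn : n < 0) {a : H k X} (ha : a ∈ Hd k X n) : a = 0 := by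
  obtain ⟨c, h, rfl⟩ := exists_hc ha
  exact (hc_eq_zero_iff _ _ (n - 1) (by omega)).2 ⟨0, by
    rw [map_zero, (rs_I k X).neg n hn _ c]⟩

theorem H_one_ne_zero [Nonempty X] : (1 : H k X) ≠ 0 := by
  rw [← hc_one, Ne, hc_eq_zero_iff _ _ (-1) rfl]
  rintro ⟨b, hb⟩
  rw [(rs_I k X).neg _ (by omega) _ b, map_zero] at hb
  exact one_ne_zero ((rs_I k X).ne ⊤ (Classical.arbitrary X) trivial 1 (by
    rw [← hb, map_zero, smul_zero]))

theorem H_empty [IsEmpty X] (a : H k X) : a = 0 := by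
  induction a using KG.ind_deg with
  | h0 => rfl
  | hadd x y hx hy => rw [hx, hy, add_zero]
  | hmk n a ha =>
    obtain ⟨c, h, rfl⟩ := exists_hc ha
    exact (hc_eq_zero_iff _ _ (n - 1) (by omega)).2
      ⟨0, loc_ext _ _ _ fun x _ => isEmptyElim x⟩

theorem pow_mem_Hd {a : H k X} {n : ℤ} (ha : a ∈ Hd k X n) (i : ℕ) : a ^ i ∈ Hd k X (n * i) := by
  induction i with
  | zero => simpa using one_mem_Hd
  | succ i ih =>
    rw [pow_succ]
    exact mul_mem_Hd (by push_cast; ring) ih ha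

theorem eq_zero_of_vn {n : ℤ} (h : Ab.Vn (dG (I k X)) (gG (I k X)) ∅ Set.univ n) {a : H k X}
    (ha : a ∈ Hd k X n) : a = 0 := by
  obtain ⟨c, hc', rfl⟩ := exists_hc ha
  obtain ⟨t, ht⟩ := bd_empty_iff.1 (Ab.vn_iff.1 h c (cc_empty_iff.2 (by rw [hc']; exact zero_mem _)))
  exact (hc_eq_zero_iff _ _ (n - 1) (by omega)).2 ⟨t, (sub_eq_zero.1 (mem_Nv_univ'.1 ht)).symm⟩

theorem exists_smul_of_le1 {n : ℤ} (h : Ab.Le1 (dG (I k X)) (gG (I k X)) ∅ Set.univ n)
    {w : H k X} (hw : w ∈ Hd k X n) (h0 : w ≠ 0) {a : H k X} (ha : a ∈ Hd k X n) :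
    ∃ r : k, a = r • w := by
  obtain ⟨c, hc', rfl⟩ := exists_hc ha
  obtain ⟨u, hu, rfl⟩ := exists_hc hw
  obtain ⟨r, hr⟩ := h.span (w := u) (cc_empty_iff.2 (by rw [hu]; exact zero_mem _)) (fun a => by
    obtain ⟨t, ht⟩ := bd_empty_iff.1 a
    exact h0 ((hc_eq_zero_iff _ _ (n - 1) (by omega)).2
      ⟨t, (sub_eq_zero.1 (mem_Nv_univ'.1 ht)).symm⟩))
    (s := c) (cc_empty_iff.2 (by rw [hc']; exact zero_mem _))
  obtain ⟨t, ht⟩ := bd_empty_iff.1 hr
  exact ⟨r, by
    rw [← hc_smul, hc_eq_iff _ _ _ _ (n - 1) (by omega)]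
    exact ⟨t, (sub_eq_zero.1 (mem_Nv_univ'.1 ht)).symm⟩⟩

/-- On a connected space the classes of degree zero are the constants. -/
theorem exists_smul_one [PreconnectedSpace X] [Nice X] {a : H k X} (ha : a ∈ Hd k X 0) :
    ∃ r : k, a = r • 1 := by
  obtain ⟨c, hc', rfl⟩ := exists_hc ha
  obtain ⟨r, hr⟩ := (res_I k X).zero_conn isPreconnected_univ (s := c)
    (by rw [show dG (I k X) 0 1 c = 0 from hc']; exact zero_mem _)
  refine ⟨r, ?_⟩
  rw [← hc_one, ← hc_smul]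
  exact hc_congr (sub_eq_zero.1 (mem_Nv_univ'.1 (mem_Nv_iff.2 hr))) _

/-- A homogeneous basis of the cohomology ring. -/
theorem bij_of_deg {ι : Type} [Fintype ι] {c : ι → H k X} {d : ι → ℤ} (hd : Function.Injective d)
    (hc : ∀ i, c i ∈ Hd k X (d i)) (h0 : ∀ i, c i ≠ 0)
    (h1 : ∀ i, ∀ a ∈ Hd k X (d i), ∃ r : k, a = r • c i)
    (h2 : ∀ n, (∀ i, d i ≠ n) → ∀ a ∈ Hd k X n, a = 0) :
    Function.Bijective fun r : ι → k => ∑ i, r i • c i := by
  classical
  constructor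
  · intro r r' e
    funext j
    have key : ∀ r : ι → k, KG.pr (d j) (∑ i, r i • c i) = r j • c j := fun r => by
      rw [map_sum, Finset.sum_eq_single j]
      · rw [map_smul, KG.pr_of_mem (hc j)]
      · intro i _ hij
        rw [map_smul, KG.pr_of_ne (hc i) (hd.ne hij), smul_zero]
      · simp
    have := congrArg (KG.pr (d j)) e
    simp only [key] at this
    exact smul_left_injective k (h0 j) this
  · intro a
    induction a using KG.ind_deg with
    | h0 => exact ⟨0, by simp⟩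
    | hadd x y hx hy =>
      obtain ⟨r, rfl⟩ := hx
      obtain ⟨r', rfl⟩ := hy
      exact ⟨r + r', by simp [add_smul, Finset.sum_add_distrib]⟩
    | hmk n a ha =>
      by_cases hn : ∃ i, d i = n
      · obtain ⟨i, rfl⟩ := hn
        obtain ⟨r, rfl⟩ := h1 i a ha
        exact ⟨Pi.single i r, by simp [Pi.single_apply, ite_smul]⟩
      · exact ⟨0, by simpa using (h2 n (fun i e => hn ⟨i, e⟩) a ha).symm⟩

/-- An acyclic space has the cohomology of a point. -/
theorem H_acy [Nice X] [Nonempty X] (h : Ab.Acy (dG (I k X)) (gG (I k X)) Set.univ) :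
    Function.Bijective fun r : Unit → k => ∑ i, r i • (1 : H k X) := by
  have : PreconnectedSpace X := ⟨h.1⟩
  refine bij_of_deg (d := fun _ => 0) (fun _ _ _ => rfl) (fun _ => one_mem_Hd)
    (fun _ => H_one_ne_zero) (fun _ a ha => exists_smul_one ha) fun n hn a ha => ?_
  rcases lt_or_gt_of_ne (hn ()) with h0 | h0
  · exact eq_zero_of_vn (h.2 n h0) ha
  · exact eq_zero_of_neg h0 ha

/-- A compact space homeomorphic to a convex set has the cohomology of a point. -/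
theorem H_convex [Nice X] [Nonempty X] [CompactSpace X] {n : ℕ} {g : X → Fin n → ℝ}
    (hg : Continuous g) (hi : Function.Injective g) (hc : Convex ℝ (Set.range g)) :
    Function.Bijective fun r : Unit → k => ∑ i, r i • (1 : H k X) :=
  H_acy ((res_I k X).acy_convex n isCompact_univ g hg.continuousOn hi.injOn
    (by rwa [Set.image_univ]))

instance : Nice (TopCat.of unitInterval) := ⟨inferInstance, inferInstance, inferInstance⟩

/-- The cohomology of the interval. -/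
theorem H_interval (k : Type) [Field k] :
    Function.Bijective fun r : Unit → k => ∑ i, r i • (1 : H k (TopCat.of unitInterval)) := by
  refine H_convex (X := TopCat.of unitInterval) (g := fun x (_ : Fin 1) => x.1)
    (continuous_pi fun _ => continuous_subtype_val) (fun x y e => Subtype.ext (congrFun e 0)) ?_
  rintro _ ⟨x, rfl⟩ _ ⟨y, rfl⟩ a b ha hb hab
  exact ⟨⟨_, convex_Icc 0 1 x.2 y.2 ha hb hab⟩, rfl⟩

/-! ### first Chern classes -/

/-- The first Chern class (without the factor `2πi`). -/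
def c1 (L : LB X) : H ℂ X := hc (c1z L) (d_c1z L _)

theorem c1_mem (L : LB X) : c1 L ∈ Hd ℂ X 2 := hc_mem _ _

theorem c1_eq {L : LB X} {c : sec ((I ℂ X).X 2) ⊤} (h : IsC1 (𝟙 _) (phi X) L c) :
    c1 L = hc c (h.d _) := (hc_eq_iff _ _ _ _ 1 rfl).2 ((isC1_c1z L).unique h (logsIn_id L))

theorem c1_pb (f : X' ⟶ X) (L : LB X) : c1 (X := X') (Co.pb f.hom L) = pb f (c1 L) := by
  rw [c1, c1, pb_hc, hc_eq_iff _ _ _ _ 1 rfl]
  exact c1z_pb f _ (pz_eI f) L

theorem c1_mul (L L' : LB X) : c1 (L.mul L') = c1 L + c1 L' := by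
  rw [c1, c1, c1, ← hc_add, hc_eq_iff _ _ _ _ 1 rfl]
  exact c1z_mul L L'

theorem c1_triv {L : LB X} (h : L.Triv) : c1 L = 0 :=
  (hc_eq_zero_iff _ _ 1 rfl).2 (c1z_triv h)

theorem c1_dual (L : LB X) : c1 L.dual = -c1 L := by
  rw [eq_neg_iff_add_eq_zero, add_comm, ← c1_mul]
  refine c1_triv ⟨fun i x => L.g i.1 i.2 x, ⟨fun i => (L.ct _ _).mono fun _ h => h.1,
    fun i j x hi hj _ => ?_⟩, fun i x hx => L.ne hx.1 hx.2⟩
  change L.g i.1 i.2 x = L.g i.1 j.1 x * L.g j.2 i.2 x * L.g j.1 j.2 x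
  rw [mul_right_comm, L.cc _ _ _ x hi.1 hj.1 hj.2, L.cc _ _ _ x hi.1 hj.2 hi.2]

theorem c1_iso {L L' : LB X} (h : L.Iso L') : c1 L = c1 L' := by
  have := c1_triv h
  rw [c1_mul, c1_dual, add_neg_eq_zero] at this
  exact this.symm

end P275S
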