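import Vale.Agent.P275S.Defs
import Vale.Agent.P275SO.Soft

/-! Soft complexes of sheaves: the local to global principles for `Van`. -/

open CategoryTheory TopologicalSpace Opposite Limits Set
open Vale.Agent

noncomputable section

namespace P275S

variable {k : Type} [Field k] {X Y : TopCat.{0}}

theorem eq_near {F : Sh k X} {U : Opens X} {s t : sec F U} {K : Set X} (hK : K ⊆ U)
    (h : Disjoint K (supp (s - t))) : ∃ V, ∃ hV : V ≤ U, K ⊆ V ∧ res F hV s = res F hV t :=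
  ⟨zer (s - t), zer_le _, fun x hx => ⟨hK hx, Set.disjoint_left.1 h hx⟩, by
    rw [← sub_eq_zero, ← map_sub, res_zer]⟩

theorem csoft_iff {F : Sh k X} : CSoft F ↔ P275SO.CSoft F := by
  constructor
  · intro h K U hK hU s
    obtain ⟨t, V, hV, a, e⟩ := h K hK U hU s
    refine ⟨t, Set.disjoint_left.2 fun x hx b => b.2 V hV (a hx) ?_⟩
    rw [map_sub, res_res, e, sub_self]
  · intro h K hK U hU s
    obtain ⟨t, ht⟩ := h K U hK hU s
    obtain ⟨V, hV, a, e⟩ := eq_near hU ht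
    exact ⟨t, V, hV, a, by rw [← e, res_res]⟩

theorem flq_iff {F : Sh k X} : Flq F ↔ P275SO.Flabby F :=
  ⟨fun h U s => h ⊤ U le_top s, fun h _ _ hV s => h.ext hV s⟩

theorem FlqC.softC {F : Cx k X} (h : FlqC F) : SoftC F :=
  ⟨h.1, fun n => csoft_iff.2 (flq_iff.1 (h.2 n)).cSoft⟩

theorem mem_Nv' {F : Sh k X} {B : Set X} {s : sec F ⊤} : s ∈ Nv F B ↔ Disjoint B (supp s) := by
  rw [mem_Nv, subset_compl_iff_disjoint_left]

theorem mem_Nv_iff {F : Sh k X} {B : Set X} {s : sec F ⊤} :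
    s ∈ Nv F B ↔ s ∈ P275SO.N (P275SO.gm F) B := mem_Nv'.trans P275SO.mem_N_gm.symm

theorem Nv_anti {F : Sh k X} {B B' : Set X} (h : B ⊆ B') {s : sec F ⊤} (hs : s ∈ Nv F B') :
    s ∈ Nv F B := mem_Nv.2 ((mem_Nv.1 hs).trans (compl_subset_compl.2 h))

@[simp] theorem mem_Nv_empty {F : Sh k X} (s : sec F ⊤) : s ∈ Nv F ∅ := by simp [mem_Nv]

theorem mem_Nv_union {F : Sh k X} {B B' : Set X} {s : sec F ⊤} :
    s ∈ Nv F (B ∪ B') ↔ s ∈ Nv F B ∧ s ∈ Nv F B' := by
  simp only [mem_Nv', disjoint_union_left]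

/-- Cut-off for c-soft sheaves. -/
theorem CSoft.cut [Nice X] {F : Sh k X} (h : CSoft F) {K : Set X} {U : Opens X}
    (hK : IsCompact K) (hU : K ⊆ U) (s : sec F U) {V : Set X} (hV : IsOpen V)
    (hs : K ∩ supp s ⊆ V) : ∃ t : sec F ⊤, IsCompact (supp t) ∧ supp t ⊆ V ∧
      ∃ W, ∃ hW : W ≤ U, K ⊆ W ∧ res F le_top t = res F hW s := by
  obtain ⟨t, a, b, c⟩ := (csoft_iff.1 h).cut hK hU s hV hs
  obtain ⟨W, hW, d, e⟩ := eq_near hU c
  exact ⟨t, a, b, W, hW, d, by rw [← e, res_res]⟩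

/-- Cut-off of a global section. -/
theorem CSoft.cut_top [Nice X] {F : Sh k X} (h : CSoft F) {K : Set X} (hK : IsCompact K)
    (s : sec F ⊤) {V : Set X} (hV : IsOpen V) (hs : K ∩ supp s ⊆ V) :
    ∃ t : sec F ⊤, IsCompact (supp t) ∧ supp t ⊆ V ∧ t - s ∈ Nv F K := by
  obtain ⟨t, a, b, c⟩ := (csoft_iff.1 h).cut_top hK s hV hs
  exact ⟨t, a, b, mem_Nv'.2 c⟩

theorem CSoft.gamS_open [Nice X] {F : Sh k X} (h : CSoft F) {S : Set X} (hS : IsOpen S) :
    CSoft ((GamS k S).obj F) := csoft_iff.2 ((csoft_iff.1 h).gamS_open hS)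

theorem Flq.gamS_closed {F : Sh k X} (h : Flq F) {S : Set X} (hS : IsClosed S) :
    Flq ((GamS k S).obj F) := flq_iff.2 ((flq_iff.1 h).gamS_closed hS)

theorem app_d_d (F : Cx k X) (i j l : ℤ) (U : Opens X) (s : sec (F.X i) U) :
    app (F.d j l) U (app (F.d i j) U s) = 0 := by
  rw [← app_comp, F.d_comp_d, app_zero]

theorem app_f_d {F G : Cx k X} (φ : F ⟶ G) (i j : ℤ) (U : Opens X) (s : sec (F.X i) U) :
    app (φ.f j) U (app (F.d i j) U s) = app (G.d i j) U (app (φ.f i) U s) := by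
  rw [← app_comp, ← app_comp, φ.comm]

theorem app_homotopy {F G : Cx k X} {φ ψ : F ⟶ G} (h : Homotopy φ ψ) {i j l : ℤ}
    (hij : i + 1 = j) (hjl : j + 1 = l) (U : Opens X) (s : sec (F.X j) U) :
    app (φ.f j) U s = app (h.hom l j) U (app (F.d j l) U s) +
      app (G.d i j) U (app (h.hom j i) U s) + app (ψ.f j) U s := by
  rw [h.comm j, dNext_eq _ (show (ComplexShape.up ℤ).Rel j l from hjl),
    prevD_eq _ (show (ComplexShape.up ℤ).Rel i j from hij)]
  rfl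

theorem sec_eq_zero {F : Sh k X} (h : IsZero F) {U : Opens X} (s : sec F U) : s = 0 := by
  rw [← app_id F U s, h.eq_of_src (𝟙 F) 0, app_zero]

theorem SoftC.low {F : Cx k X} (h : SoftC F) :
    ∃ a : ℤ, ∀ j < a, ∀ (U : Opens X) (s : sec (F.X j) U), s = 0 := by
  obtain ⟨a, ha⟩ := h.1
  exact ⟨a, fun j hj U s => sec_eq_zero (F.isZero_of_isStrictlyGE a j hj) s⟩

/-- The identity is idempotent. -/
def idemId (F : Cx k X) : Homotopy (𝟙 F ≫ 𝟙 F) (𝟙 F) := Homotopy.ofEq (Category.id_comp _)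

variable {F G : Cx k X} {p : F ⟶ F} {A B : Set X} {n : ℤ}

theorem van_iff : Van p A B n ↔ P275SO.Van (fun i j => app (F.d i j) ⊤)
    (fun i => P275SO.gm (F.X i)) (fun i => app (p.f i) ⊤) A B n := by
  constructor
  · rintro h i l rfl rfl s hs hd
    obtain ⟨t, a, b⟩ := h s (mem_Nv_iff.2 hs) (mem_Nv_iff.2 hd)
    rw [← neg_mem_iff, neg_sub] at b
    have e : i + 1 - 1 = i := by omega
    refine ⟨app (F.XIsoOfEq e).hom ⊤ t, mem_Nv_iff.1 (app_mem_Nv _ a), mem_Nv_iff.1 ?_⟩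
    rwa [← app_comp, F.XIsoOfEq_hom_comp_d]
  · intro h s hs hd
    obtain ⟨t, a, b⟩ := h (n - 1) (n + 1) (by omega) rfl s (mem_Nv_iff.1 hs) (mem_Nv_iff.1 hd)
    refine ⟨t, mem_Nv_iff.2 a, ?_⟩
    rw [← neg_mem_iff, neg_sub]
    exact mem_Nv_iff.2 b

theorem SoftC.dat [Nice X] (hF : SoftC F) (hp : Homotopy (p ≫ p) p) :
    P275SO.Dat (fun i j => app (F.d i j) ⊤) (fun i => P275SO.gm (F.X i))
      (fun i => app (p.f i) ⊤) where
  op _ s := P275SO.isOpen_gm s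
  spl i := (csoft_iff.1 (hF.2 i)).spl
  dG _ _ _ s hs := P275SO.mem_gm.2 fun a => P275SO.mem_gm.1 hs (supp_app _ s a)
  pG _ _ s hs := P275SO.mem_gm.2 fun a => P275SO.mem_gm.1 hs (supp_app _ s a)
  dd i j l s := app_d_d F i j l ⊤ s
  pd i j s := app_f_d p i j ⊤ s
  idem := ⟨fun i j => app (-hp.hom i j) ⊤,
    fun _ _ _ s hs => P275SO.mem_gm.2 fun a => P275SO.mem_gm.1 hs (supp_app _ s a),
    fun i j l hij hjl s => by
      have := app_homotopy hp hij hjl ⊤ s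
      rw [HomologicalComplex.comp_f, app_comp] at this
      rw [this, app_neg, app_neg, map_neg]
      abel⟩

theorem van_empty (q : F ⟶ G) : Van q A ∅ n := fun _ _ _ => ⟨0, zero_mem _, mem_Nv_empty _⟩

/-- Only `A ∩ B` matters. -/
theorem van_congr {q : F ⟶ G} {A' : Set X} (h : A ∩ B = A' ∩ B) : Van q A B n ↔ Van q A' B n := by
  unfold Van
  rw [h]

theorem van_of_subset (q : F ⟶ G) (h : B ⊆ A) : Van q A B n := fun s hs _ =>
  ⟨0, zero_mem _, by
    rw [map_zero, zero_sub, neg_mem_iff]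
    exact app_mem_Nv _ (Nv_anti (subset_inter h Subset.rfl) hs)⟩

theorem Van.comp_right {H : Cx k X} {q : F ⟶ G} (h : Van q A B n) (r : G ⟶ H) :
    Van (q ≫ r) A B n := fun s hs hd => by
  obtain ⟨t, a, b⟩ := h s hs hd
  refine ⟨app (r.f _) ⊤ t, app_mem_Nv _ a, ?_⟩
  have := app_mem_Nv (r.f n) b
  rwa [map_sub, app_f_d] at this

theorem Van.comp_left {H : Cx k X} {q : F ⟶ G} (h : Van q A B n) (r : H ⟶ F) :
    Van (r ≫ q) A B n := fun s hs hd =>
  h (app (r.f n) ⊤ s) (app_mem_Nv _ hs) (by rw [← app_f_d]; exact app_mem_Nv _ hd)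

theorem Van.of_homotopy {q r : F ⟶ G} (h : Van q A B n) (H : Homotopy r q) : Van r A B n :=
  fun s hs hd => by
  obtain ⟨t, a, b⟩ := h s hs hd
  refine ⟨t + app (H.hom n (n - 1)) ⊤ s, add_mem a (app_mem_Nv _ hs), ?_⟩
  have := sub_mem b (app_mem_Nv (H.hom (n + 1) n) hd)
  rwa [app_homotopy H (show n - 1 + 1 = n by omega) rfl, map_add, show ∀ u v w z : sec (G.X n) ⊤,
    u + v - (w + v + z) = u - z - w from fun _ _ _ _ => by abel]

/-- At a point: `Van` is `ZeroAt`. -/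
theorem van_pt {q : F ⟶ G} (hG : CSoft (G.X (n - 1))) {x : X} (hx : x ∉ A)
    (h : ZeroAt q n x) : Van q A {x} n := by
  intro s _ hd
  have hx' : x ∈ zer (app (F.d n (n + 1)) ⊤ s) := ⟨trivial, Set.disjoint_left.1 (mem_Nv'.1 hd) rfl⟩
  obtain ⟨V, hV, xV, t, ht⟩ := h _ hx' (res _ le_top s) (by rw [app_res, res_zer])
  obtain ⟨u, W, hW, xW, e⟩ := hG {x} isCompact_singleton V (singleton_subset_iff.2 xV) t
  refine ⟨u, by rw [inter_singleton_eq_empty.2 hx]; exact mem_Nv_empty _,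
    mem_Nv'.2 (disjoint_singleton_left.2 fun a => a.2 W le_top (xW rfl) ?_)⟩
  rw [map_sub, ← app_res, e, app_res, ht, app_res, res_res, res_res, sub_self]

theorem zeroAt_of_van {q : F ⟶ G} (hF : CSoft (F.X n)) {x : X} (hx : x ∉ A)
    (h : Van q A {x} n) : ZeroAt q n x := by
  intro U xU s hs
  obtain ⟨u, W, hW, xW, e⟩ := hF {x} isCompact_singleton U (singleton_subset_iff.2 xU) s
  obtain ⟨t, -, ht⟩ := h u (by rw [inter_singleton_eq_empty.2 hx]; exact mem_Nv_empty _)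
    (mem_Nv'.2 (disjoint_singleton_left.2 fun a => a.2 W le_top (xW rfl) (by
      rw [← app_res, e, app_res, hs, map_zero])))
  obtain ⟨V, hV, xV, e'⟩ := eq_near (subset_univ _) (mem_Nv'.1 ht)
  refine ⟨V ⊓ W, inf_le_right.trans hW, ⟨xV rfl, xW rfl⟩, res _ le_top t, ?_⟩
  have e1 := congrArg (res _ (inf_le_left : V ⊓ W ≤ V)) e'
  have e2 := congrArg (fun z => res _ (inf_le_right : V ⊓ W ≤ W) (app (q.f n) W z)) e
  simp only [app_res, res_res] at e1 e2 ⊢
  rw [e1, e2]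

/-- Filtration by two closed sets. -/
theorem van_fil (hp : Homotopy (p ≫ p) p) {A₂ : Set X} (hA : A ⊆ A₂) (h₂ : Van p A₂ B n)
    (h₁ : Van p A (A₂ ∩ B) n) : Van p A B n := by
  refine Van.of_homotopy (fun s hs hd => ?_) hp.symm
  have e : A ∩ (A₂ ∩ B) = A ∩ B := by rw [← inter_assoc, inter_eq_left.2 hA]
  obtain ⟨t, a, b⟩ := h₁ s (e ▸ hs) (Nv_anti inter_subset_right hd)
  obtain ⟨u, c, d⟩ := h₂ _ b (by
    rw [map_sub, app_d_d, zero_sub, neg_mem_iff, ← app_f_d]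
    exact app_mem_Nv _ hd)
  rw [e] at a
  refine ⟨app (p.f _) ⊤ t - u, sub_mem (app_mem_Nv _ a)
    (Nv_anti (inter_subset_inter_left _ hA) c), ?_⟩
  rw [← neg_mem_iff, map_sub, app_f_d] at d
  rw [map_sub, HomologicalComplex.comp_f, app_comp]
  rwa [show ∀ u v w : sec (F.X n) ⊤, v - u - w = -(u - (v - w)) from fun _ _ _ => by abel]

variable [Nice X]

/-- Mayer-Vietoris. -/
theorem van_union (hF : SoftC F) (hp : Homotopy (p ≫ p) p) (hA : IsClosed A) {B' : Set X}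
    (hB : IsCompact B) (hB' : IsCompact B') (h₀ : Van p A (B ∩ B') (n - 1)) (h₁ : Van p A B n)
    (h₂ : Van p A B' n) : Van p A (B ∪ B') n := by
  refine van_iff.2 fun i l hi hl s hs hd => ?_
  obtain rfl : i = n - 1 := by omega
  exact (hF.dat hp).mv hA hB hB' hi hl (van_iff.1 h₀) hs hd
    (van_iff.1 h₁ _ l hi hl s (P275SO.N_anti (inter_subset_inter_right _ subset_union_left) hs)
      (P275SO.N_anti subset_union_left hd))
    (van_iff.1 h₂ _ l hi hl s (P275SO.N_anti (inter_subset_inter_right _ subset_union_right) hs)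
      (P275SO.N_anti subset_union_right hd))

/-- **Local to global.** -/
theorem van_loc (hF : SoftC F) (hp : Homotopy (p ≫ p) p) (hA : IsClosed A) (hB : IsCompact B)
    (h : ∀ x ∈ B, x ∉ A → ∀ m ≤ n, ZeroAt p m x) : Van p A B n := by
  obtain ⟨a, ha⟩ := hF.low
  exact van_iff.2 ((hF.dat hp).loc hA (fun j hj => ha j hj ⊤) hB
    (fun j hj x hx hx' => van_iff.1 (van_pt (hF.2 _) hx' (h x hx hx' j hj))) n le_rfl)

/-- One step of the local to global principle. -/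
theorem van_step (hF : SoftC F) (hp : Homotopy (p ≫ p) p) (hA : IsClosed A) (hB : IsCompact B)
    (h₀ : ∀ C ⊆ B, IsCompact C → Van p A C (n - 1)) (h : ∀ x ∈ B, x ∉ A → ZeroAt p n x) :
    Van p A B n :=
  van_iff.2 ((hF.dat hp).step hA hB (fun C a b => van_iff.1 (h₀ C a b))
    fun x hx hx' => van_iff.1 (van_pt (hF.2 _) hx' (h x hx hx')))

/-- Finite sets. -/
theorem van_fin (hF : SoftC F) (hp : Homotopy (p ≫ p) p) (hA : IsClosed A) (hB : B.Finite)
    (h : ∀ x ∈ B, x ∉ A → ZeroAt p n x) : Van p A B n := by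
  induction B, hB using Set.Finite.induction_on with
  | empty => exact van_empty p
  | @insert x B hx hB ih =>
    rw [insert_eq]
    refine van_union hF hp hA isCompact_singleton hB.isCompact ?_ ?_
      (ih fun y hy => h y (mem_insert_of_mem _ hy))
    · rw [singleton_inter_eq_empty.2 hx]
      exact van_empty p
    · by_cases a : x ∈ A
      · exact van_of_subset p (singleton_subset_iff.2 a)
      · exact van_pt (hF.2 _) a (h x (mem_insert _ _) a)

/-- **Cohomological dimension.** -/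
theorem van_cd (hF : SoftC F) (hp : Homotopy (p ≫ p) p) (hA : IsClosed A) (hB : IsCompact B)
    {N : ℕ} (g : X → Fin N → ℝ) (hg : ContinuousOn g B) {c : ℤ}
    (h : ∀ r, ∀ j, c < j → Van p A (B ∩ g ⁻¹' {r}) j) (hn : c + N < n) : Van p A B n :=
  van_iff.2 ((hF.dat hp).cd hA N hB g hg (fun r j hj => van_iff.1 (h r j hj)) n hn)

/-- Cohomological dimension for a map with finite fibres. -/
theorem van_cd_fin (hF : SoftC F) (hp : Homotopy (p ≫ p) p) (hA : IsClosed A) (hB : IsCompact B)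
    {N : ℕ} (g : X → Fin N → ℝ) (hg : ContinuousOn g B) (hf : ∀ r, (B ∩ g ⁻¹' {r}).Finite) {c : ℤ}
    (h : ∀ x ∈ B, x ∉ A → ∀ j, c < j → ZeroAt p j x) (hn : c + N < n) : Van p A B n :=
  van_cd hF hp hA hB g hg
    (fun r j hj => van_fin hF hp hA (hf r) fun x hx hx' => h x hx.1 hx' j hj) hn

/-- Bisection along one continuous function. -/
theorem van_bisect (hF : SoftC F) (hp : Homotopy (p ≫ p) p) (hA : IsClosed A) (hB : IsCompact B)
    {g : X → ℝ} (hg : ContinuousOn g B) (h₁ : ∀ r, Van p A (B ∩ g ⁻¹' {r}) (n - 1))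
    (h₂ : ∀ r, Van p A (B ∩ g ⁻¹' {r}) n) : Van p A B n :=
  van_iff.2 ((hF.dat hp).bisect hA hB hg (fun r => van_iff.1 (h₁ r)) fun r => van_iff.1 (h₂ r))

end P275S
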