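import Vale.Agent.P275S.Loc
import Vale.Agent.P275S.SoftA

/-! Injective, flabby and c-soft sheaves: closure properties and resolutions. -/

open CategoryTheory TopologicalSpace Opposite Limits

noncomputable section

namespace P275S

variable {k : Type} [Field k] {X Y : TopCat.{0}}

theorem app_sum {F G : Sh k X} {ι : Type*} (S : Finset ι) (φ : ι → (F ⟶ G)) (U : Opens X)
    (s : sec F U) : app (∑ i ∈ S, φ i) U s = ∑ i ∈ S, app (φ i) U s := by
  classical
  induction S using Finset.induction_on with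
  | empty => simp
  | insert a S ha ih => rw [Finset.sum_insert ha, Finset.sum_insert ha, app_add, ih]

/-- The sheaf of all (discontinuous) sections of a family of vector spaces. -/
def prodSh (E : X → ModuleCat.{0} k) : Sh k X :=
  Data.sh
    { M := fun U => ModuleCat.of k (∀ x : U, E x.1)
      r := fun {U V} h => LinearMap.pi fun x : V =>
        LinearMap.proj (φ := fun y : U => E y.1) ⟨x.1, h x.2⟩
      r_self := fun _ _ => rfl
      r_r := fun _ _ _ => rfl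
      loc := fun U s hs => funext fun x => by
        obtain ⟨V, hV, hx, e⟩ := hs x.1 x.2
        exact congrFun e ⟨x.1, hx⟩
      gl := fun {ι} V s hs => by
        have hx : ∀ x : (iSup V : Opens X), ∃ i, x.1 ∈ V i := fun x => Opens.mem_iSup.1 x.2
        choose a ha using hx
        refine ⟨fun x => s (a x) ⟨x.1, ha x⟩, fun i => funext fun x => ?_⟩
        exact congrFun (hs (a ⟨x.1, le_iSup V i x.2⟩) i) ⟨x.1, ha _, x.2⟩ }

theorem flq_prodSh (E : X → ModuleCat.{0} k) : Flq (prodSh E) := by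
  classical
  intro U V h s
  let s' : ∀ x : V, E x.1 := s
  let t : ∀ x : U, E x.1 := fun x => if hx : x.1 ∈ V then s' ⟨x.1, hx⟩ else 0
  exact ⟨t, funext fun x : V => dif_pos x.2⟩

/-- A morphism to a sheaf of discontinuous sections from linear maps on the stalks. -/
def toProd {F : Sh k X} {E : X → ModuleCat.{0} k} (φ : ∀ x, (Stk k x).obj F ⟶ E x) :
    F ⟶ prodSh E :=
  mkHom (fun U => LinearMap.pi (φ := fun y : U => E y.1) fun x => (φ x.1).hom ∘ₗ gm F x.2)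
    fun _ V hV s => funext fun x : V => congrArg (φ x.1).hom (gm_res F hV x.2 s)

theorem app_toProd {F : Sh k X} {E : X → ModuleCat.{0} k} (φ : ∀ x, (Stk k x).obj F ⟶ E x)
    (U : Opens X) (s : sec F U) (x : U) :
    (show ∀ x : U, E x.1 from app (toProd φ) U s) x = (φ x.1).hom (gm F x.2 s) := rfl

/-- The first step of the Godement resolution. -/
def god (F : Sh k X) : Sh k X := prodSh fun x => (Stk k x).obj F

/-- The embedding in the sheaf of discontinuous sections. -/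
def toGod (F : Sh k X) : F ⟶ god F := toProd fun _ => 𝟙 _

theorem flq_god (F : Sh k X) : Flq (god F) := flq_prodSh _

instance (F : Sh k X) : Mono (toGod F) := by
  refine (mono_iff _).2 fun U => (injective_iff_map_eq_zero _).2 fun s hs => ?_
  exact loc_zero F s fun x hx => (gm_eq_zero F hx s).1 (congrFun hs (⟨x, hx⟩ : U))

theorem Flq.of_sum {P : Sh k X} {ι : Type*} [Fintype ι] {F : ι → Sh k X} (p : ∀ i, P ⟶ F i)
    (j : ∀ i, F i ⟶ P) (h : ∑ i, p i ≫ j i = 𝟙 P) (hF : ∀ i, Flq (F i)) : Flq P := by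
  intro U V hV s
  choose t ht using fun i => hF i U V hV (app (p i) V s)
  refine ⟨∑ i, app (j i) U (t i), ?_⟩
  rw [map_sum, ← app_id P V s, ← h, app_sum]
  exact Finset.sum_congr rfl fun i _ => by rw [← app_res, ht, app_comp]

theorem CSoft.of_sum {P : Sh k X} {ι : Type*} [Fintype ι] {F : ι → Sh k X} (p : ∀ i, P ⟶ F i)
    (j : ∀ i, F i ⟶ P) (h : ∑ i, p i ≫ j i = 𝟙 P) (hF : ∀ i, CSoft (F i)) : CSoft P := by
  intro K hK U hU s
  choose t V hV hKV ht using fun i => hF i K hK U hU (app (p i) U s)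
  let W : Opens X := U ⊓ ⟨⋂ i, (V i : Set X), isOpen_iInter_of_finite fun i => (V i).2⟩
  have hW : ∀ i, W ≤ V i := fun i x hx => Set.mem_iInter.1 hx.2 i
  refine ⟨∑ i, app (j i) ⊤ (t i), W, inf_le_left,
    fun x hx => ⟨hU hx, Set.mem_iInter.2 fun i => hKV i hx⟩, ?_⟩
  rw [map_sum, ← app_id P W (res P _ s), ← h, app_sum]
  refine Finset.sum_congr rfl fun i _ => ?_
  rw [← app_res, app_comp, app_res (p i), ← res_res (F i) le_top (hW i), ht, res_res]

theorem Flq.retract {F G : Sh k X} (hG : Flq G) (i : F ⟶ G) (r : G ⟶ F) (h : i ≫ r = 𝟙 F) :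
    Flq F :=
  Flq.of_sum (ι := Unit) (F := fun _ => G) (fun _ => i) (fun _ => r) (by simpa using h)
    fun _ => hG

theorem CSoft.retract {F G : Sh k X} (hG : CSoft G) (i : F ⟶ G) (r : G ⟶ F)
    (h : i ≫ r = 𝟙 F) : CSoft F :=
  CSoft.of_sum (ι := Unit) (F := fun _ => G) (fun _ => i) (fun _ => r) (by simpa using h)
    fun _ => hG

theorem Flq.of_iso {F G : Sh k X} (hF : Flq F) (e : F ≅ G) : Flq G :=
  hF.retract e.inv e.hom e.inv_hom_id

theorem CSoft.of_iso {F G : Sh k X} (hF : CSoft F) (e : F ≅ G) : CSoft G :=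
  hF.retract e.inv e.hom e.inv_hom_id

theorem Flq.of_isZero {F : Sh k X} (h : IsZero F) : Flq F :=
  fun _ _ _ s => ⟨0, by rw [map_zero, sec_eq_zero h s]⟩

theorem Flq.csoft {F : Sh k X} (h : Flq F) : CSoft F := fun _ _ U hU s => by
  obtain ⟨t, ht⟩ := h ⊤ U le_top s
  exact ⟨t, U, le_rfl, hU, by rw [ht, res_self]⟩

theorem CSoft.of_isZero {F : Sh k X} (h : IsZero F) : CSoft F := (Flq.of_isZero h).csoft

theorem Flq.of_two {P F G : Sh k X} (hF : Flq F) (hG : Flq G) (p : P ⟶ F) (i : F ⟶ P)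
    (q : P ⟶ G) (j : G ⟶ P) (h : p ≫ i + q ≫ j = 𝟙 P) : Flq P :=
  Flq.of_sum (ι := Bool) (F := fun b => Bool.rec G F b) (fun b => Bool.rec q p b)
    (fun b => Bool.rec j i b) (by simpa using h) fun b => Bool.rec hG hF b

theorem CSoft.of_two {P F G : Sh k X} (hF : CSoft F) (hG : CSoft G) (p : P ⟶ F) (i : F ⟶ P)
    (q : P ⟶ G) (j : G ⟶ P) (h : p ≫ i + q ≫ j = 𝟙 P) : CSoft P :=
  CSoft.of_sum (ι := Bool) (F := fun b => Bool.rec G F b) (fun b => Bool.rec q p b)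
    (fun b => Bool.rec j i b) (by simpa using h) fun b => Bool.rec hG hF b

theorem Flq.biprod {F G : Sh k X} (hF : Flq F) (hG : Flq G) : Flq (F ⊞ G) :=
  hF.of_two hG _ _ _ _ Limits.biprod.total

theorem CSoft.biprod {F G : Sh k X} (hF : CSoft F) (hG : CSoft G) : CSoft (F ⊞ G) :=
  hF.of_two hG _ _ _ _ Limits.biprod.total

instance hasFinBipr : HasFiniteBiproducts (Sh k X) := Abelian.hasFiniteBiproducts

theorem Flq.biproduct {ι : Type} [Finite ι] {F : ι → Sh k X} (hF : ∀ i, Flq (F i)) :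
    Flq (⨁ F) := by
  cases nonempty_fintype ι
  exact Flq.of_sum _ _ Limits.biproduct.total hF

theorem CSoft.biproduct {ι : Type} [Finite ι] {F : ι → Sh k X} (hF : ∀ i, CSoft (F i)) :
    CSoft (⨁ F) := by
  cases nonempty_fintype ι
  exact CSoft.of_sum _ _ Limits.biproduct.total hF

theorem Flq.pi {ι : Type} [Finite ι] {F : ι → Sh k X} (hF : ∀ i, Flq (F i)) : Flq (∏ᶜ F) :=
  (Flq.biproduct hF).of_iso (Limits.biproduct.isoProduct F)

theorem CSoft.pi {ι : Type} [Finite ι] {F : ι → Sh k X} (hF : ∀ i, CSoft (F i)) :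
    CSoft (∏ᶜ F) :=
  (CSoft.biproduct hF).of_iso (Limits.biproduct.isoProduct F)

theorem Flq.sigma {ι : Type} [Finite ι] {F : ι → Sh k X} (hF : ∀ i, Flq (F i)) : Flq (∐ F) :=
  (Flq.biproduct hF).of_iso (Limits.biproduct.isoCoproduct F)

theorem CSoft.sigma {ι : Type} [Finite ι] {F : ι → Sh k X} (hF : ∀ i, CSoft (F i)) :
    CSoft (∐ F) :=
  (CSoft.biproduct hF).of_iso (Limits.biproduct.isoCoproduct F)

theorem flq_of_injective (F : Sh k X) [Injective F] : Flq F :=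
  (flq_god F).retract (toGod F) (Injective.factorThru (𝟙 F) (toGod F))
    (Injective.comp_factorThru _ _)

theorem InjC.flqC {F : Cx k X} (h : InjC F) : FlqC F :=
  ⟨h.1, fun n => have := h.2 n; flq_of_injective _⟩

theorem InjC.softC {F : Cx k X} (h : InjC F) : SoftC F := h.flqC.softC

theorem flqC_I (k : Type) [Field k] (X : TopCat.{0}) : FlqC (I k X) := (injC_I k X).flqC

theorem softC_I (k : Type) [Field k] (X : TopCat.{0}) : SoftC (I k X) := (injC_I k X).softC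

instance pullback_finLim (f : X ⟶ Y) :
    PreservesFiniteLimits (TopCat.Sheaf.pullback (ModuleCat.{0} k) f) := by
  unfold TopCat.Sheaf.pullback
  apply Functor.SmallCategories.instPreservesFiniteLimitsSheafSheafPullbackOfRepresentablyFlat

theorem injective_push (f : X ⟶ Y) (F : Sh k X) [Injective F] : Injective ((push k f).obj F) :=
  Injective.injective_of_adjoint
    (TopCat.Sheaf.pullbackPushforwardAdjunction (ModuleCat.{0} k) f) F

theorem mapC_isStrictlyGE {C C' : Type*} [Category C] [Category C'] [Preadditive C]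
    [Preadditive C'] (Φ : C ⥤ C') [Φ.Additive] (F : CochainComplex C ℤ) (a : ℤ)
    [F.IsStrictlyGE a] : ((mapC Φ).obj F).IsStrictlyGE a := by
  rw [CochainComplex.isStrictlyGE_iff]
  intro i hi
  exact Φ.map_isZero (F.isZero_of_isStrictlyGE a i hi)

theorem mapC_bdd {C C' : Type*} [Category C] [Category C'] [Preadditive C]
    [Preadditive C'] (Φ : C ⥤ C') [Φ.Additive] {F : CochainComplex C ℤ}
    (h : ∃ a, F.IsStrictlyGE a) : ∃ a, ((mapC Φ).obj F).IsStrictlyGE a := by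
  obtain ⟨a, ha⟩ := h
  exact ⟨a, mapC_isStrictlyGE Φ F a⟩

theorem InjC.push {F : Cx k X} (h : InjC F) (f : X ⟶ Y) : InjC ((pushC k f).obj F) :=
  ⟨mapC_bdd (P275S.push k f) h.1, fun n => have := h.2 n; injective_push f (F.X n)⟩

theorem Flq.push {F : Sh k X} (h : Flq F) (f : X ⟶ Y) : Flq ((push k f).obj F) :=
  fun U V hV => h ((Opens.map f).obj U) ((Opens.map f).obj V) fun _ hx => hV hx

theorem FlqC.push {F : Cx k X} (h : FlqC F) (f : X ⟶ Y) : FlqC ((pushC k f).obj F) :=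
  ⟨mapC_bdd (P275S.push k f) h.1, fun n => (h.2 n).push f⟩

theorem CSoft.push {F : Sh k X} (h : CSoft F) (f : X ⟶ Y) (hf : IsProperMap f) :
    CSoft ((push k f).obj F) := by
  intro K hK U hU s
  obtain ⟨t, V, hV, hKV, e⟩ := h (f ⁻¹' K) (hf.isCompact_preimage hK) ((Opens.map f).obj U)
    (fun _ hx => hU hx) s
  let W : Opens Y := U ⊓ ⟨(f '' (V : Set X)ᶜ)ᶜ,
    (hf.isClosedMap _ V.2.isClosed_compl).isOpen_compl⟩
  have hW : (Opens.map f).obj W ≤ V := fun x hx => by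
    by_contra hn
    exact hx.2 ⟨x, hn, rfl⟩
  refine ⟨t, W, inf_le_left, fun y hy => ⟨hU hy, ?_⟩, ?_⟩
  · rintro ⟨x, hx, rfl⟩
    exact hx (hKV hy)
  · exact (res_res F _ hW t).symm.trans ((congrArg (res F hW) e).trans (res_res F hV hW _))

theorem SoftC.push {F : Cx k X} (h : SoftC F) (f : X ⟶ Y) (hf : IsProperMap f) :
    SoftC ((pushC k f).obj F) :=
  ⟨mapC_bdd (P275S.push k f) h.1, fun n => (h.2 n).push f hf⟩

theorem Flq.gamS {F : Sh k X} (h : Flq F) {Z : Set X} (hZ : IsClosed Z) :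
    Flq ((GamS k Z).obj F) := h.gamS_closed hZ

theorem FlqC.gamS {F : Cx k X} (h : FlqC F) {Z : Set X} (hZ : IsClosed Z) :
    FlqC ((mapC (GamS k Z)).obj F) :=
  ⟨mapC_bdd _ h.1, fun n => (h.2 n).gamS hZ⟩

theorem supp_app_of_injective {F G : Sh k X} (φ : F ⟶ G) [h : Mono φ] {U : Opens X}
    (s : sec F U) : supp (app φ U s) = supp s := by
  refine (supp_app φ s).antisymm fun x hx => ⟨hx.1, fun V hV hxV e => hx.2 V hV hxV ?_⟩
  refine (mono_iff φ).1 h V ?_
  rw [app_res, e, map_zero]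

instance SubData.mono_ι {F : Sh k X} (S : SubData F) : Mono S.ι := (mono_iff _).2 S.ι_injective

theorem injective_gamS (F : Sh k X) [Injective F] {Z : Set X} (hZ : IsClosed Z) :
    Injective ((GamS k Z).obj F) := by
  refine ⟨fun {A B} g i hi => ?_⟩
  let π : A ⊞ (suppData Zᶜ B).sh ⟶ B := Limits.biprod.desc i (suppData Zᶜ B).ι
  let g' : A ⊞ (suppData Zᶜ B).sh ⟶ F := Limits.biprod.desc (g ≫ (suppData Z F).ι) 0
  have h0 : kernel.ι π ≫ g' = 0 := hom_ext fun U s => by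
    have h1 : app π U (app (kernel.ι π) U s) = 0 := by rw [← app_comp, kernel.condition, app_zero]
    rw [app_comp, app_zero]
    generalize app (kernel.ι π) U s = u at h1
    simp only [π, g', Limits.biprod.desc_eq, app_add, app_comp, app_zero, add_zero] at h1 ⊢
    rw [← supp_eq_empty, Set.eq_empty_iff_forall_notMem]
    intro x hx
    have h2 : x ∈ Z := (suppData Z F).ι_mem U _ hx
    have h3 : x ∈ supp (app i U (app Limits.biprod.fst U u)) := by
      rw [supp_app_of_injective]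
      exact supp_app _ _ hx
    rw [eq_neg_of_add_eq_zero_left h1, supp_neg] at h3
    exact (suppData Zᶜ B).ι_mem U _ h3 h2
  let φ : B ⟶ F := (ShortComplex.exact_kernel π).descToInjective g' h0
  have hφ : π ≫ φ = g' := (ShortComplex.exact_kernel π).comp_descToInjective g' h0
  have h1 : i ≫ φ = g ≫ (suppData Z F).ι := by
    simpa [π, g'] using Limits.biprod.inl ≫= hφ
  have h2 : (suppData Zᶜ B).ι ≫ φ = 0 := by
    simpa [π, g'] using Limits.biprod.inr ≫= hφ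
  refine ⟨(suppData Z F).lift φ fun U s x hx => ?_, ?_⟩
  · by_contra hn
    let V : Opens X := U ⊓ ⟨Zᶜ, hZ.isOpen_compl⟩
    refine hx.2 V inf_le_left ⟨hx.1, hn⟩ ?_
    obtain ⟨t, ht⟩ := (suppData Zᶜ B).exists_ι (s := res B (inf_le_left : V ≤ U) s)
      fun y hy => hy.1.2
    rw [← app_res, ← ht, ← app_comp, h2, app_zero]
  · exact hom_ext fun U s => (suppData Z F).ι_injective U (congrArg (fun f => app f U s) h1)

theorem InjC.gamS {F : Cx k X} (h : InjC F) {Z : Set X} (hZ : IsClosed Z) :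
    InjC ((mapC (GamS k Z)).obj F) :=
  ⟨mapC_bdd _ h.1, fun n => have := h.2 n; injective_gamS (F.X n) hZ⟩

theorem exists_inj' (F : Cx k X) (a : ℤ) [F.IsStrictlyGE a] : ∃ (J : Cx k X) (i : F ⟶ J),
    QuasiIso i ∧ (∀ n, Injective (J.X n)) ∧ J.IsStrictlyGE a := by
  obtain ⟨J, i, h1, h2, h3⟩ :=
    CochainComplex.Plus.modelCategoryQuillen.exists_quasiIso_injective F a
  exact ⟨J, i, h1, h2, h3⟩

theorem exists_inj_of_isGE (F : Cx k X) (a : ℤ) [F.IsGE a] : ∃ (J : Cx k X) (i : F ⟶ J),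
    QuasiIso i ∧ (∀ n, Injective (J.X n)) ∧ J.IsStrictlyGE a := by
  obtain ⟨J, i, h1, h2, h3⟩ := exists_inj' (F.truncGE a) a
  exact ⟨J, F.πTruncGE a ≫ i, inferInstance, h2, h3⟩

theorem exists_inj (F : Cx k X) (hF : ∃ a, F.IsStrictlyGE a) :
    ∃ J : Cx k X, InjC J ∧ ∃ i : F ⟶ J, QuasiIso i := by
  obtain ⟨a, ha⟩ := hF
  obtain ⟨J, i, h1, h2, h3⟩ := exists_inj' F a
  exact ⟨J, ⟨⟨a, h3⟩, h2⟩, i, h1⟩

theorem csoft_of_cut' {F : Sh k X} (h : ∀ K : Set X, IsCompact K → ∀ U : Opens X, K ⊆ U →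
    ∀ s : sec F U, ∃ t : sec F U, (∃ V, ∃ hV : V ≤ U, K ⊆ V ∧ res F hV t = res F hV s) ∧
      ∃ C, IsClosed C ∧ C ⊆ U ∧ supp t ⊆ C) : CSoft F := by
  intro K hK U hU s
  obtain ⟨t, ⟨V, hV, hKV, e⟩, C, hC, hCU, ht⟩ := h K hK U hU s
  obtain ⟨u, hu, -⟩ := ext_zero F (le_top : U ≤ ⊤) t hC ht fun x hx => hCU hx.1
  exact ⟨u, V, hV, hKV, by rw [← e, ← hu, res_res]⟩

theorem csoft_of_cut [T2Space X] {F : Sh k X} (h : ∀ K : Set X, IsCompact K → ∀ U : Opens X,
    K ⊆ U → ∀ s : sec F U, ∃ t : sec F U,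
      (∃ V, ∃ hV : V ≤ U, K ⊆ V ∧ res F hV t = res F hV s) ∧
      ∃ C, IsCompact C ∧ C ⊆ U ∧ supp t ⊆ C) : CSoft F :=
  csoft_of_cut' fun K hK U hU s => by
    obtain ⟨t, h1, C, hC, h2⟩ := h K hK U hU s
    exact ⟨t, h1, C, hC.isClosed, h2⟩

/-- Sheaves with cut-off endomorphisms (fine sheaves) are c-soft. -/
theorem csoft_of_end {F : Sh k X} (h : ∀ K : Set X, IsCompact K → ∀ U : Opens X, K ⊆ U →
    ∃ χ : F ⟶ F, (∃ V : Opens X, V ≤ U ∧ K ⊆ V ∧ ∀ s : sec F V, app χ V s = s) ∧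
      ∃ C, IsClosed C ∧ C ⊆ U ∧
        ∀ W : Opens X, Disjoint C (W : Set X) → ∀ s : sec F W, app χ W s = 0) :
    CSoft F :=
  csoft_of_cut' fun K hK U hU s => by
    obtain ⟨χ, ⟨V, hV, hKV, e⟩, C, hC, hCU, h0⟩ := h K hK U hU
    refine ⟨app χ U s, ⟨V, hV, hKV, by rw [← app_res, e]⟩, C, hC, hCU, fun x hx => ?_⟩
    by_contra hn
    let W : Opens X := U ⊓ ⟨Cᶜ, hC.isOpen_compl⟩
    refine hx.2 W inf_le_left ⟨hx.1, hn⟩ ?_
    rw [← app_res]
    exact h0 W (Set.disjoint_left.2 fun y hy hy' => hy'.2 hy) _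

section Cone

open CochainComplex

theorem cone_bdd {C : Type*} [Category C] [Preadditive C] [HasBinaryBiproducts C]
    {F G : CochainComplex C ℤ} (f : F ⟶ G) (hF : ∃ a, F.IsStrictlyGE a)
    (hG : ∃ a, G.IsStrictlyGE a) : ∃ a, (mappingCone f).IsStrictlyGE a := by
  obtain ⟨a, ha⟩ := hF
  obtain ⟨b, hb⟩ := hG
  refine ⟨min (a - 1) b, ?_⟩
  rw [CochainComplex.isStrictlyGE_iff]
  intro i hi
  rw [mappingCone.isZero_X_iff]
  exact ⟨F.isZero_of_isStrictlyGE a _ (by omega), G.isZero_of_isStrictlyGE b _ (by omega)⟩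

variable {F G : Cx k X}

theorem FlqC.cone (hF : FlqC F) (hG : FlqC G) (f : F ⟶ G) : FlqC (mappingCone f) :=
  ⟨cone_bdd f hF.1 hG.1, fun n =>
    (hF.2 (n + 1)).of_two (hG.2 n) _ _ _ _ (mappingCone.id_X f n (n + 1) rfl)⟩

theorem SoftC.cone (hF : SoftC F) (hG : SoftC G) (f : F ⟶ G) : SoftC (mappingCone f) :=
  ⟨cone_bdd f hF.1 hG.1, fun n =>
    (hF.2 (n + 1)).of_two (hG.2 n) _ _ _ _ (mappingCone.id_X f n (n + 1) rfl)⟩

theorem InjC.cone {C : Type*} [Category C] [Preadditive C] [HasBinaryBiproducts C]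
    {F G : CochainComplex C ℤ} (hF : InjC F) (hG : InjC G) (f : F ⟶ G) :
    InjC (mappingCone f) :=
  ⟨cone_bdd f hF.1 hG.1, fun n => by
    have := hF.2 (n + 1)
    have := hG.2 n
    exact Injective.of_iso (HomologicalComplex.homotopyCofiber.XIsoBiprod f n (n + 1) rfl).symm
      inferInstance⟩

theorem shift_bdd {C : Type*} [Category C] [Preadditive C] {F : CochainComplex C ℤ}
    (hF : ∃ a, F.IsStrictlyGE a) (m : ℤ) : ∃ a, (F⟦m⟧ : CochainComplex C ℤ).IsStrictlyGE a := by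
  obtain ⟨a, ha⟩ := hF
  exact ⟨a - m, F.isStrictlyGE_shift a m _ (by omega)⟩

theorem FlqC.shift (hF : FlqC F) (m : ℤ) : FlqC (F⟦m⟧) :=
  ⟨shift_bdd hF.1 m, fun n => hF.2 (n + m)⟩

theorem SoftC.shift (hF : SoftC F) (m : ℤ) : SoftC (F⟦m⟧) :=
  ⟨shift_bdd hF.1 m, fun n => hF.2 (n + m)⟩

theorem InjC.shift {C : Type*} [Category C] [Preadditive C] {F : CochainComplex C ℤ}
    (hF : InjC F) (m : ℤ) : InjC (F⟦m⟧) :=
  ⟨shift_bdd hF.1 m, fun n => hF.2 (n + m)⟩

theorem FlqC.of_iso (hF : FlqC F) (e : F ≅ G) : FlqC G := by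
  obtain ⟨⟨a, ha⟩, h⟩ := hF
  exact ⟨⟨a, isStrictlyGE_of_iso e a⟩,
    fun n => (h n).of_iso ((HomologicalComplex.eval _ _ n).mapIso e)⟩

theorem SoftC.of_iso (hF : SoftC F) (e : F ≅ G) : SoftC G := by
  obtain ⟨⟨a, ha⟩, h⟩ := hF
  exact ⟨⟨a, isStrictlyGE_of_iso e a⟩,
    fun n => (h n).of_iso ((HomologicalComplex.eval _ _ n).mapIso e)⟩

theorem InjC.of_iso {C : Type*} [Category C] [Preadditive C] {F G : CochainComplex C ℤ}
    (hF : InjC F) (e : F ≅ G) : InjC G := by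
  obtain ⟨⟨a, ha⟩, h⟩ := hF
  exact ⟨⟨a, isStrictlyGE_of_iso e a⟩,
    fun n => Injective.of_iso ((HomologicalComplex.eval _ _ n).mapIso e) (h n)⟩

end Cone

end P275S
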