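import Vale.Agent.P275S.KInj
import Vale.Agent.P275S.God

/-! The calculus of operators on `Rh_* k`: multiplication by classes and pull-backs. -/

open CategoryTheory Limits TopologicalSpace CochainComplex CochainComplex.HomComplex

noncomputable section

set_option backward.isDefEq.respectTransparency false

namespace P275S

variable {k : Type} [Field k] {X X' X'' Y : TopCat.{0}}

/-- The constant sheaf in degree zero, as an object of the graded homotopy category. -/
def kk (k : Type) [Field k] (X : TopCat.{0}) : KG k (Sh k X) := KG.of (cstAt k X 0)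

section gcl

variable {F G : Cx k X}

/-- The graded morphism `k_X ⟶ F` defined by a global cocycle. -/
def gcl {n : ℤ} (c : sec (F.X n) ⊤) (hc : app (F.d n (n + 1)) ⊤ c = 0) : kk k X ⟶ KG.of F :=
  KG.mk k (Cocycle.fromSingleMk (secHom c) (zero_add n) (n + 1) rfl
    (by rw [secHom_comp, hc, secHom_zero]))

theorem gcl_mem {n : ℤ} (c : sec (F.X n) ⊤) (hc : app (F.d n (n + 1)) ⊤ c = 0) :
    gcl c hc ∈ KG.deg k (kk k X) (KG.of F) n := ⟨_, rfl⟩

theorem exists_gcl {n : ℤ} {x : kk k X ⟶ KG.of F} (hx : x ∈ KG.deg k (kk k X) (KG.of F) n) :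
    ∃ (c : sec (F.X n) ⊤) (hc : app (F.d n (n + 1)) ⊤ c = 0), gcl c hc = x := by
  obtain ⟨z, rfl⟩ := hx
  obtain ⟨f, hf, rfl⟩ := Cocycle.fromSingleMk_surjective z n (zero_add n) (n + 1) rfl
  refine ⟨app f ⊤ (cstOne k ⊤), congrArg (fun g => app g ⊤ (cstOne k ⊤)) hf, ?_⟩
  exact congrArg (KG.mk k) (Cocycle.ext
    (congrArg (Cochain.fromSingleMk · (zero_add n)) (secHom_app f)))

theorem gcl_eq_zero_iff {n : ℤ} (c : sec (F.X n) ⊤) (hc : app (F.d n (n + 1)) ⊤ c = 0) (m : ℤ)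
    (h : m + 1 = n) : gcl c hc = 0 ↔ ∃ b : sec (F.X m) ⊤, app (F.d m n) ⊤ b = c := by
  refine (KG.mk_eq_zero_iff k _ (n - 1) (by simp)).trans ?_
  refine (mem_coboundaries_iff _ (n - 1) (by simp)).symm.trans ?_
  rw [Cocycle.fromSingleMk_mem_coboundaries_iff _ _ _ _ _ m h]
  constructor
  · rintro ⟨g, hg⟩
    exact ⟨app g ⊤ (cstOne k ⊤), (congrArg (fun g => app g ⊤ (cstOne k ⊤)) hg).trans
      (secHom_one c)⟩
  · rintro ⟨b, rfl⟩
    exact ⟨secHom b, secHom_comp _ _⟩

theorem gcl_add {n : ℤ} (c c' : sec (F.X n) ⊤) (hc : app (F.d n (n + 1)) ⊤ c = 0)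
    (hc' : app (F.d n (n + 1)) ⊤ c' = 0) :
    gcl (c + c') (by rw [map_add, hc, hc', add_zero]) = gcl c hc + gcl c' hc' := by
  refine Eq.trans (congrArg (KG.mk k) (Cocycle.ext ?_)) (map_add (KG.mk k) _ _)
  refine Eq.trans (congrArg (Cochain.fromSingleMk · (zero_add n)) ?_)
    (Cochain.fromSingleMk_add _ _ _)
  exact cst_hom_ext (by simp)

theorem gcl_smul {n : ℤ} (r : k) (c : sec (F.X n) ⊤) (hc : app (F.d n (n + 1)) ⊤ c = 0) :
    gcl (r • c) (by rw [map_smul, hc, smul_zero]) = r • gcl c hc := by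
  refine Eq.trans (congrArg (KG.mk k) ?_) (map_smul (KG.mk k) r _)
  refine Cocycle.ext ((Cochain.fromSingleEquiv (zero_add n)).injective ?_)
  have : ∀ f : cst k X ⟶ F.X n, Cochain.fromSingleEquiv (zero_add n)
      (r • Cochain.fromSingleMk f (zero_add n)) = r • f := fun f => by
    simp only [Cochain.fromSingleEquiv, AddEquiv.coe_mk, Equiv.coe_fn_mk, Cochain.smul_v,
      Cochain.fromSingleMk_v]
    exact (Linear.comp_smul _ _ _ _ _ _).trans (congrArg (r • ·) (Iso.inv_hom_id_assoc _ _))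
  rw [Cocycle.fromSingleMk_coe, Cochain.fromSingleEquiv_fromSingleMk]
  refine Eq.trans ?_ (this _).symm
  exact cst_hom_ext (by simp)

theorem gcl_congr {n : ℤ} {c c' : sec (F.X n) ⊤} (h : c = c')
    (hc : app (F.d n (n + 1)) ⊤ c = 0) : gcl c hc = gcl c' (h ▸ hc) := by
  subst h
  rfl

theorem gcl_sub {n : ℤ} (c c' : sec (F.X n) ⊤) (hc : app (F.d n (n + 1)) ⊤ c = 0)
    (hc' : app (F.d n (n + 1)) ⊤ c' = 0) :
    gcl (c - c') (by rw [map_sub, hc, hc', sub_zero]) = gcl c hc - gcl c' hc' := by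
  rw [eq_sub_iff_add_eq, ← gcl_add]
  exact gcl_congr (sub_add_cancel c c') _

theorem gcl_eq_iff {n : ℤ} (c c' : sec (F.X n) ⊤) (hc : app (F.d n (n + 1)) ⊤ c = 0)
    (hc' : app (F.d n (n + 1)) ⊤ c' = 0) (m : ℤ) (h : m + 1 = n) :
    gcl c hc = gcl c' hc' ↔ ∃ b : sec (F.X m) ⊤, app (F.d m n) ⊤ b = c - c' := by
  rw [← sub_eq_zero, ← gcl_sub, gcl_eq_zero_iff _ _ m h]

theorem cocycle_app {n a m : ℤ} (h : n + a = m) {U : Opens X} (c : sec (F.X n) U)
    (hc : app (F.d n (n + 1)) U c = 0) (z : Cocycle F G a) :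
    app (G.d m (m + 1)) U (app (z.1.v n m h) U c) = 0 := by
  have h1 := Cochain.congr_v (z.δ_eq_zero (a + 1)) n (m + 1) (by omega)
  rw [δ_v a (a + 1) rfl z.1 n (m + 1) (by omega) m (n + 1) (by omega) rfl] at h1
  have h2 := congrArg (fun g : F.X n ⟶ G.X (m + 1) => app g U c) h1
  rcases Int.units_eq_one_or (a + 1).negOnePow with h3 | h3 <;> simpa [h3, hc] using h2

theorem gcl_comp_mk {n a m : ℤ} (h : n + a = m) (c : sec (F.X n) ⊤)
    (hc : app (F.d n (n + 1)) ⊤ c = 0) (z : Cocycle F G a) :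
    gcl c hc ≫ KG.mk k z = gcl (app (z.1.v n m h) ⊤ c) (cocycle_app h c hc z) := by
  refine (KG.mk_comp k h _ _).trans ?_
  refine congrArg (KG.mk k) (Cocycle.ext ((Cochain.fromSingleEquiv (zero_add m)).injective ?_))
  rw [Cocycle.fromSingleMk_coe, Cochain.fromSingleEquiv_fromSingleMk]
  have : ∀ f : cst k X ⟶ F.X n, Cochain.fromSingleEquiv (zero_add m)
      ((Cochain.fromSingleMk f (zero_add n)).comp z.1 h) = f ≫ z.1.v n m h := fun f => by
    simp only [Cochain.fromSingleEquiv, AddEquiv.coe_mk, Equiv.coe_fn_mk,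
      Cochain.comp_v _ _ h 0 n m (zero_add n) h, Cochain.fromSingleMk_v]
    exact (Category.assoc _ _ _).symm.trans (congrArg (· ≫ _) (Iso.inv_hom_id_assoc _ _))
  exact (this _).trans (secHom_comp _ _)

theorem hom_app_cocycle {n : ℤ} {U : Opens X} (c : sec (F.X n) U)
    (hc : app (F.d n (n + 1)) U c = 0) (φ : F ⟶ G) :
    app (G.d n (n + 1)) U (app (φ.f n) U c) = 0 := by
  rw [← app_comp, φ.comm, app_comp, hc, map_zero]

theorem gcl_comp_hom {n : ℤ} (c : sec (F.X n) ⊤) (hc : app (F.d n (n + 1)) ⊤ c = 0)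
    (φ : F ⟶ G) : gcl c hc ≫ KG.hom k φ = gcl (app (φ.f n) ⊤ c) (hom_app_cocycle c hc φ) :=
  (gcl_comp_mk (add_zero n) c hc _).trans (gcl_congr (by simp) _)

theorem gcl_ind {P : (kk k X ⟶ KG.of F) → Prop} (h0 : P 0)
    (hmk : ∀ n (c : sec (F.X n) ⊤) (hc : app (F.d n (n + 1)) ⊤ c = 0), P (gcl c hc))
    (hadd : ∀ x y, P x → P y → P (x + y)) (x : kk k X ⟶ KG.of F) : P x :=
  KG.ind_deg h0 (fun n f hf => by
    obtain ⟨c, hc, rfl⟩ := exists_gcl hf
    exact hmk n c hc) hadd x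

end gcl

/-- The section `1` of the constant sheaf in degree zero. -/
def one0 (k : Type) [Field k] (X : TopCat.{0}) : sec ((cstAt k X 0).X 0) ⊤ :=
  app (HomologicalComplex.singleObjXSelf (ComplexShape.up ℤ) 0 (cst k X)).inv ⊤ (cstOne k ⊤)

theorem d_one0 : app ((cstAt k X 0).d 0 (0 + 1)) ⊤ (one0 k X) = 0 := rfl

theorem gcl_one0 : gcl (one0 k X) d_one0 = 𝟙 (kk k X) := by
  refine congrArg (KG.mk k) (Cocycle.ext ((Cochain.fromSingleEquiv (zero_add 0)).injective ?_))
  rw [Cocycle.fromSingleMk_coe, Cochain.fromSingleEquiv_fromSingleMk]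
  refine (secHom_app _).trans ?_
  simp only [Cochain.fromSingleEquiv, AddEquiv.coe_mk, Equiv.coe_fn_mk, Cocycle.ofHom_coe,
    Cochain.ofHom_v]
  exact (Category.comp_id _).symm

theorem mk_eq_gcl {F : Cx k X} {n : ℤ} (z : Cocycle (cstAt k X 0) F n) :
    (KG.mk k z : kk k X ⟶ KG.of F) = gcl (app (z.1.v 0 n (zero_add n)) ⊤ (one0 k X))
      (cocycle_app _ _ d_one0 z) := by
  rw [← gcl_comp_mk (zero_add n) _ d_one0, gcl_one0]
  exact (Category.id_comp _).symm

/-- Direct image on graded homotopy categories. -/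
abbrev pushK (k : Type) [Field k] (h : X ⟶ Y) : KG k (Sh k X) ⥤ KG k (Sh k Y) :=
  KG.map k (push k h)

theorem pushK_comp (f : X' ⟶ X) (h : X ⟶ Y) {A B : KG k (Sh k X')} (x : A ⟶ B) :
    (pushK k h).map ((pushK k f).map x) = (pushK k (f ≫ h)).map x := by
  induction x using KG.ind with
  | h0 => simp only [Functor.map_zero]
  | hadd x y hx hy => simp only [Functor.map_add, hx, hy]
  | hmk n z => rw [KG.map_mk, KG.map_mk, KG.map_mk]; rfl

theorem pushK_id {A B : KG k (Sh k X)} (x : A ⟶ B) : (pushK k (𝟙 X)).map x = x := by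
  induction x using KG.ind with
  | h0 => simp only [Functor.map_zero]
  | hadd x y hx hy => simp only [Functor.map_add, hx, hy]
  | hmk n z => rw [KG.map_mk]; rfl

/-- The unit `k_Y ⟶ h_* k_X`. -/
def cU (k : Type) [Field k] (h : X ⟶ Y) : kk k Y ⟶ (pushK k h).obj (kk k X) :=
  gcl (F := (pushC k h).obj (cstAt k X 0)) (n := 0) (one0 k X) d_one0

theorem cU_mem (h : X ⟶ Y) : cU k h ∈ KG.deg k _ _ 0 := gcl_mem _ _

theorem cU_gcl (h : X ⟶ Y) {F : Cx k X} {n : ℤ} (c : sec (F.X n) ⊤)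
    (hc : app (F.d n (n + 1)) ⊤ c = 0) :
    cU k h ≫ (pushK k h).map (gcl c hc) = gcl (F := (pushC k h).obj F) c hc := by
  have e := mk_eq_gcl (k := k) (Cocycle.fromSingleMk (secHom c) (zero_add n) (n + 1) rfl
    (by rw [secHom_comp, hc, secHom_zero]))
  have e2 : app ((Cocycle.fromSingleMk (secHom c) (zero_add n) (n + 1) rfl
      (by rw [secHom_comp, hc, secHom_zero]) : Cocycle (cstAt k X 0) F n).1.v 0 n (zero_add n))
      ⊤ (one0 k X) = c := by
    rw [Cocycle.fromSingleMk_coe, Cochain.fromSingleMk_v]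
    exact (congrArg (fun g => app g ⊤ (cstOne k ⊤)) (Iso.inv_hom_id_assoc _ _)).trans
      (secHom_one c)
  rw [gcl, KG.map_mk]
  exact (gcl_comp_mk (zero_add n) _ _ _).trans (gcl_congr (F := (pushC k h).obj F) e2 _)

theorem cU_comp (f : X' ⟶ X) (h : X ⟶ Y) :
    cU k h ≫ (pushK k h).map (cU k f) = cU k (f ≫ h) := cU_gcl h _ _

theorem cU_id : cU k (𝟙 X) = 𝟙 (kk k X) := gcl_one0

theorem cU_bijective (h : X ⟶ Y) (A : KG k (Sh k X)) :
    Function.Bijective fun x : kk k X ⟶ A => cU k h ≫ (pushK k h).map x := by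
  obtain ⟨F⟩ := A
  constructor
  · refine (injective_iff_map_eq_zero ((Preadditive.leftComp _ (cU k h)).comp
      (pushK k h).mapAddHom)).2 fun g hg => KG.ext_pr fun n => ?_
    obtain ⟨c, hc, e⟩ := exists_gcl (KG.pr_mem_deg n g)
    have h1 : cU k h ≫ (pushK k h).map (gcl c hc) = 0 := by
      rw [e, KG.map_pr, ← KG.pr_comp_of_left (zero_add n) (cU_mem h)]
      exact (congrArg (KG.pr n) hg).trans (map_zero _)
    rw [cU_gcl, gcl_eq_zero_iff _ _ (n - 1) (by simp)] at h1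
    rw [map_zero, ← e, gcl_eq_zero_iff _ _ (n - 1) (by simp)]
    exact h1
  · intro y
    induction y using gcl_ind (F := (pushC k h).obj F) with
    | h0 => exact ⟨0, by simp⟩
    | hmk n c hc => exact ⟨gcl (F := F) c hc, cU_gcl h _ _⟩
    | hadd x y hx hy =>
      obtain ⟨a, rfl⟩ := hx
      obtain ⟨b, rfl⟩ := hy
      exact ⟨a + b, by simp⟩

/-- The injective resolution of the constant sheaf in the graded homotopy category. -/
def IK (k : Type) [Field k] (X : TopCat.{0}) : KG k (Sh k X) := KG.of (I k X)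

/-- The augmentation. -/
def unit (k : Type) [Field k] (X : TopCat.{0}) : kk k X ⟶ IK k X := KG.hom k (ιI k X)

theorem unit_mem : unit k X ∈ KG.deg k _ _ 0 := KG.hom_mem_deg _

/-- The object `Rh_* k`. -/
def K (k : Type) [Field k] (h : X ⟶ Y) : KG k (Sh k Y) := (pushK k h).obj (IK k X)

theorem K_c (h : X ⟶ Y) : (K k h).c = (pushC k h).obj (I k X) := rfl

theorem K_id : K k (𝟙 X) = IK k X := rfl

theorem pushK_K (f : X' ⟶ X) (h : X ⟶ Y) : (pushK k h).obj (K k f) = K k (f ≫ h) := rfl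

theorem injC_K (h : X ⟶ Y) : InjC (K k h).c := (injC_I k X).push h

/-- The cohomology ring of `X`. -/
abbrev H (k : Type) [Field k] (X : TopCat.{0}) : Type := End (IK k X)

/-- Classes of degree `n`. -/
def Hd (k : Type) [Field k] (X : TopCat.{0}) (n : ℤ) : Submodule k (H k X) :=
  KG.deg k (IK k X) (IK k X) n

theorem mul_mem_Hd {a b : H k X} {m n l : ℤ} (h : m + n = l) (ha : a ∈ Hd k X m)
    (hb : b ∈ Hd k X n) : a * b ∈ Hd k X l := KG.comp_mem_deg (by omega) hb ha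

theorem one_mem_Hd : (1 : H k X) ∈ Hd k X 0 := KG.id_mem_deg _

theorem unit_bijective {A : KG k (Sh k X)} (hA : InjC A.c) :
    Function.Bijective fun g : IK k X ⟶ A => unit k X ≫ g := KG.comp_bijective (ιI k X) hA

theorem unit_cancel {A : KG k (Sh k X)} (hA : InjC A.c) {g g' : IK k X ⟶ A}
    (h : unit k X ≫ g = unit k X ≫ g') : g = g' := (unit_bijective hA).1 h

/-- A linear functor on endomorphism algebras. -/
def endMap {C D : Type*} [Category C] [Category D] [Preadditive C] [Preadditive D] [Linear k C]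
    [Linear k D] (Φ : C ⥤ D) [Φ.Additive] [Φ.Linear k] (A : C) : End A →ₐ[k] End (Φ.obj A) :=
  AlgHom.ofLinearMap (Φ.mapLinearMap k) (Φ.map_id A) fun x y => Φ.map_comp y x

theorem endMap_apply {C D : Type*} [Category C] [Category D] [Preadditive C] [Preadditive D]
    [Linear k C] [Linear k D] (Φ : C ⥤ D) [Φ.Additive] [Φ.Linear k] (A : C) (x : End A) :
    endMap (k := k) Φ A x = Φ.map x := rfl

/-- Multiplication by a class, acting on `Rh_* k`. -/
def mul (h : X ⟶ Y) : H k X →ₐ[k] End (K k h) := endMap (pushK k h) (IK k X)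

theorem mul_def (h : X ⟶ Y) (a : H k X) : mul h a = (pushK k h).map a := rfl

theorem mul_mem (h : X ⟶ Y) {a : H k X} {n : ℤ} (ha : a ∈ Hd k X n) :
    mul h a ∈ KG.deg k (K k h) (K k h) n := KG.map_mem_deg _ ha

theorem mul_id (a : H k X) : mul (𝟙 X) a = a := pushK_id a

theorem push_mul (f : X' ⟶ X) (h : X ⟶ Y) (a : H k X') :
    (pushK k h).map (mul f a) = mul (f ≫ h) a := pushK_comp f h a

/-- The class `1` as a morphism `k_Y ⟶ Rh_* k`. -/
def uK (k : Type) [Field k] (h : X ⟶ Y) : kk k Y ⟶ K k h :=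
  cU k h ≫ (pushK k h).map (unit k X)

theorem uK_mem (h : X ⟶ Y) : uK k h ∈ KG.deg k _ _ 0 :=
  KG.comp_mem_deg (add_zero 0) (cU_mem h) (KG.map_mem_deg _ unit_mem)

theorem uK_id : uK k (𝟙 X) = unit k X := by
  rw [uK, cU_id, pushK_id]
  exact Category.id_comp _

theorem cU_uK (f : X' ⟶ X) (h : X ⟶ Y) : cU k h ≫ (pushK k h).map (uK k f) = uK k (f ≫ h) := by
  rw [uK, Functor.map_comp, ← Category.assoc, cU_comp, pushK_comp]
  rfl

theorem exists_pullC (f : X' ⟶ X) :
    ∃ φ : I k X ⟶ (pushC k f).obj (I k X'), unit k X ≫ KG.hom k φ = uK k f := by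
  obtain ⟨g, hg, e⟩ := KG.exists_lift (ιI k X) (injC_K f) (uK_mem (k := k) f)
  obtain ⟨φ, rfl⟩ := KG.mem_deg_zero.1 hg
  exact ⟨φ, e⟩

/-- The chain map `I X ⟶ f_* I X'` extending the unit. -/
def pullC (k : Type) [Field k] (f : X' ⟶ X) : I k X ⟶ (pushC k f).obj (I k X') :=
  (exists_pullC f).choose

/-- The pull-back `I X ⟶ Rf_* k`. -/
def pullI (k : Type) [Field k] (f : X' ⟶ X) : IK k X ⟶ K k f := KG.hom k (pullC k f)

theorem unit_pullI (f : X' ⟶ X) : unit k X ≫ pullI k f = uK k f := (exists_pullC f).choose_spec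

theorem pullI_mem (f : X' ⟶ X) : pullI k f ∈ KG.deg k _ _ 0 := KG.hom_mem_deg _

/-- The pull-back `Rh_* k ⟶ R(f ≫ h)_* k`. -/
def pull (k : Type) [Field k] (f : X' ⟶ X) (h : X ⟶ Y) : K k h ⟶ K k (f ≫ h) :=
  (pushK k h).map (pullI k f)

theorem pull_eq_hom (f : X' ⟶ X) (h : X ⟶ Y) :
    pull k f h = KG.hom k ((pushC k h).map (pullC k f)) := KG.map_hom (push k h) (pullC k f)

theorem pull_mem (f : X' ⟶ X) (h : X ⟶ Y) :
    pull k f h ∈ KG.deg k (K k h) (K k (f ≫ h)) 0 :=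
  KG.mem_deg_zero.2 ⟨(pushC k h).map (pullC k f), (pull_eq_hom f h).symm⟩

theorem uK_pull (f : X' ⟶ X) (h : X ⟶ Y) : uK k h ≫ pull k f h = uK k (f ≫ h) := by
  rw [← cU_uK, ← unit_pullI f, Functor.map_comp, uK, Category.assoc]
  rfl

theorem pullI_id : pullI k (𝟙 X) = 𝟙 (IK k X) :=
  unit_cancel (injC_I k X) ((unit_pullI _).trans (uK_id.trans (Category.comp_id _).symm))

theorem pullI_comp (f' : X'' ⟶ X') (f : X' ⟶ X) :
    pullI k f ≫ pull k f' f = pullI k (f' ≫ f) :=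
  unit_cancel (injC_K _) (by rw [← Category.assoc, unit_pullI, uK_pull, unit_pullI])

theorem pull_base_id (f : X' ⟶ X) : pull k f (𝟙 X) = pullI k f := pushK_id _

theorem pull_id (h : X ⟶ Y) : pull k (𝟙 X) h = 𝟙 (K k h) := by
  rw [pull, pullI_id]
  exact (pushK k h).map_id _

theorem push_pull {Z : TopCat.{0}} (f : X' ⟶ X) (h : X ⟶ Y) (g : Y ⟶ Z) :
    (pushK k g).map (pull k f h) = pull k f (h ≫ g) := pushK_comp h g _

theorem pull_comp (f' : X'' ⟶ X') (f : X' ⟶ X) (h : X ⟶ Y) :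
    pull k f h ≫ pull k f' (f ≫ h) = pull k (f' ≫ f) h := by
  rw [← push_pull f' f h]
  exact ((pushK k h).map_comp _ _).symm.trans (congrArg (pushK k h).map (pullI_comp f' f))

theorem evK_bijective (h : X ⟶ Y) :
    Function.Bijective fun a : H k X => uK k h ≫ mul h a := by
  have : (fun a : H k X => uK k h ≫ mul h a) =
      (fun x : kk k X ⟶ IK k X => cU k h ≫ (pushK k h).map x) ∘ fun a : H k X => unit k X ≫ a := by
    funext a
    simp only [Function.comp_apply, Functor.map_comp, uK, Category.assoc]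
    rfl
  rw [this]
  exact (cU_bijective h _).comp (unit_bijective (injC_I k X))

/-- The hypercohomology of `Rh_* k` is the cohomology of `X`. -/
def evK (h : X ⟶ Y) : H k X ≃ₗ[k] (kk k Y ⟶ K k h) :=
  LinearEquiv.ofBijective ((Linear.leftComp k _ (uK k h)).comp (mul h).toLinearMap)
    (evK_bijective h)

theorem evK_apply (h : X ⟶ Y) (a : H k X) : evK h a = uK k h ≫ mul h a := rfl

theorem evK_one (h : X ⟶ Y) : evK h (1 : H k X) = uK k h := by
  rw [evK_apply, map_one]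
  exact Category.comp_id _

theorem evK_mul (h : X ⟶ Y) (a b : H k X) : evK h b ≫ mul h a = evK h (a * b) := by
  rw [evK_apply, evK_apply, map_mul, Category.assoc]
  rfl

theorem evK_pr (h : X ⟶ Y) (n : ℤ) (a : H k X) : evK h (KG.pr n a) = KG.pr n (evK h a) := by
  rw [evK_apply, evK_apply, KG.pr_comp_of_left (zero_add n) (uK_mem h), mul_def, KG.map_pr]
  rfl

theorem evK_mem_iff (h : X ⟶ Y) {n : ℤ} {a : H k X} :
    evK h a ∈ KG.deg k _ _ n ↔ a ∈ Hd k X n := by
  rw [KG.mem_deg_iff_pr, ← evK_pr, (evK h).injective.eq_iff]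
  exact KG.mem_deg_iff_pr.symm

theorem cU_evK {Z : TopCat.{0}} (h : X ⟶ Y) (g : Y ⟶ Z) (a : H k X) :
    cU k g ≫ (pushK k g).map (evK h a) = evK (h ≫ g) a := by
  rw [evK_apply, Functor.map_comp, ← Category.assoc, cU_uK, push_mul]
  rfl

theorem exists_pb (f : X' ⟶ X) (a : H k X) :
    ∃ b : H k X', pullI k f ≫ mul f b = a ≫ pullI k f := by
  refine ⟨(evK f).symm (unit k X ≫ a ≫ pullI k f), unit_cancel (injC_K f) ?_⟩
  rw [← Category.assoc, unit_pullI, ← evK_apply, LinearEquiv.apply_symm_apply]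

theorem pullI_mul_inj (f : X' ⟶ X) {b b' : H k X'}
    (h : pullI k f ≫ mul f b = pullI k f ≫ mul f b') : b = b' :=
  (evK f).injective (by rw [evK_apply, evK_apply, ← unit_pullI, Category.assoc, h, Category.assoc])

/-- Pull-back of cohomology classes. -/
def pb (f : X' ⟶ X) : H k X →ₐ[k] H k X' :=
  AlgHom.ofLinearMap
    ((evK f).symm.toLinearMap.comp ((Linear.leftComp k _ (unit k X)).comp
      (Linear.rightComp k _ (pullI k f))))
    ((evK f).injective (by
      rw [evK_one, ← unit_pullI]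
      exact ((evK f).apply_symm_apply _).trans 
        (congrArg (unit k X ≫ ·) (Category.id_comp (pullI k f)))))
    fun a b => by
      have key : ∀ a : H k X, pullI k f ≫ mul f ((evK f).symm (unit k X ≫ a ≫ pullI k f)) =
          a ≫ pullI k f := fun a => unit_cancel (injC_K f) (by
        rw [← Category.assoc, unit_pullI, ← evK_apply, LinearEquiv.apply_symm_apply])
      refine pullI_mul_inj f ((key (a * b)).trans ?_)
      rw [map_mul, End.mul_def, End.mul_def, ← Category.assoc]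
      erw [key b]
      rw [Category.assoc, Category.assoc]
      erw [key a]

theorem evK_pb (f : X' ⟶ X) (a : H k X) : evK f (pb f a) = unit k X ≫ a ≫ pullI k f :=
  (evK f).apply_symm_apply _

theorem pullI_mul (f : X' ⟶ X) (a : H k X) : pullI k f ≫ mul f (pb f a) = a ≫ pullI k f :=
  unit_cancel (injC_K f) (by rw [← Category.assoc, unit_pullI, ← evK_apply, evK_pb])

/-- Pull-back intertwines the multiplications. -/
theorem pull_mul (f : X' ⟶ X) (h : X ⟶ Y) (a : H k X) :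
    pull k f h ≫ mul (f ≫ h) (pb f a) = mul h a ≫ pull k f h := by
  rw [← push_mul f h, pull, mul_def h]
  exact ((pushK k h).map_comp _ _).symm.trans
    ((congrArg _ (pullI_mul f a)).trans ((pushK k h).map_comp _ _))

theorem evK_pull (f : X' ⟶ X) (h : X ⟶ Y) (a : H k X) :
    evK h a ≫ pull k f h = evK (f ≫ h) (pb f a) := by
  rw [evK_apply, Category.assoc, ← pull_mul, ← Category.assoc, uK_pull, evK_apply]

theorem pb_id (a : H k X) : pb (𝟙 X) a = a := (evK (𝟙 X)).injective <| by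
  have := evK_pull (𝟙 X) (𝟙 X) a
  rw [pull_id] at this
  exact this.symm.trans (Category.comp_id _)

theorem pb_comp (f' : X'' ⟶ X') (f : X' ⟶ X) (a : H k X) :
    pb f' (pb f a) = pb (f' ≫ f) a := (evK (f' ≫ f ≫ 𝟙 X)).injective <| by
  rw [← evK_pull, ← evK_pull, Category.assoc, pull_comp]
  exact evK_pull (f' ≫ f) (𝟙 X) a

theorem pb_mem (f : X' ⟶ X) {n : ℤ} {a : H k X} (ha : a ∈ Hd k X n) : pb f a ∈ Hd k X' n := by
  rw [← evK_mem_iff f, evK_pb]
  exact KG.comp_mem_deg (zero_add n) unit_mem (KG.comp_mem_deg (add_zero n) ha (pullI_mem f))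

/-- The action of a morphism `Rh_* k ⟶ Rh'_* k` on cohomology. -/
def act {h : X ⟶ Y} {h' : X' ⟶ Y} : (K k h ⟶ K k h') →ₗ[k] (H k X →ₗ[k] H k X') where
  toFun φ := (evK h').symm.toLinearMap ∘ₗ Linear.rightComp k _ φ ∘ₗ (evK h).toLinearMap
  map_add' φ ψ := by
    ext a
    simp
  map_smul' r φ := by
    ext a
    simp

theorem evK_act {h : X ⟶ Y} {h' : X' ⟶ Y} (φ : K k h ⟶ K k h') (a : H k X) :
    evK h' (act φ a) = evK h a ≫ φ := (evK h').apply_symm_apply _

theorem act_comp {h : X ⟶ Y} {h' : X' ⟶ Y} {h'' : X'' ⟶ Y} (φ : K k h ⟶ K k h')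
    (ψ : K k h' ⟶ K k h'') (a : H k X) : act (φ ≫ ψ) a = act ψ (act φ a) :=
  (evK h'').injective (by rw [evK_act, evK_act, evK_act, Category.assoc])

theorem act_id (h : X ⟶ Y) (a : H k X) : act (𝟙 (K k h)) a = a :=
  (evK h).injective (by rw [evK_act, Category.comp_id])

theorem act_mul (h : X ⟶ Y) (a b : H k X) : act (mul h a) b = a * b :=
  (evK h).injective (by rw [evK_act, evK_mul])

theorem act_pull (f : X' ⟶ X) (h : X ⟶ Y) (a : H k X) : act (pull k f h) a = pb f a :=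
  (evK (f ≫ h)).injective (by rw [evK_act, evK_pull])

theorem act_push {Z : TopCat.{0}} {h : X ⟶ Y} {h' : X' ⟶ Y} (g : Y ⟶ Z) (φ : K k h ⟶ K k h')
    (a : H k X) :
    act (h := h ≫ g) (h' := h' ≫ g) ((pushK k g).map φ) a = act φ a :=
  (evK (h' ≫ g)).injective (by
    rw [evK_act, ← cU_evK, ← cU_evK, evK_act, Functor.map_comp, Category.assoc])

theorem act_mem {h : X ⟶ Y} {h' : X' ⟶ Y} {φ : K k h ⟶ K k h'} {a : H k X} {m n l : ℤ}
    (e : m + n = l) (hφ : φ ∈ KG.deg k _ _ n) (ha : a ∈ Hd k X m) : act φ a ∈ Hd k X' l := by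
  rw [← evK_mem_iff h', evK_act]
  exact KG.comp_mem_deg e ((evK_mem_iff h).2 ha) hφ

/-- The ring of operators on `Rh_* k` acts on the cohomology of `X`. -/
def actA (h : X ⟶ Y) : End (K k h) →ₐ[k] Module.End k (H k X) :=
  AlgHom.ofLinearMap act (LinearMap.ext (act_id h)) fun x y => LinearMap.ext (act_comp y x)

theorem actA_apply (h : X ⟶ Y) (φ : End (K k h)) (a : H k X) : actA h φ a = act φ a := rfl

end P275S
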