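import Vale.Agent.P275S.Cell
import Mathlib.Analysis.Complex.Basic
import Mathlib.Analysis.Normed.Module.Connected
import Mathlib.LinearAlgebra.Complex.FiniteDimensional

/-!
# Soft resolutions of the constants: projective spaces and circles, upper bounds
-/

namespace P275S

open Set Topology Vale.Agent.P275SO

/-- The set `C` is a complex projective space of dimension `n` with homogeneous coordinates. -/
structure IsPN {X : Type*} [TopologicalSpace X] (n : ℕ) (C : Set X)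
    (π : (Fin (n + 1) → ℂ) → X) : Prop where
  cont : ContinuousOn π {0}ᶜ
  img : π '' {0}ᶜ = C
  eq_iff : ∀ v ≠ 0, ∀ w ≠ 0, π v = π w ↔ ∃ c : ℂ, w = c • v

variable {X : Type*} [TopologicalSpace X]

theorem IsPN.smul {n : ℕ} {C : Set X} {π : (Fin (n + 1) → ℂ) → X} (h : IsPN n C π)
    {v : Fin (n + 1) → ℂ} (hv : v ≠ 0) {c : ℂ} (hc : c ≠ 0) : π (c • v) = π v :=
  ((h.eq_iff v hv _ (smul_ne_zero hc hv)).2 ⟨c, rfl⟩).symm

theorem exists_unit_smul {n : ℕ} {v : Fin (n + 1) → ℂ} (hv : v ≠ 0) :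
    ∃ c : ℂ, c ≠ 0 ∧ c • v ∈ Metric.sphere (0 : Fin (n + 1) → ℂ) 1 := by
  have : ‖v‖ ≠ 0 := norm_ne_zero_iff.2 hv
  refine ⟨(‖v‖ : ℂ)⁻¹, by simpa using hv, ?_⟩
  simp [norm_smul, this]

theorem sphere_sub {n : ℕ} : Metric.sphere (0 : Fin (n + 1) → ℂ) 1 ⊆ {0}ᶜ := by
  rintro v hv rfl
  simp at hv

theorem IsPN.compact {n : ℕ} {C : Set X} {π : (Fin (n + 1) → ℂ) → X} (h : IsPN n C π) :
    IsCompact C := by
  have : C = π '' Metric.sphere 0 1 := by
    rw [← h.img]
    refine Subset.antisymm ?_ (image_mono sphere_sub)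
    rintro _ ⟨v, hv, rfl⟩
    obtain ⟨c, hc, hs⟩ := exists_unit_smul hv
    exact ⟨_, hs, h.smul hv hc⟩
  rw [this]
  exact (isCompact_sphere _ _).image_of_continuousOn (h.cont.mono sphere_sub)

/-- A function on a part of projective space is continuous when it is continuous in
homogeneous coordinates. -/
theorem IsPN.continuousOn [T2Space X] {n : ℕ} {C : Set X} {π : (Fin (n + 1) → ℂ) → X}
    (h : IsPN n C π) {Y : Type*} [TopologicalSpace Y] {O : Set (Fin (n + 1) → ℂ)} (hO : IsOpen O)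
    (h0 : O ⊆ {0}ᶜ) (hs : ∀ v ∈ O, ∀ c : ℂ, c ≠ 0 → c • v ∈ O) {f : X → Y}
    (hf : ContinuousOn (fun v => f (π v)) O) : ContinuousOn f (π '' O) := by
  rw [continuousOn_iff_isClosed]
  intro T hT
  have c1 : IsClosed (O ∩ (fun v => f (π v)) ⁻¹' Tᶜ)ᶜ :=
    (hf.isOpen_inter_preimage hO hT.isOpen_compl).isClosed_compl
  refine ⟨_, (((isCompact_sphere (0 : Fin (n + 1) → ℂ) 1).inter_right c1).image_of_continuousOn
    (h.cont.mono (inter_subset_left.trans sphere_sub))).isClosed, ?_⟩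
  ext x
  constructor
  · rintro ⟨a, v, hv, rfl⟩
    obtain ⟨c, hc, b⟩ := exists_unit_smul (h0 hv)
    refine ⟨⟨_, ⟨b, fun u => u.2 ?_⟩, h.smul (h0 hv) hc⟩, v, hv, rfl⟩
    change f (π _) ∈ T
    rw [h.smul (h0 hv) hc]
    exact a
  · rintro ⟨⟨w, ⟨a, b⟩, rfl⟩, v, hv, e⟩
    refine ⟨by_contra fun u => b ⟨?_, u⟩, v, hv, e⟩
    obtain ⟨c, rfl⟩ := (h.eq_iff v (h0 hv) w (sphere_sub a)).1 e
    exact hs v hv c (by rintro rfl; simp at a)

theorem cons_ne {n : ℕ} {a : ℂ} {v : Fin n → ℂ} (h : a ≠ 0 ∨ v ≠ 0) :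
    (Fin.cons a v : Fin (n + 1) → ℂ) ≠ 0 := fun e => by
  rcases h with h | h
  · exact h (congrFun e 0)
  · exact h (funext fun i => congrFun e i.succ)

theorem smul_cons {n : ℕ} (c a : ℂ) (v : Fin n → ℂ) :
    c • (Fin.cons a v : Fin (n + 1) → ℂ) = Fin.cons (c * a) (c • v) := by
  funext i
  refine Fin.cases ?_ (fun i => ?_) i <;> simp

theorem continuous_cons {n : ℕ} (a : ℂ) :
    Continuous fun v : Fin n → ℂ => (Fin.cons a v : Fin (n + 1) → ℂ) :=
  continuous_pi fun i => Fin.cases (by simpa using continuous_const)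
    (fun i => by simpa using continuous_apply i) i

/-- The hyperplane `z₀ = 0`. -/
theorem IsPN.hyp {n : ℕ} {C : Set X} {π : (Fin (n + 2) → ℂ) → X} (h : IsPN (n + 1) C π) :
    IsPN n ((fun v => π (Fin.cons 0 v)) '' {0}ᶜ) fun v => π (Fin.cons 0 v) where
  cont := h.cont.comp (continuous_cons 0).continuousOn fun _ hv => cons_ne (Or.inr hv)
  img := rfl
  eq_iff v hv w hw := by
    rw [h.eq_iff _ (cons_ne (Or.inr hv)) _ (cons_ne (Or.inr hw))]
    refine exists_congr fun c => ?_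
    rw [smul_cons, mul_zero, Fin.cons_right_injective _ |>.eq_iff]

theorem IsPN.sub {C : Set X} {π : (Fin 1 → ℂ) → X} (h : IsPN 0 C π) : C.Subsingleton := by
  rw [← h.img]
  rintro _ ⟨v, hv, rfl⟩ _ ⟨w, hw, rfl⟩
  have : v 0 ≠ 0 := fun e => hv (funext fun i => by rw [Fin.fin_one_eq_zero i]; exact e)
  refine (h.eq_iff v hv w hw).2 ⟨w 0 / v 0, funext fun i => ?_⟩
  rw [Fin.fin_one_eq_zero i]
  simp [this]

/-- The affine chart `z₀ ≠ 0`. -/
theorem IsPN.chart [T2Space X] {n : ℕ} {C : Set X} {π : (Fin (n + 2) → ℂ) → X}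
    (h : IsPN (n + 1) C π) : ∃ g : X → Fin (n + 1) → ℂ,
      ContinuousOn g (C \ (fun v => π (Fin.cons 0 v)) '' {0}ᶜ) ∧
      (∀ y, π (Fin.cons 1 y) ∈ C \ (fun v => π (Fin.cons 0 v)) '' {0}ᶜ) ∧
      (∀ y, g (π (Fin.cons 1 y)) = y) ∧
      ∀ x ∈ C \ (fun v => π (Fin.cons 0 v)) '' {0}ᶜ, π (Fin.cons 1 (g x)) = x := by
  have one : ∀ y : Fin (n + 1) → ℂ, (Fin.cons 1 y : Fin (n + 2) → ℂ) ≠ 0 := fun y =>
    cons_ne (Or.inl one_ne_zero)
  have inj : Function.Injective fun y : Fin (n + 1) → ℂ => π (Fin.cons 1 y) := by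
    intro y y' e
    obtain ⟨c, hc⟩ := (h.eq_iff _ (one y) _ (one y')).1 e
    rw [smul_cons, Fin.cons_inj] at hc
    rw [hc.2, show c = 1 by simpa using hc.1.symm, one_smul]
  have nrm : ∀ v : Fin (n + 2) → ℂ, v 0 ≠ 0 → π (Fin.cons 1 ((v 0)⁻¹ • Fin.tail v)) = π v := by
    intro v hv
    rw [← h.smul (fun e => hv (congrFun e 0)) (inv_ne_zero hv)]
    conv_rhs => rw [← Fin.cons_self_tail v, smul_cons]
    simp [hv]
  have img : C \ (fun v => π (Fin.cons 0 v)) '' {0}ᶜ = π '' {v | v 0 ≠ 0} := by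
    ext x
    constructor
    · rintro ⟨a, b⟩
      obtain ⟨v, hv, rfl⟩ := h.img.symm.subset a
      refine ⟨v, fun e => b ⟨Fin.tail v, fun e' => hv ?_, ?_⟩, rfl⟩
      · rw [mem_singleton_iff, ← Fin.cons_self_tail v, e, e']
        exact funext fun i => Fin.cases rfl (fun _ => rfl) i
      · simp only [← e, Fin.cons_self_tail]
    · rintro ⟨v, hv, rfl⟩
      have hv' : v ≠ 0 := fun e => hv (congrFun e 0)
      refine ⟨h.img.subset ⟨v, hv', rfl⟩, ?_⟩
      rintro ⟨w, hw, e⟩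
      obtain ⟨c, rfl⟩ := (h.eq_iff _ (cons_ne (Or.inr hw)) _ hv').1 e
      exact hv (by simp)
  have li := Function.leftInverse_invFun inj
  refine ⟨Function.invFun fun y : Fin (n + 1) → ℂ => π (Fin.cons 1 y), ?_, fun y => ?_, li,
    fun x hx => ?_⟩
  · rw [img]
    refine h.continuousOn (isOpen_ne_fun (continuous_apply 0) continuous_const)
      (fun v hv e => hv (congrFun e 0)) (fun v hv c hc => mul_ne_zero hc hv)
      (ContinuousOn.congr (f := fun v => (v 0)⁻¹ • Fin.tail v) ?_ fun v hv => ?_)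
    · exact ((continuous_apply 0).continuousOn.inv₀ fun v hv => hv).smul
        (continuous_pi fun i => continuous_apply _).continuousOn
    · change Function.invFun _ (π v) = _
      rw [← nrm v hv]
      exact li _
  · rw [img]
    exact ⟨_, by simp, rfl⟩
  · rw [img] at hx
    obtain ⟨v, hv, rfl⟩ := hx
    rw [← nrm v hv, li]

namespace Ab

variable {k : Type*} [Field k] {M : ℤ → Type*} [∀ i, AddCommGroup (M i)] [∀ i, Module k (M i)]
  {d : ∀ i j, M i →ₗ[k] M j} {G : ∀ i, X → Submodule k (M i)} {e : M 0}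
  {A B B' C : Set X} {j m : ℤ}

/-- Projective space relative to a hyperplane is a cell. -/
theorem Res.cel_pn [T2Space X] (h : Res d G e) {n : ℕ} {π : (Fin (n + 2) → ℂ) → X}
    (hp : IsPN (n + 1) C π) :
    Cel d G ((fun v => π (Fin.cons 0 v)) '' {0}ᶜ) C (2 * (n + 1)) := by
  obtain ⟨g, g1, g2, g3, g4⟩ := hp.chart
  have := h.cel_cell' hp.hyp.compact.isClosed hp.compact g1
    (hp.cont.comp_continuous (continuous_cons 1) fun y => cons_ne (Or.inl one_ne_zero)) g2 g3 g4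
  rwa [Module.finrank_pi_fintype, Finset.sum_const, Complex.finrank_real_complex,
    Finset.card_univ, Fintype.card_fin, smul_eq_mul, mul_comm, Nat.cast_mul, Nat.cast_add] at this

/-- Upper bounds for the cohomology of projective space. -/
theorem Res.pn [T2Space X] (h : Res d G e) : ∀ (n : ℕ) {C : Set X} {π : (Fin (n + 1) → ℂ) → X},
    IsPN n C π → (∀ j, Odd j ∨ 2 * (n : ℤ) < j → Vn d G ∅ C j) ∧ ∀ j, Le1 d G ∅ C j := by
  intro n
  induction n with
  | zero =>
    intro C π hp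
    have := h.cel_pt (A := ∅) hp.sub (empty_inter _)
    refine ⟨fun j hj => this.1 j ?_, fun j => ?_⟩
    · rintro rfl
      simp at hj
    · by_cases hj : j = 0
      · exact hj ▸ this.2
      · exact (this.1 j hj).le1
  | succ n ih =>
    intro C π hp
    have c := h.cel_pn hp
    obtain ⟨i1, i2⟩ := ih hp.hyp
    have e : (fun v => π (Fin.cons 0 v)) '' {0}ᶜ ∩ C = (fun v => π (Fin.cons 0 v)) '' {0}ᶜ := by
      refine inter_eq_left.2 ?_
      rintro _ ⟨v, hv, rfl⟩
      exact hp.img.subset ⟨_, cons_ne (Or.inr hv), rfl⟩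
    rw [← e] at i1 i2
    push_cast
    refine ⟨fun j hj => h.vn_of_vn (c.1 j ?_) (i1 j (hj.imp id fun a => by omega)), fun j => ?_⟩
    · rintro rfl
      rcases hj with ⟨a, ha⟩ | hj <;> omega
    · by_cases hj : j = 2 * (n + 1)
      · subst hj
        exact h.le1_of_le1 c.2 (i1 _ (Or.inr (by omega)))
      · exact h.le1_of_vn (c.1 j hj) (i2 j)

/-- Excision. -/
theorem Res.cel_union (h : Res d G e) (hB : IsCompact B) (hB' : IsCompact B')
    (hc : Cel d G B' B m) : Cel d G B' (B ∪ B') m := by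
  have e : B' ∩ (B ∪ B') = B' := inter_eq_left.2 subset_union_right
  have up : ∀ {j} {s : M j}, Cc d G B' (B ∪ B') j s → s ∈ N (G j) B' ∧ Cc d G B' B j s :=
    fun hs => ⟨e ▸ hs.1, N_anti (inter_subset_inter_right _ subset_union_left) hs.1,
      N_anti subset_union_left hs.2⟩
  have dn : ∀ {j} {s : M j}, s ∈ N (G j) B' → Bd d G B' B (j - 1) s →
      Bd d G B' (B ∪ B') (j - 1) s := by
    rintro j s hs ⟨t, t1, t2⟩
    obtain ⟨u, u1, v, v1, rfl⟩ := h.dat.spl _ B' B hB' hB t t1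
    refine ⟨u, N_anti inter_subset_left u1, mem_N_union.2 ⟨?_, sub_mem hs (h.dat.dN u1)⟩⟩
    have := add_mem t2 (h.dat.dN (j := j) v1)
    rwa [show s - d (j - 1) j (u + v) + d (j - 1) j v = s - d (j - 1) j u by
      rw [map_add]; abel] at this
  refine ⟨fun j hj => vn_iff.2 fun s hs => dn (up hs).1 (vn_iff.1 (hc.1 j hj) s (up hs).2),
    fun s s' hs hs' => ?_⟩
  obtain ⟨a, b, hab, c⟩ := hc.2 s s' (up hs).2 (up hs').2
  exact ⟨a, b, hab, dn (add_mem (Submodule.smul_mem _ _ (up hs).1)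
    (Submodule.smul_mem _ _ (up hs').1)) c⟩

/-- Upper bounds for the cohomology of a circle. -/
theorem Res.circ [T2Space X] (h : Res d G e) (hC : IsCompact C) {c : X → ℂ}
    (hc : ContinuousOn c C) (hi : InjOn c C) (him : c '' C = Metric.sphere 0 1) :
    IsPreconnected C ∧ (∀ j, 1 < j → Vn d G ∅ C j) ∧ Le1 d G ∅ C 1 := by
  have nrm : ∀ x ∈ C, (c x).re ^ 2 + (c x).im ^ 2 = 1 := fun x hx => by
    have : ‖c x‖ = 1 := by simpa using him.subset ⟨x, hx, rfl⟩
    have h2 := Complex.sq_norm (c x)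
    rw [this, Complex.normSq_apply] at h2
    nlinarith
  have hem : ∀ σ : ℝ, σ ^ 2 = 1 → let B := C ∩ c ⁻¹' {z | 0 ≤ σ * z.re}
      IsCompact B ∧ ContinuousOn (fun x (_ : Fin 1) => (c x).im) B ∧
      InjOn (fun x (_ : Fin 1) => (c x).im) B ∧
      (fun x (_ : Fin 1) => (c x).im) '' B = {y | nq y ≤ 1} := by
    intro σ hσ B
    refine ⟨hC.of_isClosed_subset (hc.preimage_isClosed_of_isClosed hC.isClosed
      (isClosed_le continuous_const (continuous_const.mul Complex.continuous_re)))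
      inter_subset_left, continuousOn_pi.2 fun _ =>
        Complex.continuous_im.comp_continuousOn (hc.mono inter_subset_left),
      fun x hx y hy hxy => hi hx.1 hy.1 ?_, ?_⟩
    · have e1 : (c x).im = (c y).im := congrFun hxy 0
      have e2 := (nrm x hx.1).trans (nrm y hy.1).symm
      rw [e1, add_left_inj] at e2
      have e3 : σ * (c x).re = σ * (c y).re :=
        (pow_left_inj₀ hx.2 hy.2 two_ne_zero).1 (by rw [mul_pow, mul_pow, e2])
      have e4 : σ ≠ 0 := by
        rintro rfl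
        simp at hσ
      exact Complex.ext (mul_left_cancel₀ e4 e3) e1
    · refine Subset.antisymm ?_ fun y hy => ?_
      · rintro _ ⟨x, hx, rfl⟩
        have := nrm x hx.1
        simp only [nq, mem_ofPred_eq, Fin.sum_univ_one]
        nlinarith [sq_nonneg (c x).re]
      · have hy' : 0 ≤ 1 - y 0 ^ 2 := sub_nonneg.2 (by simpa [nq] using hy)
        obtain ⟨x, hx, e2⟩ := him.symm.subset
          (show (⟨σ * √(1 - y 0 ^ 2), y 0⟩ : ℂ) ∈ Metric.sphere 0 1 by
            rw [mem_sphere_zero_iff_norm, Complex.norm_eq_sqrt_sq_add_sq, mul_pow, hσ,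
              Real.sq_sqrt hy']
            simp)
        refine ⟨x, ⟨hx, ?_⟩, funext fun i => by simp only [e2, Subsingleton.elim i 0]⟩
        rw [mem_preimage, e2]
        change 0 ≤ σ * (σ * _)
        rw [← mul_assoc, ← sq, hσ, one_mul]
        exact Real.sqrt_nonneg _
  obtain ⟨p1, p2, p3, p4⟩ := hem 1 (by norm_num)
  obtain ⟨q1, q2, q3, q4⟩ := hem (-1) (by norm_num)
  have u : C ∩ c ⁻¹' {z | 0 ≤ 1 * z.re} ∪ C ∩ c ⁻¹' {z | 0 ≤ -1 * z.re} = C := by
    refine Subset.antisymm (union_subset inter_subset_left inter_subset_left) fun x hx => ?_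
    rcases le_total 0 (c x).re with a | a
    · exact Or.inl ⟨hx, show 0 ≤ 1 * (c x).re by linarith⟩
    · exact Or.inr ⟨hx, show 0 ≤ -1 * (c x).re by linarith⟩
  have cel := h.cel_union p1 q1 (h.cel_ball one_pos 1 p1 _ p2 p3 p4 (by
    ext x
    constructor
    · rintro ⟨a, b⟩
      have a' : 0 ≤ -1 * (c x).re := a.2
      have b' : 0 ≤ 1 * (c x).re := b.2
      have := nrm x a.1
      rw [show (c x).re = 0 by linarith] at this
      exact ⟨b, by simpa [nq] using this⟩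
    · rintro ⟨b, a⟩
      have a' : (c x).im ^ 2 = 1 := by simpa [nq] using a
      have := nrm x b.1
      have z : (c x).re = 0 := pow_eq_zero_iff two_ne_zero |>.1 (by linarith)
      exact ⟨⟨b.1, by simp [z]⟩, b⟩))
  rw [u] at cel
  have ac := h.acy_convex _ q1 _ q2 q3 (q4 ▸ convex_nq 1)
  rw [← inter_eq_left.2 (inter_subset_left : C ∩ c ⁻¹' {z | 0 ≤ -1 * z.re} ⊆ C)] at ac
  refine ⟨preconn_of_inj hC hc hi (him ▸ (isConnected_sphere ?_ 0 zero_le_one).isPreconnected),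
    fun j hj => h.vn_of_vn (cel.1 j (by omega)) (ac.2 j (by omega)),
    h.le1_of_le1 cel.2 (ac.2 1 one_pos)⟩
  rw [Complex.rank_real_complex]
  exact Cardinal.one_lt_two

end Ab

end P275S
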