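import Vale.Agent.P275S.God
import Vale.Agent.P275S.PNa

/-! Resolutions of the constant sheaf with their unit section, by elements. -/

open CategoryTheory TopologicalSpace Opposite Limits

noncomputable section

namespace P275S

variable {k : Type} [Field k] {X Y : TopCat.{0}}

/-- `F` is a resolution of the constant sheaf with unit `e`, by elements. -/
structure RsE (F : Cx k X) (e : sec (F.X 0) ⊤) : Prop where
  neg : ∀ j < 0, ∀ (U : Opens X) (s : sec (F.X j) U), s = 0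
  de : app (F.d 0 1) ⊤ e = 0
  loc0 : ∀ (U : Opens X) (s : sec (F.X 0) U), app (F.d 0 1) U s = 0 → ∀ x ∈ U,
    ∃ V, ∃ hV : V ≤ U, x ∈ V ∧ ∃ a : k, res _ hV s = a • res _ le_top e
  ne : ∀ (U : Opens X) (x : X), x ∈ U → ∀ a : k, a • res _ (le_top : U ≤ ⊤) e = 0 → a = 0
  ex : ∀ n, 0 < n → ∀ x, ExAt F n x

/-- The degree zero term of the constant sheaf placed in degree zero. -/
def cE (k : Type) [Field k] (X : TopCat.{0}) : (cstAt k X 0).X 0 ≅ cst k X :=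
  HomologicalComplex.singleObjXSelf (ComplexShape.up ℤ) 0 (cst k X)

/-- The unit of a complex with a map from the constant sheaf. -/
def unitOf {F : Cx k X} (ι : cstAt k X 0 ⟶ F) : sec (F.X 0) ⊤ :=
  app ((cE k X).inv ≫ ι.f 0) ⊤ (cstOne k ⊤)

theorem unitOf_comp {F G : Cx k X} (ι : cstAt k X 0 ⟶ F) (φ : F ⟶ G) :
    unitOf (ι ≫ φ) = app (φ.f 0) ⊤ (unitOf ι) := rfl

theorem cstAt_zero {n : ℤ} (hn : n ≠ 0) (U : Opens X) (s : sec ((cstAt k X 0).X n) U) : s = 0 :=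
  sec_eq_zero (HomologicalComplex.isZero_single_obj_X (ComplexShape.up ℤ) 0 (cst k X) n hn) s

theorem d_unitOf {F : Cx k X} (ι : cstAt k X 0 ⟶ F) (n : ℤ) (hn : n ≠ 0) :
    app (F.d 0 n) ⊤ (unitOf ι) = 0 := by
  rw [unitOf, app_comp, ← app_f_d, cstAt_zero hn _ (app _ _ _), map_zero]

theorem unitOf_clsC {F : Cx k X} (c : sec (F.X 0) ⊤) (hc : app (F.d 0 (0 + 1)) ⊤ c = 0) :
    unitOf (clsC c hc) = c := by
  have he : (clsC c hc).f 0 = (cE k X).hom ≫ secHom c := HomologicalComplex.mkHomFromSingle_f _ _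
  rw [unitOf, he, Iso.inv_hom_id_assoc, secHom_one]

theorem cstAt_hom_ext {F : Cx k X} {ι ι' : cstAt k X 0 ⟶ F} (h : unitOf ι = unitOf ι') :
    ι = ι' := by
  have : ι.f 0 = ι'.f 0 := by
    rw [← cancel_epi (cE k X).inv]
    exact cst_hom_ext h
  exact HomologicalComplex.from_single_hom_ext this

theorem clsC_unitOf {F : Cx k X} (ι : cstAt k X 0 ⟶ F) :
    clsC (unitOf ι) (d_unitOf ι _ (by omega)) = ι := cstAt_hom_ext (unitOf_clsC _ _)

theorem rs_of_qis {F : Cx k X} [F.IsStrictlyGE 0] (ι : cstAt k X 0 ⟶ F) [QuasiIso ι] :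
    RsE F (unitOf ι) := by
  let E := cE k X
  have neg : ∀ j < 0, ∀ (U : Opens X) (s : sec (F.X j) U), s = 0 := fun j hj U s =>
    sec_eq_zero (F.isZero_of_isStrictlyGE 0 j hj) s
  have ho : ∀ V : Opens X, app (ι.f 0) V (app E.inv V (cstOne k V)) = res _ le_top (unitOf ι) :=
    fun V => by rw [← res_cstOne (le_top : V ≤ ⊤), app_res, app_res]; rfl
  refine ⟨neg, d_unitOf ι 1 one_ne_zero, fun U s hs x hx => ?_, fun U x hx a ha => ?_,
    fun n hn x U hx s hs => ?_⟩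
  · obtain ⟨V, hV, xV, u, -, t, ht⟩ := (qisAt_of_quasiIso ι x 0).1 U hx s hs
    obtain ⟨W, hW, xW, a, ha⟩ := exists_cst_eq (app E.hom V u) xV
    refine ⟨W, hW.trans hV, xW, a, ?_⟩
    rw [← res_res _ hV hW, ← ht, neg _ (by omega) _ t, map_zero, add_zero, ← app_res, ← ho,
      ← map_smul, ← map_smul, ← ha, ← app_res, ← app_comp E.hom, E.hom_inv_id, app_id]
  · obtain ⟨V, hV, xV, u, hu⟩ := (qisAt_of_quasiIso ι x 0).2 U hx (app E.inv U (a • cstOne k U))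
      (cstAt_zero (by omega) _ _) 0 (by rw [map_zero, map_smul, map_smul, ho, ha])
    rw [cstAt_zero (by omega) _ u, map_zero, ← app_res] at hu
    have := congrArg (app E.hom V) hu
    rw [map_zero, ← app_comp, E.inv_hom_id, app_id] at this
    have := congrArg (fun f : LocallyConstant V k => f ⟨x, xV⟩) this
    change (0 : k) = a * 1 at this
    simpa using this.symm
  · obtain ⟨V, hV, xV, u, -, t, ht⟩ := (qisAt_of_quasiIso ι x n).1 U hx s hs
    exact ⟨V, hV, xV, t, by rw [← ht, cstAt_zero hn.ne' _ u, map_zero, zero_add]⟩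

/-- The unit section of the chosen injective resolution. -/
def eI (k : Type) [Field k] (X : TopCat.{0}) : sec ((I k X).X 0) ⊤ := unitOf (ιI k X)

instance geI (k : Type) [Field k] (X : TopCat.{0}) : (I k X).IsStrictlyGE 0 :=
  inferInstanceAs ((injectiveResolution (cst k X)).cochainComplex.IsStrictlyGE 0)

instance injI (k : Type) [Field k] (X : TopCat.{0}) (n : ℤ) : Injective ((I k X).X n) :=
  (injC_I k X).2 n

theorem rs_I (k : Type) [Field k] (X : TopCat.{0}) : RsE (I k X) (eI k X) := rs_of_qis _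

/-- The differential on global sections. -/
abbrev dG (F : Cx k X) : ∀ i j, sec (F.X i) ⊤ →ₗ[k] sec (F.X j) ⊤ := fun i j => app (F.d i j) ⊤

/-- The global sections that vanish near a point. -/
abbrev gG (F : Cx k X) : ∀ i, X → Submodule k (sec (F.X i) ⊤) :=
  fun i => Vale.Agent.P275SO.gm (F.X i)

theorem mem_gG {F : Cx k X} {i : ℤ} {x : X} {s : sec (F.X i) ⊤} :
    s ∈ gG F i x ↔ ∃ V : Opens X, x ∈ V ∧ res _ (le_top : V ≤ ⊤) s = 0 := by
  rw [Vale.Agent.P275SO.mem_gm, not_mem_supp (by trivial)]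
  exact ⟨fun ⟨V, _, h⟩ => ⟨V, h⟩, fun ⟨V, h⟩ => ⟨V, le_top, h⟩⟩

theorem RsE.res [Nice X] {F : Cx k X} {e : sec (F.X 0) ⊤} (h : RsE F e) (hF : SoftC F) :
    Ab.Res (dG F) (gG F) e where
  dat := hF.dat (idemId F)
  neg j hj s := h.neg j hj ⊤ s
  de := h.de
  loc0 x s hs := by
    obtain ⟨V, xV, hV⟩ := mem_gG.1 hs
    obtain ⟨W, hW, xW, a, ha⟩ := h.loc0 V (P275S.res _ le_top s) (by rw [app_res]; exact hV) x xV
    exact ⟨a, mem_gG.2 ⟨W, xW, by rw [map_sub, map_smul, ← ha, res_res, sub_self]⟩⟩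
  ne x a ha := by
    obtain ⟨V, xV, hV⟩ := mem_gG.1 ha
    exact h.ne V x xV a (by rw [← map_smul, hV])
  locp x j hj := van_iff.1 (van_pt (q := 𝟙 F) (hF.2 _) (Set.notMem_empty x) (h.ex j hj x))

theorem res_I (k : Type) [Field k] (X : TopCat.{0}) [Nice X] :
    Ab.Res (dG (I k X)) (gG (I k X)) (eI k X) := (rs_I k X).res (softC_I k X)

theorem vn_iff_van {F : Cx k X} {A B : Set X} {n : ℤ} :
    Ab.Vn (dG F) (gG F) A B n ↔ Van (𝟙 F) A B n := (van_iff (p := 𝟙 F)).symm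

theorem bd_empty_iff {F : Cx k X} {B : Set X} {i j : ℤ} {s : sec (F.X j) ⊤} :
    Vale.Agent.P275SO.Bd (dG F) (gG F) ∅ B i s ↔
      ∃ t : sec (F.X i) ⊤, s - app (F.d i j) ⊤ t ∈ Nv (F.X j) B :=
  ⟨fun ⟨t, _, h⟩ => ⟨t, mem_Nv_iff.2 h⟩, fun ⟨t, h⟩ => ⟨t, by simp, mem_Nv_iff.1 h⟩⟩

theorem cc_empty_iff {F : Cx k X} {B : Set X} {j : ℤ} {s : sec (F.X j) ⊤} :
    Ab.Cc (dG F) (gG F) ∅ B j s ↔ app (F.d j (j + 1)) ⊤ s ∈ Nv (F.X (j + 1)) B :=
  ⟨fun h => mem_Nv_iff.2 h.2, fun h => ⟨by simp, mem_Nv_iff.1 h⟩⟩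

theorem mem_Nv_univ' {F : Sh k X} {s : sec F ⊤} : s ∈ Nv F Set.univ ↔ s = 0 := by
  rw [mem_Nv, Set.compl_univ, Set.subset_empty_iff, supp_eq_empty]

theorem mem_Nv_iff_res {F : Sh k X} {B : Set X} {s : sec F ⊤} :
    s ∈ Nv F B ↔ ∃ V : Opens X, B ⊆ V ∧ res F (le_top : V ≤ ⊤) s = 0 :=
  ⟨fun h => ⟨zer s, fun _ hx => ⟨trivial, fun a => h a hx⟩, res_zer s⟩, fun ⟨V, h1, h2⟩ _ hx a =>
    hx.2 V le_top (h1 a) h2⟩

end P275S
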