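import Vale.Agent.P275S.KInj
import Vale.Agent.P275S.Loc

/-! The ghost lemma: endomorphisms that vanish on cohomology are nilpotent. -/

open CategoryTheory Limits CochainComplex HomologicalComplex

noncomputable section

set_option backward.isDefEq.respectTransparency false

universe v u

namespace P275S

variable {k : Type} [Field k]

section

variable {C : Type u} [Category.{v} C] [Abelian C]

theorem eq_zero_of_le_ge {T S : CochainComplex C ℤ} (ψ : T ⟶ S) (m : ℤ) [T.IsStrictlyLE m]
    [S.IsStrictlyGE m] (h : homologyMap ψ m = 0) : ψ = 0 := by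
  ext i
  rcases lt_trichotomy i m with hi | rfl | hi
  · exact (S.isZero_of_isStrictlyGE m i hi).eq_of_tgt _ _
  · have := T.isIso_iCycles i (i + 1) (by simp)
      ((T.isZero_of_isStrictlyLE i (i + 1)).eq_of_tgt _ _)
    have := S.isIso_pOpcycles (i - 1) i (by simp)
      ((S.isZero_of_isStrictlyGE i (i - 1)).eq_of_src _ _)
    rw [← cancel_epi (T.iCycles i), ← cancel_mono (S.pOpcycles i), Category.assoc,
      ← p_opcyclesMap, ← homology_π_ι_assoc, ← homologyι_naturality, h]
    simp
  · exact (T.isZero_of_isStrictlyLE m i hi).eq_of_src _ _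

theorem kerTrunc_shortExact (J : CochainComplex C ℤ) (m : ℤ) :
    (ShortComplex.mk _ _ (kernel.condition (J.πTruncGE m))).ShortExact :=
  have : Epi (J.πTruncGE m) := inferInstanceAs (Epi (HomologicalComplex.πTruncGE _ _))
  { exact := ShortComplex.exact_of_f_is_kernel _ (kernelIsKernel _) }

theorem kerTrunc_isLE (J : CochainComplex C ℤ) (m : ℤ) :
    CochainComplex.IsLE (kernel (J.πTruncGE (m + 1))) m := by
  rw [CochainComplex.isLE_iff]
  intro i hi
  have := J.quasiIsoAt_πTruncGE (m + 1) i hi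
  refine (kerTrunc_shortExact J (m + 1)).exactAt_X₁ i inferInstance fun j hj => ?_
  by_cases h : m + 1 ≤ j
  · have := J.quasiIsoAt_πTruncGE (m + 1) j h
    infer_instance
  · exact ((J.truncGE (m + 1)).isZero_of_isGE (m + 1) j (by omega)).epi _

variable [Linear k C]

/-- Degree zero endomorphisms that induce zero on cohomology. -/
def Ghost {A : KG k C} (f : End A) : Prop :=
  ∃ q : A.c ⟶ A.c, KG.hom k q = f ∧ ∀ n, homologyMap q n = 0

theorem KG.eq_zero_of_acyclic {T J : CochainComplex C ℤ} (hT : ∀ n, T.ExactAt n) (hJ : InjC J)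
    (g : (KG.of T : KG k C) ⟶ KG.of J) : g = 0 := by
  have : QuasiIso (0 : T ⟶ T) := ⟨fun n => (quasiIsoAt_iff_exactAt _ n (hT n)).2 (hT n)⟩
  exact KG.cancel_qis (0 : T ⟶ T) hJ (by rw [KG.hom_zero, zero_comp, zero_comp])

theorem ghost_aux {J : CochainComplex C ℤ} (hJ : InjC J) (a : ℤ) [J.IsGE a]
    (l : List (End (KG.of J : KG k C))) : (∀ f ∈ l, Ghost f) → ∀ m : ℤ, m = a + l.length →
      KG.hom k (kernel.ι (J.πTruncGE m)) ≫ (l.prod : End (KG.of J : KG k C)) = 0 := by
  induction l using List.reverseRecOn with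
  | nil =>
    intro _ m hm
    obtain rfl : m = a := by simpa using hm
    exact KG.eq_zero_of_acyclic ((kerTrunc_shortExact J m).acyclic_X₁ inferInstance) hJ _
  | append_singleton l f ih =>
    intro hl m hm
    obtain ⟨q, rfl, hq⟩ := hl f (by simp)
    obtain ⟨m, rfl⟩ : ∃ m', m = m' + 1 := ⟨m - 1, by omega⟩
    have := kerTrunc_isLE J m
    let T : CochainComplex C ℤ := kernel (J.πTruncGE (m + 1))
    have e : (T.ιTruncLE m ≫ kernel.ι (J.πTruncGE (m + 1)) ≫ q) ≫ J.πTruncGE m = 0 :=
      eq_zero_of_le_ge _ m (by simp [homologyMap_comp, hq])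
    refine KG.cancel_qis (T.ιTruncLE m) hJ ?_
    rw [List.prod_append, List.prod_singleton, End.mul_def, ← Category.assoc, ← Category.assoc,
      ← KG.hom_comp, ← KG.hom_comp, Category.assoc, ← kernel.lift_ι _ _ e, KG.hom_comp,
      Category.assoc, ih (fun f hf => hl f (by simp [hf])) m (by simp at hm; omega)]
    simp

/-- **Ghost lemma.** -/
theorem ghost_prod {A : KG k C} (hA : InjC A.c) (a b : ℤ) [A.c.IsGE a] [A.c.IsLE b]
    (l : List (End A)) (hl : ∀ f ∈ l, Ghost f) (h : b + 1 ≤ a + l.length) : l.prod = 0 := by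
  obtain ⟨J⟩ := A
  have e := ghost_aux hA a l hl _ rfl
  have : QuasiIso (kernel.ι (J.πTruncGE (a + l.length))) := ⟨fun i => by
    by_cases hi : i < a + l.length
    · rw [quasiIsoAt_iff_isIso_homologyMap]
      have S := kerTrunc_shortExact J (a + l.length)
      have : Mono (homologyMap (kernel.ι (J.πTruncGE (a + l.length))) i) :=
        (S.homology_exact₁ (i - 1) i (by simp)).mono_g
          (((J.truncGE (a + l.length)).isZero_of_isGE (a + l.length) (i - 1)
            (by omega)).eq_of_src _ _)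
      have : Epi (homologyMap (kernel.ι (J.πTruncGE (a + l.length))) i) :=
        (S.homology_exact₂ i).epi_f
          (((J.truncGE (a + l.length)).isZero_of_isGE _ i hi).eq_of_tgt _ _)
      exact isIso_of_mono_of_epi _
    · have := kerTrunc_isLE J (a + l.length - 1)
      rw [sub_add_cancel] at this
      exact (quasiIsoAt_iff_exactAt _ i (CochainComplex.exactAt_of_isLE _ (a + l.length - 1) i
        (by omega))).2 (J.exactAt_of_isLE b i (by omega))⟩
  exact KG.cancel_qis _ hA (e.trans comp_zero.symm)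

theorem Ghost.pow {A : KG k C} (hA : InjC A.c) (a b : ℤ) [A.c.IsGE a] [A.c.IsLE b] {f : End A}
    (hf : Ghost f) {N : ℕ} (h : b + 1 ≤ a + N) : f ^ N = 0 := by
  rw [← List.prod_replicate]
  exact ghost_prod hA a b _ (fun g hg => List.eq_of_mem_replicate hg ▸ hf) (by simpa using h)

end

variable {Y : TopCat.{0}}

theorem ghost_iff {A : KG k (Sh k Y)} {f : End A} :
    Ghost f ↔ ∃ q : A.c ⟶ A.c, KG.hom k q = f ∧ ∀ y n, ZeroAt q n y :=
  exists_congr fun q => and_congr_right fun _ => by
    simp only [homologyMap_eq_zero_iff]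
    exact forall_comm

/-- A degree zero endomorphism that is zero on the cohomology of all stalks is nilpotent. -/
theorem nil_deg0 (A : KG k (Sh k Y)) (hA : InjC A.c) (a b : ℤ) [A.c.IsGE a] [A.c.IsLE b]
    (f : End A) (q : A.c ⟶ A.c) (e : KG.hom k q = f) (h : ∀ y n, ZeroAt q n y) {N : ℕ}
    (hN : b + 1 ≤ a + N) : f ^ N = 0 :=
  Ghost.pow hA a b (ghost_iff.2 ⟨q, e, h⟩) hN

theorem isLE_c_iff (F : Cx k Y) (b : ℤ) : F.IsLE b ↔ ∀ y, ∀ n, b < n → ExAt F n y := by
  rw [CochainComplex.isLE_iff]
  simp only [exactAt_iff]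
  exact ⟨fun h y n hn => h n hn y, fun h n hn y => h y n hn⟩

theorem isGE_c_iff (F : Cx k Y) (a : ℤ) : F.IsGE a ↔ ∀ y, ∀ n, n < a → ExAt F n y := by
  rw [CochainComplex.isGE_iff]
  simp only [exactAt_iff]
  exact ⟨fun h y n hn => h n hn y, fun h n hn y => h y n hn⟩

end P275S
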