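import Vale.Agent.P275S.SoftN
import Vale.Agent.P275S.Nil
import Vale.Agent.P275RS.Res

/-! Low degrees of the cohomology ring, tautness, bounds for `Rh_* k`, Vietoris-Begle. -/

open CategoryTheory Limits TopologicalSpace Topology Set

noncomputable section

set_option backward.isDefEq.respectTransparency false

namespace P275S

open P275RS (d_eI unit_eq_gcl uK_eq_gcl pullC_eI qisAt_pullC)

variable {k : Type} [Field k] {X X' Y Z : TopCat.{0}} {n : ℤ}

theorem exists_unit_comp {a : H k X} (ha : a ∈ Hd k X n) :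
    ∃ (c : sec ((I k X).X n) ⊤) (hc : app ((I k X).d n (n + 1)) ⊤ c = 0),
      gcl c hc = unit k X ≫ a :=
  exists_gcl (KG.comp_mem_deg (zero_add n) unit_mem ha)

theorem exists_Hd (c : sec ((I k X).X n) ⊤) (hc : app ((I k X).d n (n + 1)) ⊤ c = 0) :
    ∃ a ∈ Hd k X n, unit k X ≫ a = gcl c hc :=
  KG.exists_lift (ιI k X) (injC_I k X) (gcl_mem c hc)

theorem Hd_eq_bot_iff : Hd k X n = ⊥ ↔ ∀ c : sec ((I k X).X n) ⊤,
    app ((I k X).d n (n + 1)) ⊤ c = 0 →
      ∃ b : sec ((I k X).X (n - 1)) ⊤, app ((I k X).d (n - 1) n) ⊤ b = c := by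
  rw [Submodule.eq_bot_iff]
  constructor
  · intro h c hc
    obtain ⟨a, ha, e⟩ := exists_Hd c hc
    rw [h a ha] at e
    exact (gcl_eq_zero_iff c hc (n - 1) (by simp)).1 (e.symm.trans comp_zero)
  · intro h a ha
    obtain ⟨c, hc, e⟩ := exists_unit_comp ha
    refine unit_cancel (injC_I k X) (e.symm.trans ?_)
    exact ((gcl_eq_zero_iff c hc (n - 1) (by simp)).2 (h c hc)).trans comp_zero.symm

theorem Hd_eq_bot_iff_van : Hd k X n = ⊥ ↔ Van (𝟙 (I k X)) ∅ univ n := by
  rw [Hd_eq_bot_iff]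
  constructor
  · intro h s _ hd
    obtain ⟨b, hb⟩ := h s (mem_Nv_univ.1 hd)
    exact ⟨b, by simp, mem_Nv_univ.2 (sub_eq_zero.2 hb)⟩
  · intro h c hc
    obtain ⟨b, -, hb⟩ := h c (by simp) (mem_Nv_univ.2 hc)
    exact ⟨b, sub_eq_zero.1 (mem_Nv_univ.1 hb)⟩

theorem Hd_neg (h : n < 0) : Hd k X n = ⊥ :=
  Hd_eq_bot_iff.2 fun c _ => ⟨0, by rw [map_zero, (rs_I k X).neg n h ⊤ c]⟩

theorem unit_smul_one (r : k) : unit k X ≫ (r • 1 : H k X) =
    gcl (r • eI k X) (by rw [map_smul, d_eI, smul_zero]) := by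
  rw [gcl_smul r _ d_eI, ← unit_eq_gcl]
  exact (Linear.comp_smul _ _ _ _ _ _).trans (congrArg (r • ·) (Category.comp_id _))

theorem gcl_zero_inj {c c' : sec ((I k X).X 0) ⊤} {hc : app ((I k X).d 0 (0 + 1)) ⊤ c = 0}
    {hc' : app ((I k X).d 0 (0 + 1)) ⊤ c' = 0} (h : gcl c hc = gcl c' hc') : c = c' := by
  obtain ⟨b, hb⟩ := (gcl_eq_iff c c' hc hc' (-1) (by simp)).1 h
  rw [(rs_I k X).neg (-1) (by omega) ⊤ b, map_zero] at hb
  exact sub_eq_zero.1 hb.symm

theorem smul_one_eq_zero [hX : Nonempty X] {r : k} (h : (r • 1 : H k X) = 0) : r = 0 := by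
  have e := unit_smul_one (X := X) r
  rw [h, ← zero_smul k (1 : H k X), unit_smul_one] at e
  have := gcl_zero_inj e
  rw [zero_smul] at this
  exact (rs_I k X).ne ⊤ hX.some trivial r (by rw [res_self, this])

instance [Nonempty X] : Nontrivial (H k X) :=
  ⟨1, 0, fun h => one_ne_zero (smul_one_eq_zero (k := k) (X := X) (by rw [h, smul_zero]))⟩

/-! ### Locally constant functions -/

/-- Multiplication by a locally constant function on the constant sheaf. -/
def cmul (φ : LocallyConstant X k) : cst k X ⟶ cst k X :=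
  mkHom (fun U => LinearMap.mulLeft k (φ.comap ⟨Subtype.val, continuous_subtype_val⟩ :
    LocallyConstant U k)) fun _ _ _ _ => rfl

theorem cmul_apply (φ : LocallyConstant X k) (U : Opens X) (s : LocallyConstant U k) (x : U) :
    (show LocallyConstant U k from app (cmul φ) U s) x = φ x.1 * s x := rfl

theorem cmul_add (φ ψ : LocallyConstant X k) : cmul (φ + ψ) = cmul φ + cmul ψ :=
  hom_ext fun U (s : LocallyConstant U k) =>
    LocallyConstant.ext fun x => add_mul (φ x.1) (ψ x.1) (s x)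

theorem cmul_smul (r : k) (φ : LocallyConstant X k) : cmul (r • φ) = r • cmul φ :=
  hom_ext fun U (s : LocallyConstant U k) =>
    LocallyConstant.ext fun x => mul_assoc r (φ x.1) (s x)

theorem cmul_one : cmul (1 : LocallyConstant X k) = 𝟙 _ :=
  hom_ext fun U (s : LocallyConstant U k) => LocallyConstant.ext fun x => one_mul (s x)

theorem cmul_mul (φ ψ : LocallyConstant X k) : cmul (φ * ψ) = cmul ψ ≫ cmul φ :=
  hom_ext fun U (s : LocallyConstant U k) =>
    LocallyConstant.ext fun x => mul_assoc (φ x.1) (ψ x.1) (s x)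

/-- Multiplication by a locally constant function on the constant sheaf in degree zero. -/
def cmulC (φ : LocallyConstant X k) : cstAt k X 0 ⟶ cstAt k X 0 :=
  (CochainComplex.singleFunctor (Sh k X) 0).map (cmul φ)

/-- Multiplication by a locally constant function in the graded homotopy category. -/
def lcK : LocallyConstant X k →ₐ[k] End (kk k X) :=
  AlgHom.ofLinearMap
    { toFun := fun φ => KG.hom k (cmulC φ)
      map_add' := fun φ ψ => by
        rw [cmulC, cmul_add, Functor.map_add]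
        exact KG.hom_add k _ _
      map_smul' := fun r φ => by
        rw [cmulC, cmul_smul, Functor.map_smul]
        exact KG.hom_smul k _ _ }
    (show KG.hom k (cmulC 1) = 𝟙 _ by
      rw [cmulC, cmul_one, CategoryTheory.Functor.map_id]
      rfl)
    fun φ ψ => show KG.hom k (cmulC (φ * ψ)) = KG.hom k (cmulC ψ) ≫ KG.hom k (cmulC φ) by
      rw [cmulC, cmul_mul, Functor.map_comp]
      exact KG.hom_comp k _ _

theorem lcK_mem (φ : LocallyConstant X k) : lcK φ ∈ KG.deg k (kk k X) (kk k X) 0 :=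
  KG.hom_mem_deg _

/-- The linear equivalence `a ↦ unit ≫ a`. -/
def unitE (k : Type) [Field k] (X : TopCat.{0}) : H k X ≃ₗ[k] (kk k X ⟶ IK k X) :=
  LinearEquiv.ofBijective (Linear.leftComp k _ (unit k X)) (unit_bijective (injC_I k X))

/-- The class of degree zero of a locally constant function. -/
def lc : LocallyConstant X k →ₐ[k] H k X :=
  AlgHom.ofLinearMap ((unitE k X).symm.toLinearMap ∘ₗ Linear.rightComp k _ (unit k X) ∘ₗ
      (lcK (k := k) (X := X)).toLinearMap)
    ((unitE k X).symm_apply_eq.2 (by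
      change lcK 1 ≫ unit k X = unit k X ≫ 𝟙 _
      rw [map_one, Category.comp_id]
      exact Category.id_comp _))
    fun φ ψ => (unitE k X).symm_apply_eq.2 (by
      have key : ∀ φ : LocallyConstant X k,
          unit k X ≫ (unitE k X).symm (lcK φ ≫ unit k X) = lcK φ ≫ unit k X := fun φ =>
        (unitE k X).apply_symm_apply _
      change lcK (φ * ψ) ≫ unit k X = unit k X ≫ (unitE k X).symm (lcK ψ ≫ unit k X) ≫
        (unitE k X).symm (lcK φ ≫ unit k X)
      rw [← Category.assoc, key, Category.assoc, key, map_mul, End.mul_def, Category.assoc])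

theorem unit_lc (φ : LocallyConstant X k) : unit k X ≫ lc φ = lcK φ ≫ unit k X :=
  (unitE k X).apply_symm_apply _

theorem lc_mem (φ : LocallyConstant X k) : lc φ ∈ Hd k X 0 := by
  obtain ⟨g, hg, e⟩ := KG.exists_lift (ιI k X) (injC_I k X)
    (KG.comp_mem_deg (add_zero 0) (lcK_mem φ) unit_mem)
  rwa [unit_cancel (injC_I k X) ((unit_lc φ).trans e.symm)]

theorem hom_eq_gcl {F : Cx k X} (ι : cstAt k X 0 ⟶ F) :
    (KG.hom k ι : kk k X ⟶ KG.of F) = gcl (unitOf ι) (d_unitOf ι _ (by omega)) :=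
  (Category.id_comp _).symm.trans ((congrArg (· ≫ KG.hom k ι) gcl_one0.symm).trans
    (gcl_comp_hom _ _ ι))

theorem gcl_eq_hom {F : Cx k X} (c : sec (F.X 0) ⊤) (hc : app (F.d 0 (0 + 1)) ⊤ c = 0) :
    gcl c hc = KG.hom k (clsC c hc) :=
  ((hom_eq_gcl _).trans (gcl_congr (unitOf_clsC c hc) _)).symm

/-- Multiplication of a global cocycle of degree zero with a locally constant function. -/
theorem lcK_gcl {F : Cx k X} (φ : LocallyConstant X k) (c : sec (F.X 0) ⊤)
    (hc : app (F.d 0 (0 + 1)) ⊤ c = 0) : ∃ (c' : sec (F.X 0) ⊤)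
      (hc' : app (F.d 0 (0 + 1)) ⊤ c' = 0), lcK φ ≫ gcl c hc = gcl c' hc' ∧
      ∀ (V : Opens X) (a : k), (∀ x ∈ V, φ x = a) →
        res _ (le_top : V ≤ ⊤) c' = a • res _ le_top c := by
  refine ⟨_, _, ((congrArg (lcK φ ≫ ·) (gcl_eq_hom c hc)).trans
    (KG.hom_comp k _ _).symm).trans (hom_eq_gcl _), fun V a ha => ?_⟩
  have he : (clsC c hc).f 0 = (cE k X).hom ≫ secHom c := HomologicalComplex.mkHomFromSingle_f _ _
  have h2 : (cmulC φ).f 0 = (cE k X).hom ≫ cmul φ ≫ (cE k X).inv :=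
    HomologicalComplex.single_map_f_self (ComplexShape.up ℤ) 0 (cmul φ)
  have e1 : res _ (le_top : V ≤ ⊤) (app (cmul φ) ⊤ (cstOne k ⊤)) = a • cstOne k V :=
    LocallyConstant.ext fun x => congrArg (· * (1 : k)) (ha x.1 x.2)
  rw [unitOf, HomologicalComplex.comp_f, he, h2]
  simp only [Category.assoc, Iso.inv_hom_id_assoc]
  rw [app_comp, ← app_res, e1, map_smul, ← res_cstOne (le_top : V ≤ ⊤), app_res, secHom_one]

theorem eq_of_loc_const {E : Sh k X} (φ : LocallyConstant X k) {c c' c'' : sec E ⊤}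
    (h' : ∀ (V : Opens X) (a : k), (∀ x ∈ V, φ x = a) →
      res _ (le_top : V ≤ ⊤) c' = a • res _ le_top c)
    (h'' : ∀ x, ∃ V : Opens X, x ∈ V ∧ res _ (le_top : V ≤ ⊤) c'' = φ x • res _ le_top c) :
    c' = c'' := by
  refine loc_ext _ _ _ fun x _ => ?_
  obtain ⟨V, xV, e⟩ := h'' x
  let W : Opens X := ⟨φ ⁻¹' {φ x}, φ.isLocallyConstant _⟩
  refine ⟨V ⊓ W, le_top, ⟨xV, rfl⟩, ?_⟩
  rw [h' (V ⊓ W) (φ x) fun y hy => hy.2, ← res_res _ le_top (inf_le_left : V ⊓ W ≤ V) c'', e,
    map_smul, res_res]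

theorem lc_injective : Function.Injective (lc (k := k) (X := X)) := by
  refine (injective_iff_map_eq_zero _).2 fun φ h => LocallyConstant.ext fun x => ?_
  obtain ⟨c, hc, e, h'⟩ := lcK_gcl φ (eI k X) d_eI
  rw [← unit_eq_gcl, ← unit_lc, h, ← zero_smul k (1 : H k X), unit_smul_one] at e
  let W : Opens X := ⟨φ ⁻¹' {φ x}, φ.isLocallyConstant _⟩
  refine (rs_I k X).ne W x rfl _ ?_
  rw [← h' W (φ x) fun y hy => hy, ← gcl_zero_inj e, zero_smul, map_zero]

/-- Classes of degree zero are locally constant functions. -/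
theorem exists_lc {a : H k X} (ha : a ∈ Hd k X 0) : ∃ φ, lc φ = a := by
  obtain ⟨c, hc, e⟩ := exists_unit_comp ha
  choose V hV xV r hr using fun x => (rs_I k X).loc0 ⊤ c hc x trivial
  let φ : LocallyConstant X k := ⟨r, (IsLocallyConstant.iff_eventually_eq _).2 fun x => by
    filter_upwards [(V x).2.mem_nhds (xV x)] with y hy
    refine sub_eq_zero.1 ((rs_I k X).ne (V x ⊓ V y) y ⟨hy, xV y⟩ _ ?_)
    have e1 := congrArg (res _ (inf_le_left : V x ⊓ V y ≤ V x)) (hr x)
    have e2 := congrArg (res _ (inf_le_right : V x ⊓ V y ≤ V y)) (hr y)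
    rw [map_smul, res_res, res_res] at e1 e2
    rw [sub_smul, ← e1, ← e2, sub_self]⟩
  obtain ⟨c', hc', e', h'⟩ := lcK_gcl φ (eI k X) d_eI
  refine ⟨φ, unit_cancel (injC_I k X) ?_⟩
  rw [unit_lc, ← e, unit_eq_gcl, e']
  exact gcl_congr (eq_of_loc_const φ h' fun x => ⟨V x, xV x, hr x⟩) _

theorem lc_const (r : k) : lc (LocallyConstant.const X r) = r • (1 : H k X) := by
  rw [← Algebra.algebraMap_eq_smul_one]
  exact lc.commutes r

theorem Hd_zero_conn [PreconnectedSpace X] {a : H k X} (ha : a ∈ Hd k X 0) :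
    ∃ r : k, a = r • 1 := by
  obtain ⟨φ, rfl⟩ := exists_lc ha
  obtain ⟨r, rfl⟩ := LocallyConstant.exists_eq_const φ
  exact ⟨r, lc_const r⟩

theorem pb_lc (f : X' ⟶ X) (φ : LocallyConstant X k) : pb f (lc φ) = lc (φ.comap f.hom) := by
  refine (evK f).injective ?_
  obtain ⟨c, hc, e, h⟩ := lcK_gcl (F := (pushC k f).obj (I k X')) φ (eI k X') (d_eI (X := X'))
  obtain ⟨c', hc', e', h'⟩ := lcK_gcl (φ.comap f.hom) (eI k X') d_eI
  rw [evK_pb, ← Category.assoc, unit_lc, Category.assoc, unit_pullI, uK_eq_gcl, e, evK_apply, uK,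
    Category.assoc, mul_def, ← Functor.map_comp, unit_lc, unit_eq_gcl, e', cU_gcl]
  refine gcl_congr (F := (pushC k f).obj (I k X'))
    (eq_of_loc_const (E := (I k X').X 0) (φ.comap f.hom) h' fun x => ?_).symm _
  let W : Opens X := ⟨φ ⁻¹' {φ (f x)}, φ.isLocallyConstant _⟩
  exact ⟨(Opens.map f).obj W, rfl, h W (φ (f x)) fun y hy => hy⟩

theorem isUnit_lc {φ : LocallyConstant X k} (h : ∀ x, φ x ≠ 0) : IsUnit (lc φ) :=
  (IsUnit.of_mul_eq_one (φ.map fun r => r⁻¹)
    (LocallyConstant.ext fun x => mul_inv_cancel₀ (h x))).map lc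

/-! ### Tautness -/

theorem isClosedMap_of_range {i : X' ⟶ X} (hi : IsInducing i) (hc : IsClosed (range i)) :
    IsClosedMap i := hi.isClosedMap hc

theorem qis_tab_pullC [Nice X] {i : X' ⟶ X} (hi : IsInducing i) {A B : Set X} (hA : IsClosed A)
    (hB : IsCompact B) (h : B ⊆ A ∪ range i) : QuasiIso ((mapC (TAB k A B)).map (pullC k i)) :=
  qis_tab (softC_I k X) (injC_K i).softC _ hA hB fun x hx hx' => by
    obtain ⟨y, rfl⟩ := (h hx).resolve_left hx'
    exact qisAt_pullC hi y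

/-- The cohomology near a compact subspace is the cohomology of the subspace. -/
theorem van_range_iff [Nice X] {i : X' ⟶ X} (hi : IsInducing i) (hc : IsCompact (range i)) :
    Van (𝟙 (I k X)) ∅ (range i) n ↔ Hd k X' n = ⊥ := by
  have := qis_tab_pullC (k := k) hi isClosed_empty hc subset_union_right
  rw [van_id_iff, exactAt_iff_of_quasiIsoAt ((mapC (TAB k ∅ (range i))).map (pullC k i)),
    ← van_id_iff, ← CategoryTheory.Functor.map_id, van_push (hi.isClosedMap hc.isClosed),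
    preimage_empty, preimage_range, Hd_eq_bot_iff_van]

theorem exAt_K_iff [Nice X] {h : X ⟶ Y} (hh : IsProperMap h) {a : Y} {i : X' ⟶ X}
    (hi : IsInducing i) (hr : range i = h ⁻¹' {a}) : ExAt (K k h).c n a ↔ Hd k X' n = ⊥ := by
  rw [← van_range_iff hi (hr ▸ hh.isCompact_preimage isCompact_singleton), hr]
  exact exAt_push_iff hh (softC_I k X) a

instance isStrictlyGE_K (h : X ⟶ Y) : (K k h).c.IsStrictlyGE 0 :=
  inferInstanceAs (CochainComplex.IsStrictlyGE ((pushC k h).obj (I k X)) 0)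

instance isGE_K (h : X ⟶ Y) : (K k h).c.IsGE 0 := inferInstance

/-- The inclusion of a subspace. -/
abbrev sub (S : Set X) : TopCat.of S ⟶ X := TopCat.ofHom ⟨Subtype.val, continuous_subtype_val⟩

theorem sub_inducing (S : Set X) : IsInducing (sub S) := IsInducing.subtypeVal

theorem range_sub (S : Set X) : range (sub S) = S := Subtype.range_val

/-- A bound for the cohomology of the fibres bounds the direct image. -/
theorem isLE_K [Nice X] {h : X ⟶ Y} (hh : IsProperMap h) {b : ℤ}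
    (H : ∀ a, ∃ (F : TopCat.{0}) (i : F ⟶ X), IsInducing i ∧ range i = h ⁻¹' {a} ∧
      ∀ m, b < m → Hd k F m = ⊥) : (K k h).c.IsLE b :=
  (isLE_c_iff _ b).2 fun a m hm => by
    obtain ⟨F, i, hi, hr, e⟩ := H a
    exact (exAt_K_iff hh hi hr).2 (e m hm)

theorem isLE_K' [Nice X] {h : X ⟶ Y} (hh : IsProperMap h) {b : ℤ}
    (H : ∀ a m, b < m → Hd k (TopCat.of (h ⁻¹' {a})) m = ⊥) : (K k h).c.IsLE b :=
  isLE_K hh fun a => ⟨_, sub _, sub_inducing _, range_sub _, H a⟩

/-- Nilpotence of operators that vanish on the cohomology of all stalks. -/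
theorem nil_K {h : X ⟶ Y} {b : ℤ} [(K k h).c.IsLE b] {f : End (K k h)} (hf : Ghost f) {N : ℕ}
    (hN : b + 1 ≤ N) : f ^ N = 0 := hf.pow (injC_K h) 0 b (by omega)

/-! ### Vietoris-Begle -/

theorem qisAt_pullC_fib [Nice Z] {p : Z ⟶ X} (hp : IsProperMap p) {x : X}
    (h₀ : (p ⁻¹' {x}).Nonempty) (h₁ : IsPreconnected (p ⁻¹' {x}))
    (h₂ : ∀ n, 0 < n → Van (𝟙 (I k Z)) ∅ (p ⁻¹' {x}) n) : QisAt (pullC k p) x := by
  have R := rs_I k X
  have R' := rs_I k Z
  have he : ∀ V : Opens X, app ((pullC k p).f 0) V (res _ le_top (eI k X)) =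
      res ((I k Z).X 0) (le_top : (Opens.map p).obj V ≤ ⊤) (eI k Z) := fun V => by
    rw [app_res, pullC_eI]
    rfl
  intro n
  rcases lt_trichotomy n 0 with hn | rfl | hn
  · refine ⟨fun U hx s _ => ⟨U, le_rfl, hx, 0, map_zero _, 0, ?_⟩,
      fun U hx s _ _ _ => ⟨U, le_rfl, hx, 0, ?_⟩⟩
    · exact (R'.neg n hn _ _).trans (R'.neg n hn _ _).symm
    · exact (R.neg n hn _ _).trans (R.neg n hn _ _).symm
  · constructor
    · intro U hx s hs
      obtain ⟨t, W, hW, xW, e⟩ := (((softC_I k Z).2 0).push p hp) {x} isCompact_singleton U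
        (singleton_subset_iff.2 hx) s
      obtain ⟨a, ha⟩ := (res_I k Z).zero_conn h₁ (s := t) (mem_Nv_iff.1
        ((mem_Nv_push hp.isClosedMap (E := (I k Z).X 1) _).1 (mem_Nv_of_res xW (by
          have := app_res (((pushC k p).obj (I k Z)).d 0 1) (le_top : W ≤ ⊤) t
          erw [← this, e, app_res, hs]
          exact map_zero _))))
      obtain ⟨V, xV, e'⟩ := mem_Nv_iff_res.1
        ((mem_Nv_push hp.isClosedMap (E := (I k Z).X 0) _).2 (mem_Nv_iff.2 ha))
      refine ⟨V ⊓ W, inf_le_right.trans hW, ⟨xV rfl, xW rfl⟩, a • res _ le_top (eI k X), ?_, 0, ?_⟩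
      · rw [map_smul, app_res]
        exact (congrArg (fun t => a • res _ le_top t) R.de).trans (by simp)
      · rw [map_zero, add_zero, map_smul, he]
        have e1 := congrArg (res _ (inf_le_left : V ⊓ W ≤ V)) e'
        have e2 := congrArg (res _ (inf_le_right : V ⊓ W ≤ W)) e
        rw [res_res, map_zero, map_sub, sub_eq_zero, map_smul] at e1
        rw [res_res, res_res] at e2
        exact e1.symm.trans e2
    · intro U hx s hs t ht
      obtain ⟨V, hV, hyV, a, ha⟩ := R.loc0 U s hs x hx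
      obtain ⟨y, hy⟩ := h₀
      have h1 := congrArg (res _ hV) ht
      rw [R'.neg (0 - 1) (by omega) _ t, map_zero, map_zero, ← app_res, ha, map_smul, he] at h1
      refine ⟨V, hV, hyV, 0, ?_⟩
      rw [map_zero, ha, R'.ne ((Opens.map p).obj V) y (show p y ∈ V from hy ▸ hyV) a h1.symm,
        zero_smul]
  · constructor
    · intro U hx s hs
      obtain ⟨V, hV, hyV, t, ht⟩ := (exAt_push_iff hp (softC_I k Z) x).2 (h₂ n hn) U hx s hs
      exact ⟨V, hV, hyV, 0, map_zero _, t, by rw [map_zero, zero_add, ht]⟩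
    · intro U hx s hs _ _
      exact R.ex n hn x U hx s hs

theorem isIso_pullI {p : Z ⟶ X} (h : ∀ x, QisAt (pullC k p) x) : IsIso (pullI k p) :=
  have := (quasiIso_iff _).2 h
  KG.isIso_hom _ (injC_I k X) (injC_K p)

instance isIso_pull (p : Z ⟶ X) [IsIso (pullI k p)] (h : X ⟶ Y) : IsIso (pull k p h) :=
  inferInstanceAs (IsIso ((pushK k h).map (pullI k p)))

theorem act_bijective {h : X ⟶ Y} {h' : X' ⟶ Y} (φ : K k h ⟶ K k h') [IsIso φ] :
    Function.Bijective (act φ) :=
  Function.bijective_iff_has_inverse.2 ⟨act (inv φ),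
    fun a => by rw [← act_comp, IsIso.hom_inv_id, act_id],
    fun a => by rw [← act_comp, IsIso.inv_hom_id, act_id]⟩

theorem pb_bijective (p : Z ⟶ X) [IsIso (pullI k p)] :
    Function.Bijective (pb (k := k) p) := by
  have := act_bijective (pull k p (𝟙 X))
  rwa [show ⇑(act (pull k p (𝟙 X))) = ⇑(pb (k := k) p) from funext (act_pull p _)] at this

/-- **Vietoris-Begle** for proper maps whose fibres are homeomorphic to convex sets. -/
theorem isIso_pullI_convex [Nice Z] {p : Z ⟶ X} (hp : IsProperMap p)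
    (h : ∀ x, (p ⁻¹' {x}).Nonempty ∧ ∃ (N : ℕ) (g : Z → Fin N → ℝ), ContinuousOn g (p ⁻¹' {x}) ∧
      InjOn g (p ⁻¹' {x}) ∧ Convex ℝ (g '' (p ⁻¹' {x}))) : IsIso (pullI k p) :=
  isIso_pullI fun x => by
    obtain ⟨h₀, N, g, a, b, c⟩ := h x
    have := (res_I k Z).acy_convex N (hp.isCompact_preimage isCompact_singleton) g a b c
    exact qisAt_pullC_fib hp h₀ this.1 fun n hn => vn_iff_van.1 (this.2 n hn)

end P275S
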