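import Vale.Agent.P275S.Taut

/-! Pull-backs over a base and homotopy invariance. -/

open CategoryTheory Limits TopologicalSpace Topology Set

noncomputable section

set_option backward.isDefEq.respectTransparency false

namespace P275S

variable {k : Type} [Field k] {X X' X'' Y Z : TopCat.{0}}

/-- The pull-back along a map `f` of spaces over `Y`. -/
def pullE (k : Type) [Field k] (f : X' ⟶ X) (h : X ⟶ Y) (h' : X' ⟶ Y) (e : f ≫ h = h') :
    K k h ⟶ K k h' := pull k f h ≫ eqToHom (congrArg (K k) e)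

theorem pullE_rfl (f : X' ⟶ X) (h : X ⟶ Y) : pullE k f h _ rfl = pull k f h := Category.comp_id _

theorem pullE_mem (f : X' ⟶ X) (h : X ⟶ Y) (h' : X' ⟶ Y) (e : f ≫ h = h') :
    pullE k f h h' e ∈ KG.deg k _ _ 0 := by
  subst e
  rw [pullE_rfl]
  exact pull_mem f h

theorem pullE_congr {f g : X' ⟶ X} (c : f = g) (h : X ⟶ Y) (h' : X' ⟶ Y) (e : f ≫ h = h') :
    pullE k f h h' e = pullE k g h h' (c ▸ e) := by
  subst c
  rfl

theorem pullE_id (h : X ⟶ Y) (e : 𝟙 X ≫ h = h) : pullE k (𝟙 X) h h e = 𝟙 _ :=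
  (pullE_rfl _ _).trans (pull_id h)

theorem pullE_eq_id {f : X ⟶ X} (c : f = 𝟙 X) (h : X ⟶ Y) (e : f ≫ h = h) :
    pullE k f h h e = 𝟙 _ := (pullE_congr c h h e).trans (pullE_id h _)

theorem pullE_comp (f' : X'' ⟶ X') (f : X' ⟶ X) (h : X ⟶ Y) (h' : X' ⟶ Y) (h'' : X'' ⟶ Y)
    (e : f ≫ h = h') (e' : f' ≫ h' = h'') :
    pullE k f h h' e ≫ pullE k f' h' h'' e' =
      pullE k (f' ≫ f) h h'' (by rw [Category.assoc, e, e']) := by
  subst e e'
  rw [pullE_rfl, pullE_rfl, pull_comp]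
  exact (pullE_rfl _ _).symm

theorem pullE_mul (f : X' ⟶ X) (h : X ⟶ Y) (h' : X' ⟶ Y) (e : f ≫ h = h') (a : H k X) :
    pullE k f h h' e ≫ mul h' (pb f a) = mul h a ≫ pullE k f h h' e := by
  subst e
  rw [pullE_rfl]
  exact pull_mul f h a

theorem uK_pullE (f : X' ⟶ X) (h : X ⟶ Y) (h' : X' ⟶ Y) (e : f ≫ h = h') :
    uK k h ≫ pullE k f h h' e = uK k h' := by
  subst e
  rw [pullE_rfl]
  exact uK_pull f h

theorem evK_pullE (f : X' ⟶ X) (h : X ⟶ Y) (h' : X' ⟶ Y) (e : f ≫ h = h') (a : H k X) :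
    evK h a ≫ pullE k f h h' e = evK h' (pb f a) := by
  subst e
  rw [pullE_rfl]
  exact evK_pull f h a

theorem act_pullE (f : X' ⟶ X) (h : X ⟶ Y) (h' : X' ⟶ Y) (e : f ≫ h = h') (a : H k X) :
    act (pullE k f h h' e) a = pb f a := by
  subst e
  rw [pullE_rfl]
  exact act_pull f h a

theorem push_pullE (f : X' ⟶ X) (h : X ⟶ Y) (h' : X' ⟶ Y) (e : f ≫ h = h') (g : Y ⟶ Z) :
    (pushK k g).map (pullE k f h h' e) =
      pullE k f (h ≫ g) (h' ≫ g) (by rw [← Category.assoc, e]) := by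
  subst e
  rw [pullE_rfl, push_pull]
  exact (pullE_rfl _ _).symm

theorem pullE_base (f : X' ⟶ X) : pullE k f (𝟙 X) f (Category.comp_id f) = pullI k f :=
  (pullE_rfl _ _).trans (pull_base_id f)

theorem pullE_eq_push (f : X' ⟶ X) (h : X ⟶ Y) :
    pullE k f h (f ≫ h) rfl = (pushK k h).map (pullI k f) := pullE_rfl f h

instance isIso_pullE (f : X' ⟶ X) [IsIso (pullI k f)] (h : X ⟶ Y) (h' : X' ⟶ Y)
    (e : f ≫ h = h') : IsIso (pullE k f h h' e) := by
  unfold pullE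
  infer_instance

/-- A map over `Y` with an inverse over `Y` induces an isomorphism. -/
theorem isIso_pullE_of_inv (f : X' ⟶ X) (g : X ⟶ X') (h₁ : f ≫ g = 𝟙 _) (h₂ : g ≫ f = 𝟙 _)
    (h : X ⟶ Y) (h' : X' ⟶ Y) (e : f ≫ h = h') : IsIso (pullE k f h h' e) :=
  have e' : g ≫ h' = h := by rw [← e, ← Category.assoc, h₂, Category.id_comp]
  ⟨pullE k g h' h e', by rw [pullE_comp, pullE_eq_id h₂], by rw [pullE_comp, pullE_eq_id h₁]⟩

instance isIso_pullI_of_isIso (f : X' ⟶ X) [IsIso f] : IsIso (pullI k f) := by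
  rw [← pullE_base]
  exact isIso_pullE_of_inv f (inv f) (IsIso.hom_inv_id f) (IsIso.inv_hom_id f) _ _ _

theorem isIso_pullI_homeo {f : X' ⟶ X} (hf : IsHomeomorph f) : IsIso (pullI k f) :=
  have : IsIso f := TopCat.isIso_of_bijective_of_isOpenMap f hf.bijective hf.isOpenMap
  inferInstance

/-- Two sections of a map `p` with `k ≅ Rp_* k` induce the same pull-back. -/
theorem pullE_eq_of_sec {p : Z ⟶ X'} [IsIso (pullI k p)] {i₀ i₁ : X' ⟶ Z} (h₀ : i₀ ≫ p = 𝟙 _)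
    (h₁ : i₁ ≫ p = 𝟙 _) (g : Z ⟶ Y) (h' : X' ⟶ Y) (e : p ≫ h' = g) (e₀ : i₀ ≫ g = h')
    (e₁ : i₁ ≫ g = h') : pullE k i₀ g h' e₀ = pullE k i₁ g h' e₁ := by
  have := isIso_pullE (k := k) p h' g e
  refine (IsIso.eq_inv_of_hom_inv_id (f := pullE k p h' g e) ?_).trans
    (IsIso.eq_inv_of_hom_inv_id ?_).symm
  · rw [pullE_comp, pullE_eq_id h₀]
  · rw [pullE_comp, pullE_eq_id h₁]

theorem nice_prd (X Y : TopCat.{0}) [Nice X] [Nice Y] : Nice (TopCat.of (X × Y)) :=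
  ⟨inferInstanceAs (LocallyCompactSpace (X × Y)), inferInstanceAs (T2Space (X × Y)),
    inferInstanceAs (SecondCountableTopology (X × Y))⟩

theorem nice_itv : Nice (TopCat.of unitInterval) := ⟨inferInstance, inferInstance, inferInstance⟩

theorem isIso_pullI_cyl (X : TopCat.{0}) [Nice X] : IsIso (pullI k
    (TopCat.ofHom ContinuousMap.snd : TopCat.of (unitInterval × X) ⟶ X)) := by
  have := nice_itv
  have := nice_prd (TopCat.of unitInterval) X
  refine isIso_pullI_convex (Z := TopCat.of (unitInterval × X)) isProperMap_snd_of_compactSpace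
    fun x => ⟨⟨(0, x), rfl⟩, 1, fun z _ => z.1.1, by fun_prop, ?_, ?_⟩
  · intro z hz z' hz' e
    exact Prod.ext (Subtype.ext (congrFun e 0)) (hz.trans hz'.symm)
  · rintro _ ⟨z, hz, rfl⟩ _ ⟨z', hz', rfl⟩ a b ha hb hab
    exact ⟨(⟨a * z.1.1 + b * z'.1.1, convex_Icc 0 1 z.1.2 z'.1.2 ha hb hab⟩, x), rfl, rfl⟩

/-- **Homotopy invariance over a base.** -/
theorem pullE_homotopy [Nice X'] {f₀ f₁ : X' ⟶ X} (G : f₀.hom.Homotopy f₁.hom) (h : X ⟶ Y)
    (h' : X' ⟶ Y) (e : ∀ t x, h (G (t, x)) = h' x) (e₀ : f₀ ≫ h = h') (e₁ : f₁ ≫ h = h') :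
    pullE k f₀ h h' e₀ = pullE k f₁ h h' e₁ := by
  have := isIso_pullI_cyl (k := k) X'
  let i : unitInterval → (X' ⟶ TopCat.of (unitInterval × X')) := fun t =>
    TopCat.ofHom ⟨fun x => (t, x), by fun_prop⟩
  let g : TopCat.of (unitInterval × X') ⟶ X := TopCat.ofHom G.toContinuousMap
  have a₀ : f₀ = i 0 ≫ g := by
    ext x
    exact (G.apply_zero x).symm
  have a₁ : f₁ = i 1 ≫ g := by
    ext x
    exact (G.apply_one x).symm
  have b : TopCat.ofHom ContinuousMap.snd ≫ h' = g ≫ h := by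
    ext z
    exact (e z.1 z.2).symm
  have c₀ : i 0 ≫ g ≫ h = h' := by rw [← Category.assoc, ← a₀, e₀]
  have c₁ : i 1 ≫ g ≫ h = h' := by rw [← Category.assoc, ← a₁, e₁]
  rw [pullE_congr a₀, pullE_congr a₁, ← pullE_comp (i 0) g h (g ≫ h) h' rfl c₀,
    ← pullE_comp (i 1) g h (g ≫ h) h' rfl c₁,
    pullE_eq_of_sec (i₀ := i 0) (i₁ := i 1) rfl rfl (g ≫ h) h' b c₀ c₁]

/-- The point. -/
abbrev ptT : TopCat.{0} := TopCat.of Unit

/-- The map to the point. -/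
def toPt (X : TopCat.{0}) : X ⟶ ptT := TopCat.ofHom (ContinuousMap.const X ())

theorem toPt_eq (f : X ⟶ ptT) : f = toPt X := by
  ext x

/-- Homotopic maps induce the same map on cohomology. -/
theorem pb_homotopic [Nice X'] {f₀ f₁ : X' ⟶ X} (G : f₀.hom.Homotopic f₁.hom) :
    pb (k := k) f₀ = pb f₁ := by
  obtain ⟨G⟩ := G
  refine AlgHom.ext fun a => ?_
  rw [← act_pullE f₀ (toPt X) (toPt X') (toPt_eq _), ← act_pullE f₁ (toPt X) (toPt X') (toPt_eq _),
    pullE_homotopy G (toPt X) (toPt X') fun _ _ => rfl]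

theorem pb_bijective_of_homotopy [Nice X] [Nice X'] (f : X' ⟶ X) (g : X ⟶ X')
    (h₁ : (f ≫ g).hom.Homotopic (𝟙 X' : X' ⟶ X').hom)
    (h₂ : (g ≫ f).hom.Homotopic (𝟙 X : X ⟶ X).hom) : Function.Bijective (pb (k := k) f) :=
  Function.bijective_iff_has_inverse.2 ⟨pb g,
    fun a => by rw [pb_comp, pb_homotopic h₂, pb_id],
    fun a => by rw [pb_comp, pb_homotopic h₁, pb_id]⟩

/-- A homotopy equivalence over `Y` induces an isomorphism. -/
theorem isIso_pullE_of_homotopy [Nice X] [Nice X'] (f : X' ⟶ X) (g : X ⟶ X') (h : X ⟶ Y)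
    (h' : X' ⟶ Y) (e : f ≫ h = h') (e' : g ≫ h' = h)
    (G₁ : (f ≫ g).hom.Homotopy (𝟙 X' : X' ⟶ X').hom) (c₁ : ∀ t x, h' (G₁ (t, x)) = h' x)
    (G₂ : (g ≫ f).hom.Homotopy (𝟙 X : X ⟶ X).hom) (c₂ : ∀ t x, h (G₂ (t, x)) = h x) :
    IsIso (pullE k f h h' e) :=
  ⟨pullE k g h' h e', by
    rw [pullE_comp, pullE_homotopy G₂ h h c₂ _ (Category.id_comp h), pullE_id], by
    rw [pullE_comp, pullE_homotopy G₁ h' h' c₁ _ (Category.id_comp h'), pullE_id]⟩

/-- The pull-back along the constant map with value `x` does not depend on `x` in a path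
component. -/
theorem pb_const_eq [Nice X'] {x y : X} (h : Joined x y) :
    pb (k := k) (TopCat.ofHom (ContinuousMap.const X' x) : X' ⟶ X) =
      pb (TopCat.ofHom (ContinuousMap.const X' y) : X' ⟶ X) :=
  pb_homotopic ⟨⟨h.somePath.toContinuousMap.comp ContinuousMap.fst,
    fun _ => h.somePath.source, fun _ => h.somePath.target⟩⟩

end P275S
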