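import Vale.Agent.P275S.Basic

/-! Definitions of the sheaf toolkit: local exactness, soft and flabby sheaves, classes of
global cocycles in the derived category, the functors of sections. -/

open CategoryTheory TopologicalSpace Opposite Limits

noncomputable section

namespace P275S

variable {k : Type} [Field k] {X Y : TopCat.{0}}

instance hasDer : HasDerivedCategory (Sh k X) := HasDerivedCategory.standard _

/-- The derived category of sheaves of `k`-vector spaces on `X`. -/
abbrev Der (k : Type) [Field k] (X : TopCat.{0}) := DerivedCategory (Sh k X)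

/-- The locally constant function `1`. -/
def cstOne (k : Type) [Field k] (U : Opens X) : sec (cst k X) U :=
  (LocallyConstant.const U (1 : k) : LocallyConstant U k)

theorem res_cstOne {U V : Opens X} (h : V ≤ U) : res (cst k X) h (cstOne k U) = cstOne k V := rfl

theorem exists_cst_eq {U : Opens X} (f : sec (cst k X) U) {x : X} (hx : x ∈ U) :
    ∃ V, ∃ hV : V ≤ U, x ∈ V ∧ ∃ a : k, res (cst k X) hV f = a • cstOne k V := by
  let g : LocallyConstant U k := f
  refine ⟨⟨Subtype.val '' (g ⁻¹' {g ⟨x, hx⟩}),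
    U.2.isOpenMap_subtype_val _ (g.isLocallyConstant _)⟩, ?_, ⟨⟨x, hx⟩, rfl, rfl⟩,
    g ⟨x, hx⟩, ?_⟩
  · rintro _ ⟨y, -, rfl⟩
    exact y.2
  · refine LocallyConstant.ext fun y => ?_
    obtain ⟨y, z, hz, rfl⟩ := y
    change g z = g ⟨x, hx⟩ * 1
    rw [mul_one]
    exact hz

theorem cst_hom_ext {F : Sh k X} {φ ψ : cst k X ⟶ F}
    (h : app φ ⊤ (cstOne k ⊤) = app ψ ⊤ (cstOne k ⊤)) : φ = ψ := by
  refine hom_ext fun U f => loc_ext F _ _ fun x hx => ?_
  obtain ⟨V, hV, hxV, a, ha⟩ := exists_cst_eq f hx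
  refine ⟨V, hV, hxV, ?_⟩
  rw [← app_res, ← app_res, ha, map_smul, map_smul, ← res_cstOne (le_top : V ≤ ⊤), app_res,
    app_res, h]

theorem exists_secHom_aux {F : Sh k X} (s : sec F ⊤) (U : Opens X) (f : sec (cst k X) U) :
    ∃ t : sec F U, ∀ V (hV : V ≤ U) (a : k), res (cst k X) hV f = a • cstOne k V →
      res F hV t = a • res F le_top s := by
  let g : LocallyConstant U k := f
  let O : k → Opens X := fun a => ⟨Subtype.val '' (g ⁻¹' {a}),
    U.2.isOpenMap_subtype_val _ (g.isLocallyConstant _)⟩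
  have hO : ∀ a, O a ≤ U := fun a => by
    rintro _ ⟨y, -, rfl⟩
    exact y.2
  obtain ⟨t, ht⟩ := glue F O U hO (fun x hx => Opens.mem_iSup.2 ⟨g ⟨x, hx⟩, ⟨x, hx⟩, rfl, rfl⟩)
    (fun a => a • res F le_top s) fun a b => by
      by_cases hab : a = b
      · subst hab
        rfl
      · refine loc_ext F _ _ fun x hx => ?_
        obtain ⟨⟨y, hy, rfl⟩, z, hz, hzy⟩ := hx
        rw [Subtype.ext hzy] at hz
        exact absurd (hy.symm.trans hz) hab
  refine ⟨t, fun V hV a ha => ?_⟩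
  have hle : V ≤ O a := fun x hx => ⟨⟨x, hV hx⟩, by
    have := congrArg (fun u : LocallyConstant V k => u ⟨x, hx⟩) ha
    change g ⟨x, hV hx⟩ = a * 1 at this
    simpa using this, rfl⟩
  rw [← res_res F (hO a) hle, ht, map_smul, res_res]

theorem exists_secHom {F : Sh k X} (s : sec F ⊤) :
    ∃ φ : cst k X ⟶ F, app φ ⊤ (cstOne k ⊤) = s := by
  choose t ht using exists_secHom_aux s
  refine ⟨mkHom (fun U =>
    { toFun := t U
      map_add' := fun f g => loc_ext F _ _ fun x hx => ?_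
      map_smul' := fun c f => loc_ext F _ _ fun x hx => ?_ }) fun U V hV f =>
      loc_ext F _ _ fun x hx => ?_, ?_⟩
  · obtain ⟨V, hV, hxV, a, ha⟩ := exists_cst_eq f hx
    obtain ⟨W, hW, hxW, b, hb⟩ := exists_cst_eq g hx
    have h1 : res (cst k X) (inf_le_left.trans hV : V ⊓ W ≤ U) f = a • cstOne k _ := by
      rw [← res_res _ hV inf_le_left, ha, map_smul, res_cstOne]
    have h2 : res (cst k X) (inf_le_left.trans hV : V ⊓ W ≤ U) g = b • cstOne k _ := by
      rw [← res_res _ hW inf_le_right, hb, map_smul, res_cstOne]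
    refine ⟨V ⊓ W, inf_le_left.trans hV, ⟨hxV, hxW⟩, ?_⟩
    rw [map_add, ht _ f _ _ a h1, ht _ g _ _ b h2, ht _ (f + g) _ _ (a + b)
      (by rw [map_add, h1, h2, add_smul]), add_smul]
  · obtain ⟨V, hV, hxV, a, ha⟩ := exists_cst_eq f hx
    refine ⟨V, hV, hxV, ?_⟩
    rw [RingHom.id_apply, map_smul, ht _ f _ _ a ha, ht _ (c • f) _ _ (c * a)
      (by rw [map_smul, ha, mul_smul]), mul_smul]
  · obtain ⟨W, hW, hxW, a, ha⟩ := exists_cst_eq (res (cst k X) hV f) hx
    refine ⟨W, hW, hxW, ?_⟩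
    change res F hW (t V _) = res F hW (res F hV (t U f))
    rw [ht _ _ _ _ a ha, res_res, ht _ f _ _ a (by rw [← ha, res_res])]
  · have := ht ⊤ (cstOne k ⊤) ⊤ le_rfl 1 (by simp)
    simpa using this

/-- The morphism from the constant sheaf sending `1` to the global section `s`. -/
def secHom {F : Sh k X} (s : sec F ⊤) : cst k X ⟶ F := (exists_secHom s).choose

@[simp] theorem secHom_one {F : Sh k X} (s : sec F ⊤) : app (secHom s) ⊤ (cstOne k ⊤) = s :=
  (exists_secHom s).choose_spec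

theorem secHom_comp {F G : Sh k X} (s : sec F ⊤) (φ : F ⟶ G) :
    secHom s ≫ φ = secHom (app φ ⊤ s) := cst_hom_ext (by simp)

theorem secHom_zero (F : Sh k X) : secHom (0 : sec F ⊤) = 0 := cst_hom_ext (by simp)

theorem secHom_app {F : Sh k X} (φ : cst k X ⟶ F) : secHom (app φ ⊤ (cstOne k ⊤)) = φ :=
  cst_hom_ext (by simp)

/-- The constant sheaf placed in degree `m`. -/
abbrev cstAt (k : Type) [Field k] (X : TopCat.{0}) (m : ℤ) : Cx k X :=
  (CochainComplex.singleFunctor (Sh k X) m).obj (cst k X)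

/-- The chain map from the constant sheaf in degree `m` defined by a global cocycle. -/
def clsC {F : Cx k X} {m : ℤ} (c : sec (F.X m) ⊤) (hc : app (F.d m (m + 1)) ⊤ c = 0) :
    cstAt k X m ⟶ F :=
  HomologicalComplex.mkHomFromSingle (secHom c) fun i hi => by
    obtain rfl : m + 1 = i := hi
    rw [secHom_comp, hc, secHom_zero]

/-- The hypercohomology class (a morphism `k_X[-m] ⟶ F` of the derived category) of a global
cocycle. -/
def cls {F : Cx k X} {m : ℤ} (c : sec (F.X m) ⊤) (hc : app (F.d m (m + 1)) ⊤ c = 0) :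
    (DerivedCategory.Q.obj (cstAt k X m) : Der k X) ⟶ DerivedCategory.Q.obj F :=
  DerivedCategory.Q.map (clsC c hc)

/-- The chain map `φ` is zero on the `n`-th cohomology at the point `x`. -/
def ZeroAt {F G : Cx k X} (φ : F ⟶ G) (n : ℤ) (x : X) : Prop :=
  ∀ U, x ∈ U → ∀ s : sec (F.X n) U, app (F.d n (n + 1)) U s = 0 →
    ∃ V, ∃ hV : V ≤ U, x ∈ V ∧ ∃ t : sec (G.X (n - 1)) V,
      app (G.d (n - 1) n) V t = res _ hV (app (φ.f n) U s)

/-- The complex `F` is exact in degree `n` at the point `x`. -/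
def ExAt (F : Cx k X) (n : ℤ) (x : X) : Prop :=
  ∀ U, x ∈ U → ∀ s : sec (F.X n) U, app (F.d n (n + 1)) U s = 0 →
    ∃ V, ∃ hV : V ≤ U, x ∈ V ∧ ∃ t : sec (F.X (n - 1)) V,
      app (F.d (n - 1) n) V t = res _ hV s

theorem zeroAt_id (F : Cx k X) (n : ℤ) (x : X) : ZeroAt (𝟙 F) n x ↔ ExAt F n x := Iff.rfl

/-- The chain map `φ` is onto on the `n`-th cohomology at the point `x`. -/
def SurjAt {F G : Cx k X} (φ : F ⟶ G) (n : ℤ) (x : X) : Prop :=
  ∀ U, x ∈ U → ∀ s : sec (G.X n) U, app (G.d n (n + 1)) U s = 0 →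
    ∃ V, ∃ hV : V ≤ U, x ∈ V ∧ ∃ u : sec (F.X n) V, app (F.d n (n + 1)) V u = 0 ∧
      ∃ t : sec (G.X (n - 1)) V, app (φ.f n) V u + app (G.d (n - 1) n) V t = res _ hV s

/-- The chain map `φ` is injective on the `n`-th cohomology at the point `x`. -/
def InjAt {F G : Cx k X} (φ : F ⟶ G) (n : ℤ) (x : X) : Prop :=
  ∀ U, x ∈ U → ∀ s : sec (F.X n) U, app (F.d n (n + 1)) U s = 0 →
    ∀ t : sec (G.X (n - 1)) U, app (G.d (n - 1) n) U t = app (φ.f n) U s →
    ∃ V, ∃ hV : V ≤ U, x ∈ V ∧ ∃ u : sec (F.X (n - 1)) V,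
      app (F.d (n - 1) n) V u = res _ hV s

/-- The chain map `φ` is a quasi-isomorphism at the point `x`. -/
def QisAt {F G : Cx k X} (φ : F ⟶ G) (x : X) : Prop := ∀ n, SurjAt φ n x ∧ InjAt φ n x

/-- Flabby sheaves. -/
def Flq (F : Sh k X) : Prop := ∀ (U V : Opens X) (h : V ≤ U), Function.Surjective (res F h)

/-- c-soft sheaves: a section near a compact set extends to a global section. -/
def CSoft (F : Sh k X) : Prop :=
  ∀ (K : Set X), IsCompact K → ∀ U : Opens X, K ⊆ U → ∀ s : sec F U,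
    ∃ t : sec F ⊤, ∃ V, ∃ hV : V ≤ U, K ⊆ V ∧ res F le_top t = res F hV s

/-- Bounded below complexes with c-soft terms. -/
def SoftC (F : Cx k X) : Prop := (∃ a, F.IsStrictlyGE a) ∧ ∀ n, CSoft (F.X n)

/-- Bounded below complexes with flabby terms. -/
def FlqC (F : Cx k X) : Prop := (∃ a, F.IsStrictlyGE a) ∧ ∀ n, Flq (F.X n)

/-- Bounded below complexes with injective terms. -/
def InjC {C : Type*} [Category C] [Preadditive C] (F : CochainComplex C ℤ) : Prop :=
  (∃ a, F.IsStrictlyGE a) ∧ ∀ n, Injective (F.X n)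

/-- Global sections vanishing near `B`. -/
def Nv (F : Sh k X) (B : Set X) : Submodule k (sec F ⊤) := suppIn F Bᶜ ⊤

theorem mem_Nv {F : Sh k X} {B : Set X} {s : sec F ⊤} : s ∈ Nv F B ↔ supp s ⊆ Bᶜ := Iff.rfl

theorem app_mem_Nv {F G : Sh k X} (φ : F ⟶ G) {B : Set X} {s : sec F ⊤} (hs : s ∈ Nv F B) :
    app φ ⊤ s ∈ Nv G B := (supp_app φ s).trans hs

/-- `p` kills the `n`-th cohomology of the complex `N (A ∩ B) / N B`. -/
def Van {F G : Cx k X} (p : F ⟶ G) (A B : Set X) (n : ℤ) : Prop :=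
  ∀ s ∈ Nv (F.X n) (A ∩ B), app (F.d n (n + 1)) ⊤ s ∈ Nv (F.X (n + 1)) B →
    ∃ t ∈ Nv (G.X (n - 1)) (A ∩ B),
      app (G.d (n - 1) n) ⊤ t - app (p.f n) ⊤ s ∈ Nv (G.X n) B

/-- Sections near `B` vanishing near `A ∩ B`: the functor `N (A ∩ B) / N B`. -/
def TAB (k : Type) [Field k] (A B : Set X) : Sh k X ⥤ ModuleCat.{0} k where
  obj F := ModuleCat.of k (Nv F (A ∩ B) ⧸ (Nv F B).comap (Nv F (A ∩ B)).subtype)
  map φ := ModuleCat.ofHom (Submodule.mapQ _ _
    ((app φ ⊤).restrict fun _ hs => app_mem_Nv φ hs) fun _ hs => app_mem_Nv φ hs)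
  map_id F := by
    ext s
    rfl
  map_comp _ _ := by
    ext s
    rfl

instance (A B : Set X) : (TAB k A B).Additive where
  map_add := by
    intros
    ext s
    obtain ⟨s, rfl⟩ := Submodule.Quotient.mk_surjective _ s
    rfl

instance (A B : Set X) : (TAB k A B).Linear k where
  map_smul _ _ := by
    ext s
    obtain ⟨s, rfl⟩ := Submodule.Quotient.mk_surjective _ s
    rfl

/-- Global sections with compact support inside `U`. -/
def cpt (F : Sh k X) (U : Opens X) : Submodule k (sec F ⊤) where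
  carrier := {s | ∃ C, IsCompact C ∧ C ⊆ U ∧ supp s ⊆ C}
  zero_mem' := ⟨∅, isCompact_empty, Set.empty_subset _, by simp⟩
  add_mem' := by
    rintro a b ⟨C, hC, hU, ha⟩ ⟨C', hC', hU', hb⟩
    exact ⟨C ∪ C', hC.union hC', Set.union_subset hU hU',
      (supp_add a b).trans (Set.union_subset_union ha hb)⟩
  smul_mem' := by
    rintro c s ⟨C, hC, hU, hs⟩
    exact ⟨C, hC, hU, (supp_smul c s).trans hs⟩

theorem mem_cpt {F : Sh k X} {U : Opens X} {s : sec F ⊤} :
    s ∈ cpt F U ↔ ∃ C, IsCompact C ∧ C ⊆ U ∧ supp s ⊆ C := Iff.rfl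

theorem app_mem_cpt {F G : Sh k X} (φ : F ⟶ G) {U : Opens X} {s : sec F ⊤} (hs : s ∈ cpt F U) :
    app φ ⊤ s ∈ cpt G U := by
  obtain ⟨C, hC, hU, h⟩ := hs
  exact ⟨C, hC, hU, (supp_app φ s).trans h⟩

theorem cpt_mono (F : Sh k X) {U V : Opens X} (h : V ≤ U) : cpt F V ≤ cpt F U := by
  rintro s ⟨C, hC, hU, hs⟩
  exact ⟨C, hC, hU.trans h, hs⟩

/-- Sections with compact support inside `U`, as a functor. -/
def Gamc (k : Type) [Field k] (U : Opens X) : Sh k X ⥤ ModuleCat.{0} k where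
  obj F := ModuleCat.of k (cpt F U)
  map φ := ModuleCat.ofHom ((app φ ⊤).restrict fun _ hs => app_mem_cpt φ hs)

instance (U : Opens X) : (Gamc k U).Additive where

instance (U : Opens X) : (Gamc k U).Linear k where
  map_smul _ _ := rfl

/-- The chosen injective resolution of the constant sheaf. -/
def I (k : Type) [Field k] (X : TopCat.{0}) : Cx k X :=
  (injectiveResolution (cst k X)).cochainComplex

/-- The augmentation of the chosen injective resolution. -/
def ιI (k : Type) [Field k] (X : TopCat.{0}) : cstAt k X 0 ⟶ I k X :=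
  (injectiveResolution (cst k X)).ι'

instance : QuasiIso (ιI k X) := inferInstanceAs (QuasiIso (injectiveResolution (cst k X)).ι')

theorem injC_I (k : Type) [Field k] (X : TopCat.{0}) : InjC (I k X) :=
  ⟨⟨0, inferInstanceAs ((injectiveResolution (cst k X)).cochainComplex.IsStrictlyGE 0)⟩,
    fun n => inferInstanceAs (Injective ((injectiveResolution (cst k X)).cochainComplex.X n))⟩

/-- An additive functor applied to complexes. -/
abbrev mapC {C C' : Type*} [Category C] [Category C'] [Preadditive C] [Preadditive C']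
    (Φ : C ⥤ C') [Φ.Additive] : CochainComplex C ℤ ⥤ CochainComplex C' ℤ :=
  Φ.mapHomologicalComplex _

/-- The spaces on which the soft theory works. -/
class Nice (X : TopCat.{0}) : Prop where
  lc : LocallyCompactSpace X
  t2 : T2Space X
  sc : SecondCountableTopology X

instance [h : Nice X] : LocallyCompactSpace X := h.lc
instance [h : Nice X] : T2Space X := h.t2
instance [h : Nice X] : SecondCountableTopology X := h.sc

end P275S
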