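import Vale.Agent.P275S.Loc
import Vale.Agent.P275S.SoftA
import Vale.Agent.P275JM.SplitC

/-! Classes of global cocycles in the derived category. -/

open CategoryTheory TopologicalSpace Opposite Limits DerivedCategory
open CochainComplex.HomComplex

noncomputable section

namespace P275S

variable {k : Type} [Field k] {X Y : TopCat.{0}} {F G : Cx k X} {m : ℤ}

/-- The section `1` of the constant sheaf placed in degree `m`. -/
def oneAt (k : Type) [Field k] (X : TopCat.{0}) (m : ℤ) : sec ((cstAt k X m).X m) ⊤ :=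
  app (HomologicalComplex.singleObjXSelf (ComplexShape.up ℤ) m (cst k X)).inv ⊤ (cstOne k ⊤)

theorem d_oneAt : app ((cstAt k X m).d m (m + 1)) ⊤ (oneAt k X m) = 0 := rfl

/-- The image of `1` under a chain map from the constant sheaf. -/
def ev (f : cstAt k X m ⟶ F) : sec (F.X m) ⊤ := app (f.f m) ⊤ (oneAt k X m)

theorem ev_d (f : cstAt k X m ⟶ F) : app (F.d m (m + 1)) ⊤ (ev f) = 0 := by
  rw [ev, ← app_f_d, d_oneAt, map_zero]

theorem ev_clsC (c : sec (F.X m) ⊤) (hc : app (F.d m (m + 1)) ⊤ c = 0) : ev (clsC c hc) = c := by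
  have h : (clsC c hc).f m = _ := HomologicalComplex.mkHomFromSingle_f _ _
  have h2 : (HomologicalComplex.singleObjXSelf (ComplexShape.up ℤ) m (cst k X)).inv ≫
      (clsC c hc).f m = secHom c := by
    rw [h, Iso.inv_hom_id_assoc]
  exact (congrArg (fun g => app g ⊤ (cstOne k ⊤)) h2).trans (secHom_one c)

theorem ev_injective {f g : cstAt k X m ⟶ F} (h : ev f = ev g) : f = g :=
  HomologicalComplex.from_single_hom_ext ((cancel_epi
    (HomologicalComplex.singleObjXSelf (ComplexShape.up ℤ) m (cst k X)).inv).1 (cst_hom_ext h))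

theorem clsC_ev (f : cstAt k X m ⟶ F) : clsC (ev f) (ev_d f) = f := ev_injective (ev_clsC _ _)

theorem ev_add (f g : cstAt k X m ⟶ F) : ev (f + g) = ev f + ev g := rfl

theorem ev_sub (f g : cstAt k X m ⟶ F) : ev (f - g) = ev f - ev g := rfl

theorem ev_smul (a : k) (f : cstAt k X m ⟶ F) : ev (a • f) = a • ev f := rfl

theorem ev_zero : ev (0 : cstAt k X m ⟶ F) = 0 := rfl

theorem ev_comp (f : cstAt k X m ⟶ F) (g : F ⟶ G) : ev (f ≫ g) = app (g.f m) ⊤ (ev f) := rfl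

theorem cocy_map (g : F ⟶ G) {U : Opens X} {c : sec (F.X m) U}
    (hc : app (F.d m (m + 1)) U c = 0) : app (G.d m (m + 1)) U (app (g.f m) U c) = 0 := by
  rw [← app_f_d, hc, map_zero]

theorem clsC_comp (c : sec (F.X m) ⊤) (hc : app (F.d m (m + 1)) ⊤ c = 0) (g : F ⟶ G) :
    clsC c hc ≫ g = clsC (app (g.f m) ⊤ c) (cocy_map g hc) :=
  ev_injective (by rw [ev_comp, ev_clsC, ev_clsC])

theorem cls_comp (c : sec (F.X m) ⊤) (hc : app (F.d m (m + 1)) ⊤ c = 0) (g : F ⟶ G) :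
    cls c hc ≫ Q.map g = cls (app (g.f m) ⊤ c) (cocy_map g hc) := by
  rw [cls, cls, ← Q.map_comp, clsC_comp]

theorem cls_congr {c c' : sec (F.X m) ⊤} (h : c = c') (hc : app (F.d m (m + 1)) ⊤ c = 0)
    (hc' : app (F.d m (m + 1)) ⊤ c' = 0) : cls c hc = cls c' hc' := by
  subst h
  rfl

theorem cls_add {c c' : sec (F.X m) ⊤} (hc : app (F.d m (m + 1)) ⊤ c = 0)
    (hc' : app (F.d m (m + 1)) ⊤ c' = 0) (h : app (F.d m (m + 1)) ⊤ (c + c') = 0) :
    cls (c + c') h = cls c hc + cls c' hc' := by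
  rw [cls, cls, cls, ← Q.map_add]
  exact congrArg Q.map (ev_injective (by rw [ev_add, ev_clsC, ev_clsC, ev_clsC]))

theorem cls_sub {c c' : sec (F.X m) ⊤} (hc : app (F.d m (m + 1)) ⊤ c = 0)
    (hc' : app (F.d m (m + 1)) ⊤ c' = 0) (h : app (F.d m (m + 1)) ⊤ (c - c') = 0) :
    cls (c - c') h = cls c hc - cls c' hc' := by
  rw [cls, cls, cls, ← Q.map_sub]
  exact congrArg Q.map (ev_injective (by rw [ev_sub, ev_clsC, ev_clsC, ev_clsC]))

theorem cls_smul (a : k) {c : sec (F.X m) ⊤} (hc : app (F.d m (m + 1)) ⊤ c = 0)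
    (h : app (F.d m (m + 1)) ⊤ (a • c) = 0) : cls (a • c) h = a • cls c hc := by
  rw [cls, cls, ← Q.map_smul]
  exact congrArg Q.map (ev_injective (by rw [ev_smul, ev_clsC, ev_clsC]))

theorem cls_zero (h : app (F.d m (m + 1)) ⊤ (0 : sec (F.X m) ⊤) = 0) : cls 0 h = 0 := by
  rw [cls, ← Q.map_zero]
  exact congrArg Q.map (ev_injective (by rw [ev_zero, ev_clsC]))

/-- A chain map from the constant sheaf is homotopic to zero iff the image of `1` is a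
coboundary. -/
theorem homotopy_zero_iff (f : cstAt k X m ⟶ F) :
    Nonempty (Homotopy f 0) ↔ ∃ b : sec (F.X (m - 1)) ⊤, app (F.d (m - 1) m) ⊤ b = ev f := by
  constructor
  · rintro ⟨h⟩
    have := app_homotopy h (sub_add_cancel m 1) rfl ⊤ (oneAt k X m)
    rw [d_oneAt, map_zero, zero_add, HomologicalComplex.zero_f, app_zero, add_zero] at this
    exact ⟨_, this.symm⟩
  · rintro ⟨b, hb⟩
    refine ⟨(Cochain.equivHomotopy f 0).symm
      ⟨Cochain.fromSingleMk (secHom b) (by omega : m + -1 = m - 1), ?_⟩⟩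
    rw [Cochain.δ_fromSingleMk _ _ 0 m (add_zero m), Cochain.ofHom_zero, add_zero, secHom_comp, hb]
    refine (Cochain.fromSingleEquiv (add_zero m)).injective ?_
    rw [Cochain.fromSingleEquiv_fromSingleMk]
    refine cst_hom_ext ?_
    rw [secHom_one]
    change app (_ ≫ (Cochain.ofHom f).v m m (add_zero m)) ⊤ _ = _
    rw [Cochain.ofHom_v]
    rfl

/-- The class of a coboundary vanishes. -/
theorem cls_eq_zero_of {c : sec (F.X m) ⊤} (hc : app (F.d m (m + 1)) ⊤ c = 0)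
    (b : sec (F.X (m - 1)) ⊤) (hb : app (F.d (m - 1) m) ⊤ b = c) : cls c hc = 0 := by
  obtain ⟨h⟩ := (homotopy_zero_iff (clsC c hc)).2 ⟨b, by rw [ev_clsC, hb]⟩
  rw [cls, Q_map_eq_of_homotopy _ h, Q.map_zero]

theorem cls_eq_of {c c' : sec (F.X m) ⊤} (hc : app (F.d m (m + 1)) ⊤ c = 0)
    (hc' : app (F.d m (m + 1)) ⊤ c' = 0) (b : sec (F.X (m - 1)) ⊤)
    (hb : app (F.d (m - 1) m) ⊤ b = c - c') : cls c hc = cls c' hc' := by
  rw [← sub_eq_zero, ← cls_sub hc hc' (by rw [map_sub, hc, hc', sub_zero])]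
  exact cls_eq_zero_of _ b hb

/-- The global sections of `F` compute its hypercohomology. -/
def ClsOK (F : Cx k X) : Prop := ∀ m : ℤ,
  (∀ u : (Q.obj (cstAt k X m) : Der k X) ⟶ Q.obj F,
    ∃ (c : sec (F.X m) ⊤) (hc : app (F.d m (m + 1)) ⊤ c = 0), cls c hc = u) ∧
  ∀ (c : sec (F.X m) ⊤) (hc : app (F.d m (m + 1)) ⊤ c = 0), cls c hc = 0 →
    ∃ b : sec (F.X (m - 1)) ⊤, app (F.d (m - 1) m) ⊤ b = c

theorem ClsOK.surj (h : ClsOK F) (u : (Q.obj (cstAt k X m) : Der k X) ⟶ Q.obj F) :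
    ∃ (c : sec (F.X m) ⊤) (hc : app (F.d m (m + 1)) ⊤ c = 0), cls c hc = u := (h m).1 u

theorem ClsOK.eq_zero_iff (h : ClsOK F) {c : sec (F.X m) ⊤} (hc : app (F.d m (m + 1)) ⊤ c = 0) :
    cls c hc = 0 ↔ ∃ b : sec (F.X (m - 1)) ⊤, app (F.d (m - 1) m) ⊤ b = c :=
  ⟨(h m).2 c hc, fun ⟨b, hb⟩ => cls_eq_zero_of hc b hb⟩

theorem ClsOK.eq_iff (h : ClsOK F) {c c' : sec (F.X m) ⊤} (hc : app (F.d m (m + 1)) ⊤ c = 0)
    (hc' : app (F.d m (m + 1)) ⊤ c' = 0) :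
    cls c hc = cls c' hc' ↔ ∃ b : sec (F.X (m - 1)) ⊤, app (F.d (m - 1) m) ⊤ b = c - c' := by
  rw [← sub_eq_zero, ← cls_sub hc hc' (by rw [map_sub, hc, hc', sub_zero]), h.eq_zero_iff]

theorem InjC.clsOK (h : InjC F) : ClsOK F := fun m =>
  ⟨fun u => by
    obtain ⟨f, rfl⟩ := P275JM.Q_surj h u
    exact ⟨ev f, ev_d f, by rw [cls, clsC_ev]⟩, fun c hc h0 => by
    have := (homotopy_zero_iff (clsC c hc)).1 (P275JM.Q_inj h (h0.trans (Q.map_zero _ _).symm))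
    rwa [ev_clsC] at this⟩

theorem gam_surj (i : F ⟶ G) [QuasiIso ((mapC (Gam k ⊤)).map i)] (c : sec (G.X m) ⊤)
    (hc : app (G.d m (m + 1)) ⊤ c = 0) : ∃ u : sec (F.X m) ⊤, app (F.d m (m + 1)) ⊤ u = 0 ∧
      ∃ t : sec (G.X (m - 1)) ⊤, app (i.f m) ⊤ u + app (G.d (m - 1) m) ⊤ t = c := by
  have h : ∀ a b, a = m - 1 → b = m + 1 → Epi (ShortComplex.homologyMap
      ((HomologicalComplex.shortComplexFunctor' _ (ComplexShape.up ℤ) a m b).map
        ((mapC (Gam k ⊤)).map i))) → ∃ u : sec (F.X m) ⊤, app (F.d m (m + 1)) ⊤ u = 0 ∧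
      ∃ t : sec (G.X (m - 1)) ⊤, app (i.f m) ⊤ u + app (G.d (m - 1) m) ⊤ t = c := by
    rintro _ _ rfl rfl h
    exact (mod_epi_iff _).1 h c hc
  exact h _ _ (CochainComplex.prev ℤ m) (CochainComplex.next ℤ m)
    (inferInstanceAs (Epi (HomologicalComplex.homologyMap ((mapC (Gam k ⊤)).map i) m)))

theorem gam_inj (i : F ⟶ G) [QuasiIso ((mapC (Gam k ⊤)).map i)] (c : sec (F.X m) ⊤)
    (hc : app (F.d m (m + 1)) ⊤ c = 0) (t : sec (G.X (m - 1)) ⊤)
    (ht : app (G.d (m - 1) m) ⊤ t = app (i.f m) ⊤ c) :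
    ∃ b : sec (F.X (m - 1)) ⊤, app (F.d (m - 1) m) ⊤ b = c := by
  have h : ∀ a b, a = m - 1 → b = m + 1 → Mono (ShortComplex.homologyMap
      ((HomologicalComplex.shortComplexFunctor' _ (ComplexShape.up ℤ) a m b).map
        ((mapC (Gam k ⊤)).map i))) →
      ∃ b : sec (F.X (m - 1)) ⊤, app (F.d (m - 1) m) ⊤ b = c := by
    rintro _ _ rfl rfl h
    exact (mod_mono_iff _).1 h c hc t ht
  exact h _ _ (CochainComplex.prev ℤ m) (CochainComplex.next ℤ m)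
    (inferInstanceAs (Mono (HomologicalComplex.homologyMap ((mapC (Gam k ⊤)).map i) m)))

/-- Transport along a quasi-isomorphism that is a quasi-isomorphism on global sections. -/
theorem ClsOK.of_qis (hG : ClsOK G) (i : F ⟶ G) [QuasiIso i]
    [QuasiIso ((mapC (Gam k ⊤)).map i)] : ClsOK F := fun m =>
  ⟨fun u => by
    obtain ⟨c, hc, e⟩ := hG.surj (u ≫ Q.map i)
    obtain ⟨a, ha, t, ht⟩ := gam_surj i c hc
    refine ⟨a, ha, (cancel_mono (Q.map i)).1 ?_⟩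
    rw [cls_comp, ← e, eq_comm]
    exact cls_eq_of _ _ t (by rw [← ht, add_sub_cancel_left]), fun c hc h0 => by
    have h1 := cls_comp c hc i
    rw [h0, zero_comp, eq_comm, hG.eq_zero_iff] at h1
    obtain ⟨t, ht⟩ := h1
    exact gam_inj i c hc t ht⟩

theorem ClsOK.to_qis (hF : ClsOK F) (i : F ⟶ G) [QuasiIso i]
    [QuasiIso ((mapC (Gam k ⊤)).map i)] : ClsOK G := fun m =>
  ⟨fun u => by
    obtain ⟨c, hc, e⟩ := hF.surj (u ≫ inv (Q.map i))
    exact ⟨_, cocy_map i hc, by rw [← cls_comp c hc, e]; simp⟩, fun c hc h0 => by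
    obtain ⟨a, ha, t, ht⟩ := gam_surj i c hc
    have h1 : cls a ha ≫ Q.map i = 0 ≫ Q.map i := by
      rw [cls_comp, zero_comp, ← h0, eq_comm]
      exact cls_eq_of _ _ t (by rw [← ht, add_sub_cancel_left])
    obtain ⟨b, hb⟩ := (hF.eq_zero_iff ha).1 ((cancel_mono _).1 h1)
    exact ⟨app (i.f (m - 1)) ⊤ b + t, by rw [map_add, ← app_f_d, hb, ht]⟩⟩

/-- `u` factors through `a`. -/
def ThruH {D : Type*} [Category D] {A K T : D} (a : A ⟶ K) (u : T ⟶ K) : Prop :=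
  ∃ v : T ⟶ A, v ≫ a = u

/-- The class of the cocycle `c` factors through `a`. -/
def Thru {A : Der k X} (a : A ⟶ Q.obj F) (c : sec (F.X m) ⊤)
    (hc : app (F.d m (m + 1)) ⊤ c = 0) : Prop :=
  ∃ u : (Q.obj (cstAt k X m) : Der k X) ⟶ A, u ≫ a = cls c hc

theorem thru_iff_thruH {A : Der k X} (a : A ⟶ Q.obj F) (c : sec (F.X m) ⊤)
    (hc : app (F.d m (m + 1)) ⊤ c = 0) : Thru a c hc ↔ ThruH a (cls c hc) := Iff.rfl

/-- The element level form of `Thru`. -/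
theorem thru_map_iff {W : Cx k X} (hW : ClsOK W) (hF : ClsOK F) (i : W ⟶ F)
    (c : sec (F.X m) ⊤) (hc : app (F.d m (m + 1)) ⊤ c = 0) :
    Thru (Q.map i) c hc ↔ ∃ w : sec (W.X m) ⊤, app (W.d m (m + 1)) ⊤ w = 0 ∧
      ∃ b : sec (F.X (m - 1)) ⊤, app (i.f m) ⊤ w + app (F.d (m - 1) m) ⊤ b = c := by
  constructor
  · rintro ⟨u, hu⟩
    obtain ⟨w, hw, rfl⟩ := hW.surj u
    rw [cls_comp, eq_comm, hF.eq_iff] at hu
    obtain ⟨b, hb⟩ := hu
    exact ⟨w, hw, b, by rw [hb, add_sub_cancel]⟩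
  · rintro ⟨w, hw, b, hb⟩
    refine ⟨cls w hw, ?_⟩
    rw [cls_comp, eq_comm]
    exact cls_eq_of _ _ b (by rw [← hb, add_sub_cancel_left])

theorem Thru.congr {A : Der k X} {a : A ⟶ Q.obj F} {c c' : sec (F.X m) ⊤}
    {hc : app (F.d m (m + 1)) ⊤ c = 0} {hc' : app (F.d m (m + 1)) ⊤ c' = 0}
    (e : cls c hc = cls c' hc') : Thru a c hc ↔ Thru a c' hc' := by
  rw [Thru, Thru, e]

theorem Thru.map {A : Der k X} {a : A ⟶ Q.obj F} {c : sec (F.X m) ⊤}
    {hc : app (F.d m (m + 1)) ⊤ c = 0} (h : Thru a c hc) (g : F ⟶ G) :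
    Thru (a ≫ Q.map g) (app (g.f m) ⊤ c) (cocy_map g hc) := by
  obtain ⟨u, hu⟩ := h
  exact ⟨u, by rw [← Category.assoc, hu, cls_comp]⟩

theorem thru_qis {A : Der k X} (a : A ⟶ Q.obj F) (c : sec (F.X m) ⊤)
    (hc : app (F.d m (m + 1)) ⊤ c = 0) (g : F ⟶ G) [QuasiIso g] :
    Thru (a ≫ Q.map g) (app (g.f m) ⊤ c) (cocy_map g hc) ↔ Thru a c hc :=
  ⟨fun ⟨u, hu⟩ => ⟨u, (cancel_mono (Q.map g)).1 (by rw [Category.assoc, hu, cls_comp c hc])⟩,
    fun h => h.map g⟩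

end P275S
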