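import Vale.Agent.P275S.KG

/-! Graded morphisms into bounded below complexes of injectives; total cohomology of complexes of
vector spaces. -/

open CategoryTheory Limits CochainComplex CochainComplex.HomComplex

noncomputable section

universe v u

namespace P275S

variable {k : Type} [Field k]

section

variable {C : Type u} [Category.{v} C] [Abelian C]

theorem isZero_Q_iff_acyclic [HasDerivedCategory C] (K : CochainComplex C ℤ) :
    IsZero (DerivedCategory.Q.obj K) ↔ K.Acyclic := by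
  rw [IsZero.iff_id_eq_zero]
  constructor
  · intro h n
    rw [HomologicalComplex.exactAt_iff_isZero_homology]
    refine IsZero.of_iso ?_ ((DerivedCategory.homologyFunctorFactors C n).app K).symm
    exact Functor.map_isZero (DerivedCategory.homologyFunctor C n)
      ((IsZero.iff_id_eq_zero _).2 h)
  · intro h
    have : QuasiIso (0 : K ⟶ K) := by
      rw [quasiIso_iff]
      intro n
      rw [quasiIsoAt_iff_isIso_homologyMap]
      have := (HomologicalComplex.exactAt_iff_isZero_homology _ _).1 (h n)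
      exact isIso_of_source_target_iso_zero _ this.isoZero this.isoZero
    have h2 : IsIso (DerivedCategory.Q.map (0 : K ⟶ K)) := inferInstance
    rw [Functor.map_zero] at h2
    rw [← IsIso.hom_inv_id (0 : DerivedCategory.Q.obj K ⟶ DerivedCategory.Q.obj K), zero_comp]

theorem acyclic_cone_iff {F G : CochainComplex C ℤ} (φ : F ⟶ G) :
    (mappingCone φ).Acyclic ↔ QuasiIso φ := by
  let _ := HasDerivedCategory.standard C
  rw [← isZero_Q_iff_acyclic, ← DerivedCategory.isIso_Q_map_iff_quasiIso]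
  exact Pretriangulated.Triangle.isZero₃_iff_isIso₁ _
    (DerivedCategory.mappingCone_triangle_distinguished φ)

theorem InjC.isKInjective {J : CochainComplex C ℤ} (h : InjC J) : J.IsKInjective := by
  obtain ⟨⟨a, _⟩, _⟩ := h
  exact isKInjective_of_injective J a

variable [Linear k C]

namespace KG

theorem comp_injective_deg {F F' J : CochainComplex C ℤ} (φ : F ⟶ F') [QuasiIso φ]
    (hJ : InjC J) {n : ℤ} (z : Cocycle F' J n) (h : hom k φ ≫ mk k z = 0) : mk k z = 0 := by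
  have := hJ.isKInjective
  rw [hom_comp_mk, mk_eq_zero_iff k _ (n - 1) (by simp)] at h
  obtain ⟨y, hy⟩ := h
  obtain ⟨w, hw⟩ := IsKInjective.eq_δ_of_cocycle
    (mappingCone.descCocycle φ (n.negOnePow • y) z (by simp : n - 1 + 1 = n)
      (by rw [δ_units_smul, hy]; rfl))
    ((acyclic_cone_iff φ).2 inferInstance) (n - 1) (by simp)
  refine (mk_eq_zero_iff k _ (n - 1) (by simp)).2
    ⟨(Cochain.ofHom (mappingCone.inr φ)).comp w (zero_add _), ?_⟩
  rw [δ_ofHom_comp, hw]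
  simp

theorem comp_surjective_deg {F F' J : CochainComplex C ℤ} (φ : F ⟶ F') [QuasiIso φ]
    (hJ : InjC J) {n : ℤ} (z : Cocycle F J n) :
    ∃ z' : Cocycle F' J n, hom k φ ≫ mk k z' = mk k z := by
  have := hJ.isKInjective
  obtain ⟨w, hw⟩ := IsKInjective.eq_δ_of_cocycle
    (zcomp (mappingCone.fst φ) z (add_comm 1 n))
    ((acyclic_cone_iff φ).2 inferInstance) n rfl
  have h1 : δ n (n + 1) ((Cochain.ofHom (mappingCone.inr φ)).comp w (zero_add n)) = 0 := by
    rw [δ_ofHom_comp, hw]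
    simp
  refine ⟨-(n.negOnePow • Cocycle.mk _ _ rfl h1), ?_⟩
  rw [hom_comp_mk, ← sub_eq_zero, ← map_sub, mk_eq_zero_iff k _ (n - 1) (by simp)]
  refine ⟨-(mappingCone.inl φ).comp w (by omega), ?_⟩
  rw [δ_neg, δ_comp _ _ _ 0 (n + 1) n (by omega) (by omega) rfl, hw, mappingCone.δ_inl]
  simp [Cocycle.precomp, sub_eq_add_neg]

/-- Precomposition with a quasi-isomorphism is bijective on graded morphisms into a bounded below
complex of injectives. -/
theorem comp_bijective {F F' J : CochainComplex C ℤ} (φ : F ⟶ F') [QuasiIso φ] (hJ : InjC J) :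
    Function.Bijective fun g : (of F' : KG k C) ⟶ of J => hom k φ ≫ g := by
  constructor
  · refine (injective_iff_map_eq_zero (Preadditive.leftComp (of J : KG k C) (hom k φ))).2
      fun g hg => ext_pr fun n => ?_
    obtain ⟨z, hz⟩ := pr_mem_deg n g
    rw [map_zero, ← hz]
    refine comp_injective_deg φ hJ z ?_
    rw [hz, ← pr_comp_of_left (zero_add n) (hom_mem_deg φ)]
    exact (congrArg (pr n) hg).trans (map_zero _)
  · intro g
    induction g using ind with
    | h0 => exact ⟨0, comp_zero⟩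
    | hmk n z =>
      obtain ⟨z', hz⟩ := comp_surjective_deg (k := k) φ hJ z
      exact ⟨_, hz⟩
    | hadd x y hx hy =>
      obtain ⟨a, rfl⟩ := hx
      obtain ⟨b, rfl⟩ := hy
      exact ⟨a + b, Preadditive.comp_add ..⟩

theorem cancel_qis {F F' J : CochainComplex C ℤ} (φ : F ⟶ F') [QuasiIso φ] (hJ : InjC J)
    {g g' : (of F' : KG k C) ⟶ of J} (h : hom k φ ≫ g = hom k φ ≫ g') : g = g' :=
  (comp_bijective φ hJ).1 h

theorem exists_lift {F F' J : CochainComplex C ℤ} (φ : F ⟶ F') [QuasiIso φ] (hJ : InjC J)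
    {n : ℤ} {g : (of F : KG k C) ⟶ of J} (hg : g ∈ deg k _ _ n) :
    ∃ g' ∈ deg k (of F') (of J) n, hom k φ ≫ g' = g := by
  obtain ⟨z, rfl⟩ := hg
  obtain ⟨z', hz⟩ := comp_surjective_deg (k := k) φ hJ z
  exact ⟨_, mk_mem_deg z', hz⟩

theorem exists_lift_hom {F F' J : CochainComplex C ℤ} (φ : F ⟶ F') [QuasiIso φ] (hJ : InjC J)
    (ψ : F ⟶ J) : ∃ ψ' : F' ⟶ J, hom k φ ≫ hom k ψ' = hom k ψ := by
  obtain ⟨g, hg, h⟩ := exists_lift (k := k) φ hJ (hom_mem_deg ψ)
  obtain ⟨ψ', rfl⟩ := mem_deg_zero.1 hg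
  exact ⟨ψ', h⟩

/-- A quasi-isomorphism of bounded below complexes of injectives is invertible. -/
theorem isIso_hom {J J' : CochainComplex C ℤ} (φ : J ⟶ J') [QuasiIso φ] (hJ : InjC J)
    (hJ' : InjC J') : IsIso (hom k φ) := by
  obtain ⟨g, hg⟩ := (comp_bijective (k := k) φ hJ).2 (𝟙 _)
  have hg : hom k φ ≫ g = 𝟙 _ := hg
  refine ⟨g, hg, cancel_qis φ hJ' ?_⟩
  rw [← Category.assoc, hg, Category.id_comp, Category.comp_id]

/-- A chain map that is invertible in the graded homotopy category is a quasi-isomorphism. -/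
theorem quasiIso_of_isIso {F G : CochainComplex C ℤ} (φ : F ⟶ G) [IsIso (hom k φ)] :
    QuasiIso φ := by
  obtain ⟨ψ, hψ⟩ := mem_deg_zero.1 (inv_mem_deg (add_zero 0) (hom_mem_deg (k := k) φ))
  obtain ⟨h1⟩ := (hom_eq_iff k (φ ≫ ψ) (𝟙 _)).1 (by rw [hom_comp, hψ, hom_id]; simp)
  obtain ⟨h2⟩ := (hom_eq_iff k (ψ ≫ φ) (𝟙 _)).1 (by rw [hom_comp, hψ, hom_id]; simp)
  exact (HomotopyEquiv.mk φ ψ h1 h2).quasiIso_hom

end KG

end

/-- The ground field in degree zero. -/
def pt (k : Type) [Field k] : KG k (ModuleCat.{0} k) :=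
  KG.of ((singleFunctor (ModuleCat.{0} k) 0).obj (ModuleCat.of k k))

/-- Total cohomology of a complex of vector spaces. -/
abbrev HT (A : KG k (ModuleCat.{0} k)) : Type := pt k ⟶ A

variable {M N : CochainComplex (ModuleCat.{0} k) ℤ}

/-- The class of a cocycle in total cohomology. -/
def HT.mk {n : ℤ} (c : M.X n) (hc : M.d n (n + 1) c = 0) : HT (KG.of M) :=
  KG.mk k (Cocycle.fromSingleMk (ModuleCat.ofHom (LinearMap.toSpanSingleton k _ c)) (zero_add n)
    (n + 1) rfl (by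
      ext
      simpa using hc))

theorem HT.mk_mem {n : ℤ} (c : M.X n) (hc : M.d n (n + 1) c = 0) :
    HT.mk c hc ∈ KG.deg k (pt k) (KG.of M) n := ⟨_, rfl⟩

theorem HT.exists_mk {n : ℤ} {x : HT (KG.of M)} (hx : x ∈ KG.deg k (pt k) (KG.of M) n) :
    ∃ (c : M.X n) (hc : M.d n (n + 1) c = 0), HT.mk c hc = x := by
  obtain ⟨z, rfl⟩ := hx
  obtain ⟨f, hf, rfl⟩ := Cocycle.fromSingleMk_surjective z n (zero_add n) (n + 1) rfl
  refine ⟨f (1 : k), congrArg (fun g : ModuleCat.of k k ⟶ M.X (n + 1) => g (1 : k)) hf, ?_⟩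
  refine congrArg (KG.mk k) (Cocycle.ext (congrArg (Cochain.fromSingleMk · (zero_add n)) ?_))
  ext
  simp

theorem HT.mk_eq_zero_iff {n : ℤ} (c : M.X n) (hc : M.d n (n + 1) c = 0) (m : ℤ)
    (h : m + 1 = n) : HT.mk c hc = 0 ↔ ∃ b : M.X m, M.d m n b = c := by
  unfold HT.mk
  refine (KG.mk_eq_zero_iff k _ (n - 1) (by simp)).trans ?_
  refine (mem_coboundaries_iff _ (n - 1) (by simp)).symm.trans ?_
  rw [Cocycle.fromSingleMk_mem_coboundaries_iff _ _ _ _ _ m h]
  constructor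
  · rintro ⟨g, hg⟩
    refine ⟨g (1 : k), ?_⟩
    have := congrArg (fun g : ModuleCat.of k k ⟶ M.X n => g (1 : k)) hg
    simpa using this
  · rintro ⟨b, rfl⟩
    refine ⟨ModuleCat.ofHom (LinearMap.toSpanSingleton k _ b), ?_⟩
    ext
    simp

theorem HT.mk_add {n : ℤ} (c c' : M.X n) (hc : M.d n (n + 1) c = 0)
    (hc' : M.d n (n + 1) c' = 0) :
    HT.mk (c + c') (by rw [map_add, hc, hc', add_zero]) = HT.mk c hc + HT.mk c' hc' := by
  refine Eq.trans (congrArg (KG.mk k) (Cocycle.ext ?_)) (map_add (KG.mk k) _ _)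
  refine Eq.trans (congrArg (Cochain.fromSingleMk · (zero_add n)) ?_) (Cochain.fromSingleMk_add _ _ _)
  ext
  simp

theorem HT.mk_smul {n : ℤ} (r : k) (c : M.X n) (hc : M.d n (n + 1) c = 0) :
    HT.mk (r • c) (by rw [map_smul, hc, smul_zero]) = r • HT.mk c hc := by
  refine Eq.trans (congrArg (KG.mk k) ?_) (map_smul (KG.mk k) r _)
  refine Cocycle.ext ((Cochain.fromSingleEquiv (zero_add n)).injective ?_)
  have : ∀ f : ModuleCat.of k k ⟶ M.X n, Cochain.fromSingleEquiv (zero_add n)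
      (r • Cochain.fromSingleMk f (zero_add n)) = r • f := fun f => by
    simp only [Cochain.fromSingleEquiv, AddEquiv.coe_mk, Equiv.coe_fn_mk, Cochain.smul_v,
      Cochain.fromSingleMk_v]
    exact (Linear.comp_smul _ _ _ _ _ _).trans (congrArg (r • ·) (Iso.inv_hom_id_assoc _ _))
  rw [Cocycle.fromSingleMk_coe, Cochain.fromSingleEquiv_fromSingleMk]
  refine Eq.trans ?_ (this _).symm
  ext
  simp

theorem HT.mk_zero (n : ℤ) : HT.mk (0 : M.X n) (map_zero _) = 0 :=
  (HT.mk_eq_zero_iff _ _ (n - 1) (by simp)).2 ⟨0, map_zero _⟩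

theorem HT.mk_congr {n : ℤ} {c c' : M.X n} (h : c = c') (hc : M.d n (n + 1) c = 0) :
    HT.mk c hc = HT.mk c' (h ▸ hc) := by
  subst h
  rfl

theorem HT.mk_sub {n : ℤ} (c c' : M.X n) (hc : M.d n (n + 1) c = 0)
    (hc' : M.d n (n + 1) c' = 0) :
    HT.mk (c - c') (by rw [map_sub, hc, hc', sub_zero]) = HT.mk c hc - HT.mk c' hc' := by
  rw [eq_sub_iff_add_eq, ← HT.mk_add]
  exact HT.mk_congr (sub_add_cancel c c') _

theorem HT.mk_eq_iff {n : ℤ} (c c' : M.X n) (hc : M.d n (n + 1) c = 0)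
    (hc' : M.d n (n + 1) c' = 0) (m : ℤ) (h : m + 1 = n) :
    HT.mk c hc = HT.mk c' hc' ↔ ∃ b : M.X m, M.d m n b = c - c' := by
  rw [← sub_eq_zero, ← HT.mk_sub, HT.mk_eq_zero_iff _ _ m h]

theorem cocycle_apply {n a m : ℤ} (h : n + a = m) (c : M.X n) (hc : M.d n (n + 1) c = 0)
    (z : Cocycle M N a) : N.d m (m + 1) (z.1.v n m h c) = 0 := by
  have h1 := Cochain.congr_v (z.δ_eq_zero (a + 1)) n (m + 1) (by omega)
  rw [δ_v a (a + 1) rfl z.1 n (m + 1) (by omega) m (n + 1) (by omega) rfl] at h1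
  have h2 := congrArg (fun g : M.X n ⟶ N.X (m + 1) => g c) h1
  rcases Int.units_eq_one_or (a + 1).negOnePow with h3 | h3 <;> simpa [h3, hc] using h2

theorem HT.mk_comp_mk {n a m : ℤ} (h : n + a = m) (c : M.X n) (hc : M.d n (n + 1) c = 0)
    (z : Cocycle M N a) :
    HT.mk c hc ≫ KG.mk k z = HT.mk (z.1.v n m h c) (cocycle_apply h c hc z) := by
  unfold HT.mk
  refine (KG.mk_comp k h _ _).trans ?_
  congr 1
  refine Cocycle.ext ((Cochain.fromSingleEquiv (zero_add m)).injective ?_)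
  rw [Cocycle.fromSingleMk_coe, Cochain.fromSingleEquiv_fromSingleMk]
  have : ∀ f : ModuleCat.of k k ⟶ M.X n, Cochain.fromSingleEquiv (zero_add m)
      ((Cochain.fromSingleMk f (zero_add n)).comp z.1 h) = f ≫ z.1.v n m h := fun f => by
    simp only [Cochain.fromSingleEquiv, AddEquiv.coe_mk, Equiv.coe_fn_mk,
      Cochain.comp_v _ _ h 0 n m (zero_add n) h, Cochain.fromSingleMk_v]
    exact (Category.assoc _ _ _).symm.trans (congrArg (· ≫ _) (Iso.inv_hom_id_assoc _ _))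
  refine (this _).trans ?_
  ext
  simp

theorem HT.mk_comp_hom {n : ℤ} (c : M.X n) (hc : M.d n (n + 1) c = 0) (φ : M ⟶ N) :
    HT.mk c hc ≫ KG.hom k φ = HT.mk (φ.f n c) (by
      rw [← ConcreteCategory.comp_apply, φ.comm, ConcreteCategory.comp_apply, hc, map_zero]) :=
  (HT.mk_comp_mk (add_zero n) c hc _).trans (HT.mk_congr (by simp) _)

theorem HT.ind {P : HT (KG.of M) → Prop} (h0 : P 0)
    (hmk : ∀ n (c : M.X n) (hc : M.d n (n + 1) c = 0), P (HT.mk c hc))
    (hadd : ∀ x y, P x → P y → P (x + y)) (x : HT (KG.of M)) : P x :=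
  KG.ind_deg h0 (fun n f hf => by
    obtain ⟨c, hc, rfl⟩ := HT.exists_mk hf
    exact hmk n c hc) hadd x

theorem mod_mono_hm_iff (φ : M ⟶ N) (n : ℤ) :
    Mono (HomologicalComplex.homologyMap φ n) ↔ ∀ x : M.X n, M.d n (n + 1) x = 0 →
      ∀ y : N.X (n - 1), N.d (n - 1) n y = φ.f n x → ∃ a : M.X (n - 1), M.d (n - 1) n a = x := by
  rw [HomologicalComplex.mono_homologyMap_iff_up_to_refinements φ (n - 1) n (n + 1) (by simp)
    (by simp)]
  constructor
  · intro h x hx y hy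
    obtain ⟨A', π, hπ, x₁, e⟩ := h (ModuleCat.ofHom (LinearMap.toSpanSingleton k _ x))
      (by ext; simpa using hx) (ModuleCat.ofHom (LinearMap.toSpanSingleton k _ y))
      (by ext; simpa using hy.symm)
    obtain ⟨a, ha⟩ := (ModuleCat.epi_iff_surjective π).1 hπ (1 : k)
    refine ⟨x₁ a, ?_⟩
    have := congrArg (fun g : A' ⟶ M.X n => g a) e
    simpa [ha] using this.symm
  · intro h A x₂ hx y₁ hy
    let P : Submodule k (A × M.X (n - 1)) :=
      LinearMap.eqLocus (x₂.hom ∘ₗ LinearMap.fst k _ _) ((M.d (n - 1) n).hom ∘ₗ LinearMap.snd k _ _)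
    refine ⟨ModuleCat.of k P, ModuleCat.ofHom (LinearMap.fst k _ _ ∘ₗ P.subtype), ?_,
      ModuleCat.ofHom (LinearMap.snd k _ _ ∘ₗ P.subtype), ?_⟩
    · refine (ModuleCat.epi_iff_surjective _).2 fun a => ?_
      obtain ⟨b, hb⟩ := h (x₂ a) (congrArg (fun g : A ⟶ M.X (n + 1) => g a) hx) (y₁ a)
        (congrArg (fun g : A ⟶ N.X n => g a) hy).symm
      exact ⟨⟨(a, b), hb.symm⟩, rfl⟩
    · ext p
      exact p.2

theorem mod_epi_hm_iff (φ : M ⟶ N) (n : ℤ) :
    Epi (HomologicalComplex.homologyMap φ n) ↔ ∀ y : N.X n, N.d n (n + 1) y = 0 →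
      ∃ x : M.X n, M.d n (n + 1) x = 0 ∧ ∃ b : N.X (n - 1), φ.f n x + N.d (n - 1) n b = y := by
  rw [HomologicalComplex.epi_homologyMap_iff_up_to_refinements φ (n - 1) n (n + 1) (by simp)
    (by simp)]
  constructor
  · intro h y hy
    obtain ⟨A', π, hπ, x₂, hx, y₁, e⟩ := h (ModuleCat.ofHom (LinearMap.toSpanSingleton k _ y))
      (by ext; simpa using hy)
    obtain ⟨a, ha⟩ := (ModuleCat.epi_iff_surjective π).1 hπ (1 : k)
    refine ⟨x₂ a, congrArg (fun g : A' ⟶ M.X (n + 1) => g a) hx, y₁ a, ?_⟩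
    have := congrArg (fun g : A' ⟶ N.X n => g a) e
    simpa [ha] using this.symm
  · intro h A y₂ hy
    let P : Submodule k (A × (LinearMap.ker (M.d n (n + 1)).hom × N.X (n - 1))) :=
      LinearMap.eqLocus (y₂.hom ∘ₗ LinearMap.fst k _ _)
        (((φ.f n).hom ∘ₗ Submodule.subtype _ ∘ₗ LinearMap.fst k _ _ +
          (N.d (n - 1) n).hom ∘ₗ LinearMap.snd k _ _) ∘ₗ LinearMap.snd k _ _)
    refine ⟨ModuleCat.of k P, ModuleCat.ofHom (LinearMap.fst k _ _ ∘ₗ P.subtype), ?_,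
      ModuleCat.ofHom (Submodule.subtype _ ∘ₗ LinearMap.fst k _ _ ∘ₗ LinearMap.snd k _ _ ∘ₗ
        P.subtype), ?_,
      ModuleCat.ofHom (LinearMap.snd k _ _ ∘ₗ LinearMap.snd k _ _ ∘ₗ P.subtype), ?_⟩
    · refine (ModuleCat.epi_iff_surjective _).2 fun a => ?_
      obtain ⟨x, hx, b, hb⟩ := h (y₂ a) (congrArg (fun g : A ⟶ N.X (n + 1) => g a) hy)
      exact ⟨⟨(a, ⟨x, hx⟩, b), hb.symm⟩, rfl⟩
    · ext p
      exact p.1.2.1.2
    · ext p
      exact p.2

theorem HT.injective_iff (φ : M ⟶ N) :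
    (Function.Injective fun x : HT (KG.of M) => x ≫ KG.hom k φ) ↔
      ∀ n, Mono (HomologicalComplex.homologyMap φ n) := by
  simp only [mod_mono_hm_iff]
  constructor
  · intro h n x hx y hy
    refine (HT.mk_eq_zero_iff x hx (n - 1) (by simp)).1 (h ?_)
    change HT.mk x hx ≫ _ = 0 ≫ _
    rw [zero_comp, HT.mk_comp_hom, HT.mk_eq_zero_iff _ _ (n - 1) (by simp)]
    exact ⟨y, hy⟩
  · intro h
    refine (injective_iff_map_eq_zero (Preadditive.rightComp (pt k) (KG.hom k φ))).2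
      fun g hg => KG.ext_pr fun n => ?_
    obtain ⟨c, hc, e⟩ := HT.exists_mk (KG.pr_mem_deg n g)
    have h1 : HT.mk c hc ≫ KG.hom k φ = 0 := by
      rw [e, ← KG.pr_comp_of_right (add_zero n) g (KG.hom_mem_deg φ)]
      exact (congrArg (KG.pr n) hg).trans (map_zero _)
    rw [HT.mk_comp_hom, HT.mk_eq_zero_iff _ _ (n - 1) (by simp)] at h1
    obtain ⟨y, hy⟩ := h1
    rw [map_zero, ← e, HT.mk_eq_zero_iff _ _ (n - 1) (by simp)]
    exact h n c hc y hy

theorem HT.surjective_iff (φ : M ⟶ N) :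
    (Function.Surjective fun x : HT (KG.of M) => x ≫ KG.hom k φ) ↔
      ∀ n, Epi (HomologicalComplex.homologyMap φ n) := by
  simp only [mod_epi_hm_iff]
  constructor
  · intro h n y hy
    obtain ⟨g, hg⟩ := h (HT.mk y hy)
    obtain ⟨c, hc, e⟩ := HT.exists_mk (KG.pr_mem_deg n g)
    have h1 : HT.mk y hy = HT.mk c hc ≫ KG.hom k φ := by
      rw [e, ← KG.pr_comp_of_right (add_zero n) g (KG.hom_mem_deg φ)]
      exact (KG.pr_of_mem (HT.mk_mem y hy)).symm.trans (congrArg (KG.pr n) hg.symm)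
    rw [HT.mk_comp_hom, HT.mk_eq_iff _ _ _ _ (n - 1) (by simp)] at h1
    obtain ⟨b, hb⟩ := h1
    exact ⟨c, hc, b, by rw [hb]; abel⟩
  · intro h y
    induction y using HT.ind with
    | h0 => exact ⟨0, zero_comp⟩
    | hadd x y hx hy =>
      obtain ⟨a, rfl⟩ := hx
      obtain ⟨b, rfl⟩ := hy
      exact ⟨a + b, Preadditive.add_comp ..⟩
    | hmk n y hy =>
      obtain ⟨x, hx, b, hb⟩ := h n y hy
      refine ⟨HT.mk x hx, ?_⟩
      change HT.mk x hx ≫ _ = _
      rw [HT.mk_comp_hom, eq_comm, HT.mk_eq_iff _ _ _ _ (n - 1) (by simp)]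
      exact ⟨b, by rw [← hb]; abel⟩

/-- A chain map of complexes of vector spaces is a quasi-isomorphism iff it is bijective on total
cohomology. -/
theorem HT.bijective_iff (φ : M ⟶ N) :
    (Function.Bijective fun x : HT (KG.of M) => x ≫ KG.hom k φ) ↔ QuasiIso φ := by
  rw [Function.Bijective, HT.injective_iff, HT.surjective_iff, quasiIso_iff]
  simp only [quasiIsoAt_iff_isIso_homologyMap]
  exact ⟨fun h n => by
    have := h.1 n
    have := h.2 n
    exact isIso_of_mono_of_epi _, fun h => ⟨fun n => by have := h n; infer_instance,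
      fun n => by have := h n; infer_instance⟩⟩

end P275S
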