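import Vale.Agent.P275S.Cls
import Vale.Agent.P275S.Soft

/-! Factoring through the canonical truncation. -/

open CategoryTheory TopologicalSpace Opposite Limits DerivedCategory Pretriangulated

noncomputable section

namespace P275S

section Gen

variable {C : Type*} [Category* C] [Abelian C] [HasDerivedCategory C]

theorem ThruH.comp {D : Type*} [Category D] {A K K' T : D} {a : A ⟶ K} {u : T ⟶ K}
    (h : ThruH a u) (g : K ⟶ K') : ThruH (a ≫ g) (u ≫ g) := by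
  obtain ⟨v, rfl⟩ := h
  exact ⟨v, by simp⟩

theorem ThruH.of_fac {D : Type*} [Category D] {A A' K T : D} {a : A ⟶ K} {a' : A' ⟶ K}
    {u : T ⟶ K} (h : ThruH a u) (h' : ThruH a' a) : ThruH a' u := by
  obtain ⟨v, rfl⟩ := h
  obtain ⟨w, rfl⟩ := h'
  exact ⟨v ≫ w, by simp⟩

theorem ThruH.pre {D : Type*} [Category D] {A K T T' : D} {a : A ⟶ K} {u : T ⟶ K}
    (h : ThruH a u) (g : T' ⟶ T) : ThruH a (g ≫ u) := by
  obtain ⟨v, rfl⟩ := h
  exact ⟨g ≫ v, by simp⟩

/-- `u` factors through the truncation `τ_{≤ j} K ⟶ K`. -/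
def TrLE (j : ℤ) {K T : DerivedCategory C} (u : T ⟶ K) : Prop :=
  ∃ v : T ⟶ (TStructure.t.truncLE j).obj K, v ≫ (TStructure.t.truncLEι j).app K = u

variable {j : ℤ} {A B K K' T T' : DerivedCategory C}

theorem trLE_of_isLE [A.IsLE j] (a : A ⟶ K) : TrLE j a :=
  ⟨TStructure.t.liftTruncLE a j, TStructure.t.liftTruncLE_ι a j⟩

theorem TrLE.pre {u : T ⟶ K} (h : TrLE j u) (g : T' ⟶ T) : TrLE j (g ≫ u) := ThruH.pre h g

theorem TrLE.of_thru [A.IsLE j] {a : A ⟶ K} {u : T ⟶ K} (h : ThruH a u) : TrLE j u := by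
  obtain ⟨v, rfl⟩ := h
  exact (trLE_of_isLE a).pre v

theorem TrLE.comp {u : T ⟶ K} (h : TrLE j u) (g : K ⟶ K') : TrLE j (u ≫ g) :=
  TrLE.of_thru (ThruH.comp h g)

theorem TrLE.zero {u : T ⟶ K} (h : TrLE j u) [B.IsGE (j + 1)] (g : K ⟶ B) : u ≫ g = 0 := by
  obtain ⟨v, rfl⟩ := h
  rw [Category.assoc, TStructure.t.zero ((TStructure.t.truncLEι j).app K ≫ g) j (j + 1), comp_zero]

theorem trLE_iff_zero (u : T ⟶ K) :
    TrLE j u ↔ u ≫ (TStructure.t.truncGTπ j).app K = 0 := by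
  refine ⟨fun h => h.zero (B := (TStructure.t.truncGT j).obj K) _, fun h => ?_⟩
  obtain ⟨v, hv⟩ := Triangle.coyoneda_exact₂ _ (TStructure.t.triangleLEGT_distinguished j K) u h
  exact ⟨v, hv.symm⟩

theorem trLE_iff_forall (u : T ⟶ K) : TrLE j u ↔
    ∀ (B : DerivedCategory C), B.IsGE (j + 1) → ∀ g : K ⟶ B, u ≫ g = 0 :=
  ⟨fun h _ _ g => h.zero g, fun h => (trLE_iff_zero u).2 (h _ inferInstance _)⟩

theorem trLE_iff_exists (u : T ⟶ K) : TrLE j u ↔
    ∃ (A : DerivedCategory C) (a : A ⟶ K), A.IsLE j ∧ ThruH a u :=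
  ⟨fun h => ⟨_, _, inferInstance, h⟩, fun ⟨_, _, _, h⟩ => TrLE.of_thru h⟩

theorem TrLE.mono {u : T ⟶ K} (h : TrLE j u) {j' : ℤ} (hj : j ≤ j') : TrLE j' u :=
  have := TStructure.t.isLE_truncLE_obj K j j' hj
  TrLE.of_thru (a := (TStructure.t.truncLEι j).app K) h

theorem trLE_zero : TrLE j (0 : T ⟶ K) := ⟨0, zero_comp⟩

theorem TrLE.add {u u' : T ⟶ K} (h : TrLE j u) (h' : TrLE j u') : TrLE j (u + u') := by
  obtain ⟨v, rfl⟩ := h
  obtain ⟨w, rfl⟩ := h'
  exact ⟨v + w, Preadditive.add_comp ..⟩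

theorem TrLE.neg {u : T ⟶ K} (h : TrLE j u) : TrLE j (-u) := by
  obtain ⟨v, rfl⟩ := h
  exact ⟨-v, Preadditive.neg_comp ..⟩

theorem TrLE.sub {u u' : T ⟶ K} (h : TrLE j u) (h' : TrLE j u') : TrLE j (u - u') := by
  rw [sub_eq_add_neg]
  exact h.add h'.neg

theorem trLE_of_tgt [K.IsLE j] (u : T ⟶ K) : TrLE j u :=
  TrLE.of_thru (a := 𝟙 K) ⟨u, Category.comp_id u⟩

theorem TrLE.eq_zero {u : T ⟶ K} (h : TrLE j u) [K.IsGE (j + 1)] : u = 0 := by
  simpa using h.zero (𝟙 K)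

theorem trLE_retract (u : T ⟶ K) {i : K ⟶ K'} {r : K' ⟶ K} (h : i ≫ r = 𝟙 K) :
    TrLE j (u ≫ i) ↔ TrLE j u :=
  ⟨fun h' => by simpa [h] using h'.comp r, fun h' => h'.comp i⟩

theorem trLE_iso (u : T ⟶ K) (g : K ⟶ K') [IsIso g] : TrLE j (u ≫ g) ↔ TrLE j u :=
  trLE_retract u (IsIso.hom_inv_id g)

theorem trLE_iso_left (u : T ⟶ K) (g : T' ⟶ T) [IsIso g] : TrLE j (g ≫ u) ↔ TrLE j u :=
  ⟨fun h => by simpa using h.pre (inv g), fun h => h.pre g⟩

/-- Any triangle with the truncation properties computes the same image. -/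
theorem trLE_iff_of_triangle {a : A ⟶ K} {b : K ⟶ B} {w : B ⟶ A⟦(1 : ℤ)⟧}
    (hT : Triangle.mk a b w ∈ distTriang (DerivedCategory C)) [A.IsLE j] [B.IsGE (j + 1)]
    (u : T ⟶ K) : TrLE j u ↔ ThruH a u := by
  refine ⟨fun h => ?_, TrLE.of_thru⟩
  obtain ⟨v, hv⟩ := Triangle.coyoneda_exact₂ _ hT u (h.zero b)
  exact ⟨v, hv.symm⟩

theorem isGE_of_triangle {a : A ⟶ K} {b : K ⟶ B} {w : B ⟶ A⟦(1 : ℤ)⟧}
    (hT : Triangle.mk a b w ∈ distTriang (DerivedCategory C)) (n : ℤ)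
    (h1 : ∀ m < n, Epi ((homologyFunctor C m).map a))
    (h2 : ∀ m ≤ n, Mono ((homologyFunctor C m).map a)) : B.IsGE n := by
  rw [DerivedCategory.isGE_iff]
  intro m hm
  have e1 := (HomologySequence.epi_homologyMap_mor₁_iff _ hT m).1 (h1 m hm)
  have e2 := (HomologySequence.epi_homologyMap_mor₂_iff _ hT m (m + 1)).2
    ((HomologySequence.mono_homologyMap_mor₁_iff _ hT m (m + 1)).1 (h2 _ (by omega)))
  exact @IsZero.of_epi_eq_zero _ _ _ _ _ _ e2 e1

/-- A map from an object in degrees `≤ j` that is an isomorphism on cohomology in degrees `≤ j`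
has the same image as the truncation. -/
theorem trLE_iff_of_isIso (a : A ⟶ K) [A.IsLE j]
    (h : ∀ m ≤ j, IsIso ((homologyFunctor C m).map a)) (u : T ⟶ K) : TrLE j u ↔ ThruH a u := by
  obtain ⟨B, b, w, hT⟩ := distinguished_cocone_triangle a
  have : B.IsGE (j + 1) := isGE_of_triangle hT (j + 1)
    (fun m hm => have := h m (by omega); inferInstance) fun m hm => by
      by_cases hj : m ≤ j
      · have := h m hj
        infer_instance
      · exact (isZero_of_isLE A j m (by omega)).mono _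
  exact trLE_iff_of_triangle hT u

/-- A map to an object in degrees `> j` that is an isomorphism on cohomology in degrees `> j` has
the image of the truncation as its kernel. -/
theorem trLE_iff_of_isIso' (b : K ⟶ B) [B.IsGE (j + 1)]
    (h : ∀ m, j < m → IsIso ((homologyFunctor C m).map b)) (u : T ⟶ K) :
    TrLE j u ↔ u ≫ b = 0 := by
  obtain ⟨A, a, w, hT⟩ := distinguished_cocone_triangle₁ b
  have : A.IsLE j := by
    rw [DerivedCategory.isLE_iff]
    intro m hm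
    have := h m hm
    have e1 := (HomologySequence.mono_homologyMap_mor₂_iff _ hT m).1
      (inferInstanceAs (Mono ((homologyFunctor C m).map b)))
    have e2 := (HomologySequence.mono_homologyMap_mor₁_iff _ hT (m - 1) m).2
      ((HomologySequence.epi_homologyMap_mor₂_iff _ hT (m - 1) m).1 (by
        by_cases hj : j < m - 1
        · have := h _ hj
          exact inferInstanceAs (Epi ((homologyFunctor C (m - 1)).map b))
        · exact (isZero_of_isGE B (j + 1) (m - 1) (by omega)).epi _))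
    exact @IsZero.of_mono_eq_zero _ _ _ _ _ _ e2 e1
  refine ⟨fun h' => h'.zero b, fun h' => ?_⟩
  obtain ⟨v, hv⟩ := Triangle.coyoneda_exact₂ _ hT u h'
  exact TrLE.of_thru (a := a) ⟨v, hv.symm⟩

theorem isIso_homologyFunctor_map {F G : CochainComplex C ℤ} (f : F ⟶ G) (m : ℤ)
    [IsIso (HomologicalComplex.homologyMap f m)] :
    IsIso ((homologyFunctor C m).map (Q.map f)) :=
  (NatIso.isIso_map_iff (homologyFunctorFactors C m) f).2
    (inferInstanceAs (IsIso (HomologicalComplex.homologyMap f m)))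

end Gen

variable {k : Type} [Field k] {X Y : TopCat.{0}} {F G W : Cx k X} {m j : ℤ}

theorem SoftC.clsOK [Nice X] (h : SoftC F) : ClsOK F := by
  obtain ⟨J, hJ, i, hi⟩ := exists_inj F h.1
  have := qis_gam h hJ.softC i ⊤
  exact hJ.clsOK.of_qis i

theorem FlqC.clsOK [Nice X] (h : FlqC F) : ClsOK F := h.softC.clsOK

/-- The direct image of a soft complex computes hypercohomology if it is soft or a direct image
of injectives; in general one has: -/
theorem SoftC.clsOK_push [Nice X] (h : SoftC F) (f : X ⟶ Y) : ClsOK ((pushC k f).obj F) := by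
  obtain ⟨J, hJ, i, hi⟩ := exists_inj F h.1
  have := qis_push f h hJ.softC i
  have : QuasiIso ((mapC (Gam k ⊤)).map ((pushC k f).map i)) := qis_gam h hJ.softC i ⊤
  exact (hJ.push f).clsOK.of_qis ((pushC k f).map i)

theorem thru_trunc_iff (c : sec (F.X m) ⊤) (hc : app (F.d m (m + 1)) ⊤ c = 0) :
    Thru ((TStructure.t.truncLEι j).app (Q.obj F)) c hc ↔ TrLE j (cls c hc) := Iff.rfl

/-- A subcomplex with the cohomology of the truncation. -/
theorem trunc_thruH (i : W ⟶ F) (h1 : ∀ n, j < n → ∀ x, ExAt W n x)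
    (h2 : ∀ n ≤ j, ∀ x, SurjAt i n x ∧ InjAt i n x) {T : Der k X} (u : T ⟶ Q.obj F) :
    TrLE j u ↔ ThruH (Q.map i) u := by
  have := (isLE_iff W j).2 h1
  refine trLE_iff_of_isIso _ (fun n hn => ?_) u
  have := (quasiIsoAt_iff_loc i n).2 (h2 n hn)
  exact isIso_homologyFunctor_map i n

theorem trunc_thru (i : W ⟶ F) (h1 : ∀ n, j < n → ∀ x, ExAt W n x)
    (h2 : ∀ n ≤ j, ∀ x, SurjAt i n x ∧ InjAt i n x) (c : sec (F.X m) ⊤)
    (hc : app (F.d m (m + 1)) ⊤ c = 0) : TrLE j (cls c hc) ↔ Thru (Q.map i) c hc :=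
  trunc_thruH i h1 h2 _

/-- A quotient complex with the cohomology of the upper truncation. -/
theorem trunc_zeroH (q : F ⟶ G) (h1 : ∀ n ≤ j, ∀ x, ExAt G n x)
    (h2 : ∀ n, j < n → ∀ x, SurjAt q n x ∧ InjAt q n x) {T : Der k X} (u : T ⟶ Q.obj F) :
    TrLE j u ↔ u ≫ Q.map q = 0 := by
  have := (isGE_iff G (j + 1)).2 fun n hn => h1 n (by omega)
  refine trLE_iff_of_isIso' _ (fun n hn => ?_) u
  have := (quasiIsoAt_iff_loc q n).2 (h2 n hn)
  exact isIso_homologyFunctor_map q n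

/-- Element form with a subcomplex. -/
theorem trLE_cls_iff (hW : ClsOK W) (hF : ClsOK F) (i : W ⟶ F)
    (h1 : ∀ n, j < n → ∀ x, ExAt W n x) (h2 : ∀ n ≤ j, ∀ x, SurjAt i n x ∧ InjAt i n x)
    (c : sec (F.X m) ⊤) (hc : app (F.d m (m + 1)) ⊤ c = 0) :
    TrLE j (cls c hc) ↔ ∃ w : sec (W.X m) ⊤, app (W.d m (m + 1)) ⊤ w = 0 ∧
      ∃ b : sec (F.X (m - 1)) ⊤, app (i.f m) ⊤ w + app (F.d (m - 1) m) ⊤ b = c :=
  (trunc_thru i h1 h2 c hc).trans (thru_map_iff hW hF i c hc)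

/-- Element form with a quotient complex. -/
theorem trLE_cls_iff' (hG : ClsOK G) (q : F ⟶ G) (h1 : ∀ n ≤ j, ∀ x, ExAt G n x)
    (h2 : ∀ n, j < n → ∀ x, SurjAt q n x ∧ InjAt q n x)
    (c : sec (F.X m) ⊤) (hc : app (F.d m (m + 1)) ⊤ c = 0) :
    TrLE j (cls c hc) ↔
      ∃ b : sec (G.X (m - 1)) ⊤, app (G.d (m - 1) m) ⊤ b = app (q.f m) ⊤ c := by
  rw [trunc_zeroH q h1 h2, cls_comp, hG.eq_zero_iff]

theorem trLE_cls_qis (g : F ⟶ G) [QuasiIso g] (c : sec (F.X m) ⊤)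
    (hc : app (F.d m (m + 1)) ⊤ c = 0) :
    TrLE j (cls (app (g.f m) ⊤ c) (cocy_map g hc)) ↔ TrLE j (cls c hc) := by
  rw [← cls_comp c hc, trLE_iso]

theorem trLE_cls_map (g : F ⟶ G) {c : sec (F.X m) ⊤} {hc : app (F.d m (m + 1)) ⊤ c = 0}
    (h : TrLE j (cls c hc)) : TrLE j (cls (app (g.f m) ⊤ c) (cocy_map g hc)) := by
  rw [← cls_comp c hc]
  exact h.comp _

theorem TrLE.smul {K T : Der k X} {u : T ⟶ K} (h : TrLE j u) (a : k) : TrLE j (a • u) := by
  obtain ⟨v, rfl⟩ := h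
  exact ⟨a • v, Linear.smul_comp ..⟩

/-- There are no classes of negative relative weight. -/
theorem TrLE.cls_eq_zero {c : sec (F.X m) ⊤} {hc : app (F.d m (m + 1)) ⊤ c = 0}
    (h : TrLE j (cls c hc)) [F.IsGE (j + 1)] : cls c hc = 0 := h.eq_zero

end P275S
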