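import Vale.Agent.P275S.Th
import Vale.Agent.P275Z.Th

/-! The two hypotheses of the cohomology theory of the skeleton. -/

namespace P275S

open Vale.Agent

theorem mv0 : P275Z.MV0 := th.mv

theorem lhpZ : P275Z.LHP := fun π L r e hp he h => by
  rw [P275Z.cq_eq]
  exact th.lh π L r e hp he h

theorem mv0_lhp : P275Z.MV0 ∧ P275Z.LHP := ⟨mv0, lhpZ⟩

end P275S
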