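import Vale.Agent.P275S.Sum
import Vale.Agent.P275S.Taut

/-! Proper base change to a point and the Leray-Hirsch theorem. -/

open CategoryTheory Limits TopologicalSpace CochainComplex CochainComplex.HomComplex

noncomputable section

set_option backward.isDefEq.respectTransparency false

namespace P275S

variable {k : Type} [Field k] {X X' Y Z F F' : TopCat.{0}}

theorem bij_congr {α β : Type*} {f g : α → β} (h : Function.Bijective f) (e : ∀ x, g x = f x) :
    Function.Bijective g := (funext e : g = f) ▸ h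

/-- Transport along an equality of structure maps. -/
def kc (k : Type) [Field k] {h h' : X ⟶ Y} (e : h = h') : K k h ⟶ K k h' :=
  eqToHom (congrArg (K k) e)

@[simp] theorem kc_rfl (h : X ⟶ Y) : kc k (rfl : h = h) = 𝟙 _ := rfl

theorem kc_mem {h h' : X ⟶ Y} (e : h = h') : kc k e ∈ KG.deg k _ _ 0 := by
  subst e
  exact KG.id_mem_deg _

instance {h h' : X ⟶ Y} (e : h = h') : IsIso (kc k e) := by
  unfold kc
  infer_instance

@[simp] theorem kc_kc {h h' h'' : X ⟶ Y} (e : h = h') (e' : h' = h'') :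
    kc k e ≫ kc k e' = kc k (e.trans e') := eqToHom_trans _ _

theorem mul_kc {h h' : X ⟶ Y} (e : h = h') (a : H k X) :
    mul h a ≫ kc k e = kc k e ≫ mul h' a := by
  subst e
  simp

theorem evK_kc {h h' : X ⟶ Y} (e : h = h') (a : H k X) : evK h a ≫ kc k e = evK h' a := by
  subst e
  simp

theorem act_kc {h h' : X ⟶ Y} (e : h = h') (a : H k X) : act (kc k e) a = a := by
  subst e
  exact act_id h a

/-- Pull-back along a map over the base. -/
def pullo (k : Type) [Field k] (f : X' ⟶ X) {h : X ⟶ Y} {h' : X' ⟶ Y} (e : f ≫ h = h') :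
    K k h ⟶ K k h' := pull k f h ≫ kc k e

theorem pullo_rfl (f : X' ⟶ X) (h : X ⟶ Y) : pullo k f (rfl : f ≫ h = f ≫ h) = pull k f h :=
  Category.comp_id _

theorem pullo_mem (f : X' ⟶ X) {h : X ⟶ Y} {h' : X' ⟶ Y} (e : f ≫ h = h') :
    pullo k f e ∈ KG.deg k _ _ 0 := KG.comp_mem_deg (add_zero 0) (pull_mem f h) (kc_mem e)

theorem pullo_id (h : X ⟶ Y) (e : 𝟙 X ≫ h = h) : pullo k (𝟙 X) e = 𝟙 (K k h) :=
  (pullo_rfl (𝟙 X) h).trans (pull_id h)

theorem pullo_comp {X'' : TopCat.{0}} (f' : X'' ⟶ X') (f : X' ⟶ X) {h : X ⟶ Y} {h' : X' ⟶ Y}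
    {h'' : X'' ⟶ Y} (e : f ≫ h = h') (e' : f' ≫ h' = h'') (e'' : (f' ≫ f) ≫ h = h'') :
    pullo k f e ≫ pullo k f' e' = pullo k (f' ≫ f) e'' := by
  subst e e'
  rw [pullo_rfl, pullo_rfl, pull_comp]
  exact (pullo_rfl (f' ≫ f) h).symm

theorem pullo_congr {f f' : X' ⟶ X} (ef : f = f') {h : X ⟶ Y} {h' : X' ⟶ Y} (e : f ≫ h = h')
    (e' : f' ≫ h = h') : pullo k f e = pullo k f' e' := by
  subst ef
  rfl

theorem pullo_mul (f : X' ⟶ X) {h : X ⟶ Y} {h' : X' ⟶ Y} (e : f ≫ h = h') (a : H k X) :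
    pullo k f e ≫ mul h' (pb f a) = mul h a ≫ pullo k f e := by
  subst e
  rw [pullo_rfl, pull_mul]

theorem evK_pullo (f : X' ⟶ X) {h : X ⟶ Y} {h' : X' ⟶ Y} (e : f ≫ h = h') (a : H k X) :
    evK h a ≫ pullo k f e = evK h' (pb f a) := by
  subst e
  rw [pullo_rfl, evK_pull]

theorem act_pullo (f : X' ⟶ X) {h : X ⟶ Y} {h' : X' ⟶ Y} (e : f ≫ h = h') (a : H k X) :
    act (pullo k f e) a = pb f a := by
  subst e
  rw [pullo_rfl, act_pull]

theorem pushK_K' (g : Y ⟶ Z) {h : X ⟶ Y} {h₁ : X ⟶ Z} (e : h ≫ g = h₁) :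
    (pushK k g).obj (K k h) = K k h₁ := (pushK_K h g).trans (congrArg (K k) e)

theorem eqToHom_mem {C : Type*} [Category C] [Preadditive C] [Linear k C] {A B : KG k C}
    (e : A = B) : eqToHom e ∈ KG.deg k A B 0 := by
  subst e
  exact KG.id_mem_deg _

/-- Direct image of an operator along a map of bases, with prescribed structure maps. -/
def pusho (g : Y ⟶ Z) {h : X ⟶ Y} {h' : X' ⟶ Y} {h₁ : X ⟶ Z} {h₁' : X' ⟶ Z} (e : h ≫ g = h₁)
    (e' : h' ≫ g = h₁') : (K k h ⟶ K k h') →ₗ[k] (K k h₁ ⟶ K k h₁') :=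
  Linear.leftComp k _ (eqToHom (pushK_K' g e).symm) ∘ₗ
    Linear.rightComp k _ (eqToHom (pushK_K' g e')) ∘ₗ (pushK k g).mapLinearMap k

section pusho

variable (g : Y ⟶ Z) {h : X ⟶ Y} {h' : X' ⟶ Y} {h₁ : X ⟶ Z} {h₁' : X' ⟶ Z}

theorem pusho_apply (e : h ≫ g = h₁) (e' : h' ≫ g = h₁') (φ : K k h ⟶ K k h') :
    pusho g e e' φ =
      eqToHom (pushK_K' g e).symm ≫ (pushK k g).map φ ≫ eqToHom (pushK_K' g e') := rfl

theorem pusho_heq (e : h ≫ g = h₁) (e' : h' ≫ g = h₁') (φ : K k h ⟶ K k h') :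
    pusho g e e' φ ≍ (pushK k g).map φ :=
  (conj_eqToHom_iff_heq' (pusho g e e' φ) ((pushK k g).map φ) (pushK_K' g e).symm
    (pushK_K' g e')).1 (pusho_apply g e e' φ)

theorem pusho_rfl (φ : K k h ⟶ K k h') :
    pusho g (rfl : h ≫ g = h ≫ g) (rfl : h' ≫ g = h' ≫ g) φ = (pushK k g).map φ :=
  eq_of_heq (pusho_heq g rfl rfl φ)

theorem pusho_comp {X'' : TopCat.{0}} {h'' : X'' ⟶ Y} {h₁'' : X'' ⟶ Z} (e : h ≫ g = h₁)
    (e' : h' ≫ g = h₁') (e'' : h'' ≫ g = h₁'') (φ : K k h ⟶ K k h') (ψ : K k h' ⟶ K k h'') :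
    pusho g e e'' (φ ≫ ψ) = pusho g e e' φ ≫ pusho g e' e'' ψ := by
  simp only [pusho_apply, Functor.map_comp, Category.assoc, eqToHom_trans_assoc, eqToHom_refl,
    Category.id_comp]

theorem pusho_id (e : h ≫ g = h₁) : pusho g e e (𝟙 (K k h)) = 𝟙 _ := by
  simp only [pusho_apply, CategoryTheory.Functor.map_id, Category.id_comp, eqToHom_trans,
    eqToHom_refl]

theorem pusho_mem (e : h ≫ g = h₁) (e' : h' ≫ g = h₁') {n : ℤ} {φ : K k h ⟶ K k h'}
    (hφ : φ ∈ KG.deg k _ _ n) : pusho g e e' φ ∈ KG.deg k _ _ n :=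
  KG.comp_mem_deg (zero_add n) (eqToHom_mem _)
    (KG.comp_mem_deg (add_zero n) (KG.map_mem_deg (push k g) hφ) (eqToHom_mem _))

theorem pusho_mul (e : h ≫ g = h₁) (a : H k X) : pusho g e e (mul h a) = mul h₁ a := by
  subst e
  exact eq_of_heq ((pusho_heq g rfl rfl (mul h a)).trans (heq_of_eq (push_mul h g a)))

theorem pusho_pullo (f : X' ⟶ X) (ef : f ≫ h = h') (e : h ≫ g = h₁) (e' : h' ≫ g = h₁')
    (ef' : f ≫ h₁ = h₁') : pusho g e e' (pullo k f ef) = pullo k f ef' := by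
  subst ef e e'
  rw [pullo_rfl]
  refine eq_of_heq ((pusho_heq g rfl rfl (pull k f h)).trans
    ((heq_of_eq (push_pull f h g)).trans ?_))
  exact (comp_eqToHom_heq (pull k f (h ≫ g)) (congrArg (K k) ef')).symm

theorem act_pusho (e : h ≫ g = h₁) (e' : h' ≫ g = h₁') (φ : K k h ⟶ K k h') (a : H k X) :
    act (pusho g e e' φ) a = act φ a := by
  subst e e'
  exact (congrArg (act · a) (pusho_rfl g φ)).trans (act_push g φ a)

/-- Direct image of operators as a homomorphism of algebras. -/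
def pushA (e : h ≫ g = h₁) : End (K k h) →ₐ[k] End (K k h₁) :=
  AlgHom.ofLinearMap (pusho g e e) (pusho_id g e) fun x y => pusho_comp g e e e y x

theorem pushA_apply (e : h ≫ g = h₁) (φ : End (K k h)) : pushA g e φ = pusho g e e φ := rfl

end pusho

/-- For a map with constant value `a`, germs at `a` are all the cohomology. -/
theorem germ_bijective (g : F ⟶ Y) (a : Y) (hg : ∀ y, g y = a) (A : KG k (Sh k F)) :
    Function.Bijective (germ a ((pushK k g).obj A)) := by
  refine evF_bijective _ _ _ fun n => ?_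
  have hU : ∀ U : Opens Y, a ∈ U → (⊤ : Opens F) ≤ (Opens.map g).obj U := fun U hU y _ => by
    change g y ∈ U
    rw [hg]
    exact hU
  constructor
  · refine (injective_iff_map_eq_zero (gm ((push k g).obj (A.c.X n)) (U := ⊤) (x := a)
      trivial)).2 fun s hs => ?_
    obtain ⟨V, hV, haV, h0⟩ := (gm_eq_zero _ _ s).1 hs
    have := congrArg (res (A.c.X n) (hU V haV)) h0
    rw [res_push, res_res, map_zero] at this
    exact (res_self (A.c.X n) le_rfl s).symm.trans this
  · intro z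
    obtain ⟨U, -, haU, s, rfl⟩ := exists_gm ((push k g).obj (A.c.X n)) z (W := ⊤) trivial
    refine ⟨res (A.c.X n) (hU U haU) s, ?_⟩
    refine (gm_res ((push k g).obj (A.c.X n)) (le_top : U ≤ ⊤) haU _).symm.trans (congrArg _ ?_)
    rw [res_push]
    exact (res_res (A.c.X n) _ _ s).trans (res_self _ le_rfl s)

/-- `i` is an embedding onto the fibre of `h` at `a`. -/
structure IsFib (i : F ⟶ X) (h : X ⟶ Y) (a : Y) : Prop where
  ind : Topology.IsInducing i
  mem : ∀ y, h (i y) = a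
  onto : ∀ x, h x = a → ∃ y, i y = x

/-- The fibre as a space. -/
def Fb (h : X ⟶ Y) (a : Y) : TopCat.{0} := TopCat.of (h ⁻¹' {a} : Set X)

/-- The inclusion of the fibre. -/
def fbι (h : X ⟶ Y) (a : Y) : Fb h a ⟶ X := TopCat.ofHom ⟨Subtype.val, continuous_subtype_val⟩

theorem isFib_fbι (h : X ⟶ Y) (a : Y) : IsFib (fbι h a) h a :=
  ⟨Topology.IsInducing.subtypeVal, fun y => y.2, fun x hx => ⟨⟨x, hx⟩, rfl⟩⟩

theorem germ_evK_bijective (g : F ⟶ Y) (a : Y) (hg : ∀ y, g y = a) :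
    Function.Bijective fun b : H k F => germ a (K k g) (evK g b) :=
  (germ_bijective g a hg (IK k F)).comp (evK g).bijective

theorem pull_stalk_bijective [Nice X] {i : F ⟶ X} {h : X ⟶ Y} {a : Y} (hh : IsProperMap h)
    (hi : IsFib i h a) :
    Function.Bijective fun v : HS (K k h) a => v ≫ (St k a).map (pull k i h) := by
  have := (qisAt_iff_HS _ a).1 (qisAt_push hh (softC_I k X) (injC_K i).softC (pullC k i)
    (a := a) fun x hx => by
      obtain ⟨y, rfl⟩ := hi.onto x hx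
      exact P275RS.qisAt_pullC hi.ind y)
  rw [pull_eq_hom]
  exact this

/-- The cohomology of a space mapping to the point `a` is the stalk at `a`. -/
def ptEq (g : F ⟶ Y) (a : Y) (hg : ∀ y, g y = a) : H k F ≃ₗ[k] HS (K k g) a :=
  LinearEquiv.ofBijective (germ a (K k g) ∘ₗ (evK g).toLinearMap) (germ_evK_bijective g a hg)

theorem ptEq_apply (g : F ⟶ Y) (a : Y) (hg : ∀ y, g y = a) (b : H k F) :
    ptEq g a hg b = germ a (K k g) (evK g b) := rfl

/-- Restriction from the stalk at `a` to a space over `a`. -/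
def rst (i : F ⟶ X) (h : X ⟶ Y) (a : Y) (hi : ∀ y, h (i y) = a) : HS (K k h) a →ₗ[k] H k F :=
  (ptEq (i ≫ h) a hi).symm.toLinearMap ∘ₗ Linear.rightComp k _ ((St k a).map (pull k i h))

section rst

variable (i : F ⟶ X) (h : X ⟶ Y) (a : Y) (hi : ∀ y, h (i y) = a)

theorem germ_rst (v : HS (K k h) a) :
    germ a (K k (i ≫ h)) (evK (i ≫ h) (rst i h a hi v)) = v ≫ (St k a).map (pull k i h) :=
  (ptEq (i ≫ h) a hi).apply_symm_apply _

theorem rst_eq {v : HS (K k h) a} {b : H k F}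
    (e : germ a (K k (i ≫ h)) (evK (i ≫ h) b) = v ≫ (St k a).map (pull k i h)) :
    rst i h a hi v = b :=
  (germ_evK_bijective (i ≫ h) a hi).1 ((germ_rst i h a hi v).trans e.symm)

theorem rst_germ (c : H k X) : rst i h a hi (germ a (K k h) (evK h c)) = pb i c :=
  rst_eq i h a hi (by rw [← germ_comp, evK_pull])

theorem rst_mul (c : H k X) (v : HS (K k h) a) :
    rst i h a hi (v ≫ (St k a).map (mul h c)) = pb i c * rst i h a hi v :=
  rst_eq i h a hi (by
    rw [← evK_mul, germ_comp, germ_rst, Category.assoc, Category.assoc, ← Functor.map_comp,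
      ← Functor.map_comp, pull_mul])

theorem rst_pr (n : ℤ) (v : HS (K k h) a) :
    rst i h a hi (KG.pr n v) = KG.pr n (rst i h a hi v) :=
  rst_eq i h a hi (by
    rw [evK_pr, germ_pr, germ_rst,
      KG.pr_comp_of_right (add_zero n) v (KG.map_mem_deg (Stk k a) (pull_mem i h))])

theorem rst_mem {n : ℤ} {v : HS (K k h) a} (hv : v ∈ KG.deg k _ _ n) :
    rst i h a hi v ∈ Hd k F n := by
  have := rst_pr i h a hi n v
  rw [KG.pr_of_mem hv] at this
  exact KG.mem_deg_iff_pr.2 this.symm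

/-- Compatibility of the restriction with pull-backs over the base. -/
theorem rst_pullo (f : X' ⟶ X) {h' : X' ⟶ Y} (e : f ≫ h = h') (i' : F' ⟶ X')
    (hi' : ∀ y, h' (i' y) = a) (j : F' ⟶ F) (ej : j ≫ i = i' ≫ f) (v : HS (K k h) a) :
    rst i' h' a hi' (v ≫ (St k a).map (pullo k f e)) = pb j (rst i h a hi v) := by
  subst e
  have e1 : j ≫ i ≫ h = i' ≫ f ≫ h := by rw [← Category.assoc, ej, Category.assoc]
  refine rst_eq i' _ a hi' ?_
  rw [← evK_pullo j e1, germ_comp, germ_rst, Category.assoc, Category.assoc, ← Functor.map_comp,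
    ← Functor.map_comp, ← pullo_rfl i h, ← pullo_rfl i' (f ≫ h),
    pullo_comp j i rfl e1 ((Category.assoc _ _ _).trans e1),
    pullo_comp i' f rfl rfl (Category.assoc _ _ _), pullo_congr ej]

end rst

theorem rst_bijective [Nice X] {i : F ⟶ X} {h : X ⟶ Y} {a : Y} (hh : IsProperMap h)
    (hi : IsFib i h a) : Function.Bijective (rst (k := k) i h a hi.mem) :=
  (ptEq (i ≫ h) a hi.mem).symm.bijective.comp (pull_stalk_bijective hh hi)

/-- Proper base change: the stalk of `Rh_* k` is the cohomology of the fibre. -/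
def fib [Nice X] {i : F ⟶ X} {h : X ⟶ Y} {a : Y} (hh : IsProperMap h) (hi : IsFib i h a) :
    HS (K k h) a ≃ₗ[k] H k F := LinearEquiv.ofBijective _ (rst_bijective hh hi)

theorem fib_apply [Nice X] {i : F ⟶ X} {h : X ⟶ Y} {a : Y} (hh : IsProperMap h)
    (hi : IsFib i h a) (v : HS (K k h) a) : fib hh hi v = rst i h a hi.mem v := rfl

theorem fib_mem_iff [Nice X] {i : F ⟶ X} {h : X ⟶ Y} {a : Y} (hh : IsProperMap h)
    (hi : IsFib i h a) {n : ℤ} {v : HS (K k h) a} :
    fib hh hi v ∈ Hd k F n ↔ v ∈ KG.deg k _ _ n := by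
  refine ⟨fun h' => KG.mem_deg_iff_pr.2 ((fib hh hi).injective ?_), rst_mem i h a hi.mem⟩
  exact (rst_pr i h a hi.mem n v).trans (KG.pr_of_mem h')

/-- The stalk cohomology of the constant sheaf. -/
theorem stalk_kk (x : X) : Function.Bijective fun r : k => r • germ x (kk k X) (𝟙 _) := by
  have e : germ x (kk k X) (𝟙 _) = _ := (congrArg _ gcl_one0.symm).trans (germ_gcl x _ d_one0)
  let E : (cstAt k X 0).X 0 ≅ cst k X :=
    HomologicalComplex.singleObjXSelf (ComplexShape.up ℤ) 0 (cst k X)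
  have hz : ∀ n, n ≠ 0 → ∀ z : ((mapC (Stk k x)).obj (cstAt k X 0)).X n, z = 0 := fun n hn z => by
    have : IsZero ((Stk k x).obj ((cstAt k X 0).X n)) := Functor.map_isZero _
      (HomologicalComplex.isZero_single_obj_X (ComplexShape.up ℤ) 0 (cst k X) n hn)
    exact (ModuleCat.isZero_iff_subsingleton.1 this).elim _ _
  rw [e]
  constructor
  · refine (injective_iff_map_eq_zero (LinearMap.toSpanSingleton k _ _)).2 fun r hr => ?_
    rw [LinearMap.toSpanSingleton_apply, ← HT.mk_smul, HT.mk_eq_zero_iff _ _ (-1) (by simp)] at hr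
    obtain ⟨b, hb⟩ := hr
    rw [hz (-1) (by simp) b, map_zero] at hb
    obtain ⟨V, hV, hx, h0⟩ := (gm_eq_zero _ (U := ⊤) (x := x) trivial (r • one0 k X)).1
      ((map_smul _ _ _).trans hb.symm)
    have h1 := congrArg (app E.hom V) h0
    rw [app_res, map_smul, map_zero] at h1
    have h2 : app E.hom ⊤ (one0 k X) = cstOne k ⊤ :=
      congrArg (fun g => app g ⊤ (cstOne k ⊤)) E.inv_hom_id
    rw [h2] at h1
    have h3 := congrArg (fun u : LocallyConstant V k => u ⟨x, hx⟩) h1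
    exact (mul_one r).symm.trans h3
  · intro v
    induction v using HT.ind (M := (mapC (Stk k x)).obj (cstAt k X 0)) with
    | h0 => exact ⟨0, zero_smul _ _⟩
    | hadd a b ha hb =>
      obtain ⟨r, rfl⟩ := ha
      obtain ⟨s, rfl⟩ := hb
      exact ⟨r + s, add_smul _ _ _⟩
    | hmk n c hc =>
      by_cases hn : n = 0
      · subst hn
        obtain ⟨U, -, hx, s, rfl⟩ := exists_gm ((cstAt k X 0).X 0) c (W := ⊤) trivial
        obtain ⟨V, hV, hxV, r, hr⟩ := exists_cst_eq (app E.hom U s) hx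
        refine ⟨r, (HT.mk_smul r _ _).symm.trans (HT.mk_congr ?_ _)⟩
        refine (map_smul (gm ((cstAt k X 0).X 0) (U := ⊤) (x := x) trivial) r
          (one0 k X)).symm.trans ?_
        refine (gm_res _ (le_top : V ≤ ⊤) hxV _).symm.trans
          (Eq.trans (congrArg _ ?_) (gm_res _ hV hxV s))
        have h1 := congrArg (app E.inv V) hr
        rw [← app_res, ← app_comp, E.hom_inv_id, app_id] at h1
        rw [h1, map_smul, map_smul, ← res_cstOne (le_top : V ≤ ⊤), app_res]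
        rfl
      · refine ⟨0, (zero_smul _ _).trans ?_⟩
        rw [HT.mk_congr (hz n hn c)]
        exact (HT.mk_zero n).symm

theorem stalk_IK (x : X) : Function.Bijective fun r : k => r • germ x (IK k X) (unit k X) := by
  have h1 := (qisAt_iff_HS (ιI k X) x).1 (qisAt_of_quasiIso _ x)
  have := h1.comp (stalk_kk (k := k) x)
  refine bij_congr this fun r => Eq.symm ?_
  change (r • germ x (kk k X) (𝟙 _)) ≫ (St k x).map (unit k X) = _
  rw [Linear.smul_comp, ← germ_comp, Category.id_comp]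

theorem stalk_K_id (x : X) :
    Function.Bijective fun r : k => r • germ x (K k (𝟙 X)) (uK k (𝟙 X)) := by
  rw [uK_id]
  exact stalk_IK x

/-- The Leray-Hirsch theorem over any base. -/
theorem lh [Nice Z] (p : Z ⟶ X) (hp : IsProperMap p) {ι : Type} [Fintype ι] (d : ι → ℤ)
    (c : ι → H k Z) (hc : ∀ i, c i ∈ Hd k Z (d i))
    (hf : ∀ x, ∃ (F : TopCat.{0}) (j : F ⟶ Z), IsFib j p x ∧
      Function.Bijective fun r : ι → k => ∑ i, r i • pb j (c i))
    {h : X ⟶ Y} {g : Z ⟶ Y} (e : p ≫ h = g) :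
    ∃ ψ : ι → (K k g ⟶ K k h), (∀ i, ψ i ∈ KG.deg k _ _ (-d i)) ∧
      (∀ i, (pullo k p e ≫ mul g (c i)) ≫ ψ i = 𝟙 _) ∧
      (∀ i j, i ≠ j → (pullo k p e ≫ mul g (c i)) ≫ ψ j = 0) ∧
      ∑ i, ψ i ≫ pullo k p e ≫ mul g (c i) = 𝟙 _ := by
  have e0 := Category.comp_id p
  obtain ⟨ψ, h0, h1, h2, h3⟩ := sum_iso (A := fun _ => K k (𝟙 X)) (fun _ => injC_K _) (injC_K p) d
    (fun i => pullo k p e0 ≫ mul p (c i))
    (fun i => KG.comp_mem_deg (zero_add _) (pullo_mem p e0) (mul_mem p (hc i))) fun x => by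
      obtain ⟨F, j, hj, hb⟩ := hf x
      rw [← Function.Bijective.of_comp_iff' (fib (k := k) hp hj).bijective,
        ← Function.Bijective.of_comp_iff _ (Function.Bijective.piMap fun _ : ι => stalk_K_id x)]
      refine bij_congr hb fun r => ?_
      simp only [Function.comp_apply, map_sum, Pi.map_apply, Linear.smul_comp, map_smul]
      refine Finset.sum_congr rfl fun i _ => congrArg (r i • ·) ?_
      rw [← germ_comp, ← Category.assoc, ← evK_one, evK_pullo, map_one, evK_mul, mul_one,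
        fib_apply, rst_germ]
  have e1 := Category.id_comp h
  have key : ∀ i, pusho h e1 e (pullo k p e0 ≫ mul p (c i)) = pullo k p e ≫ mul g (c i) :=
    fun i => by rw [pusho_comp h e1 e e, pusho_mul, pusho_pullo]
  refine ⟨fun i => pusho h e e1 (ψ i), fun i => pusho_mem h e e1 (h0 i),
    fun i => ?_, fun i j hij => ?_, ?_⟩
  · rw [← key, ← pusho_comp, h1, pusho_id]
  · rw [← key, ← pusho_comp, h2 i j hij, map_zero]
  · simp only [← key, ← pusho_comp]
    rw [← map_sum, h3, pusho_id]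

/-- The Leray-Hirsch theorem in cohomology. -/
theorem lh_H [Nice Z] (p : Z ⟶ X) (hp : IsProperMap p) {ι : Type} [Fintype ι] (d : ι → ℤ)
    (c : ι → H k Z) (hc : ∀ i, c i ∈ Hd k Z (d i))
    (hf : ∀ x, ∃ (F : TopCat.{0}) (j : F ⟶ Z), IsFib j p x ∧
      Function.Bijective fun r : ι → k => ∑ i, r i • pb j (c i)) :
    Function.Bijective fun a : ι → H k X => ∑ i, c i * pb p (a i) := by
  classical
  obtain ⟨ψ, -, h1, h2, h3⟩ := lh p hp d c hc hf (h := 𝟙 X) (g := p) (Category.comp_id p)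
  have key : ∀ i (a : H k X), act (pullo k p (Category.comp_id p) ≫ mul p (c i)) a =
      c i * pb p a := fun i a => by rw [act_comp, act_pullo, act_mul]
  refine Function.bijective_iff_has_inverse.2 ⟨fun b i => act (ψ i) b, fun a => funext fun i => ?_,
    fun b => ?_⟩
  · simp only [← key, map_sum, ← act_comp]
    rw [Finset.sum_eq_single i (fun j _ hj => by rw [h2 j i hj, map_zero, LinearMap.zero_apply])
      (fun h => (h (Finset.mem_univ _)).elim), h1, act_id]
  · simp only [← key, ← act_comp]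
    rw [← LinearMap.sum_apply, ← map_sum, h3, act_id]

/-- A proper map with acyclic fibres induces an isomorphism. -/
theorem isIso_pullo [Nice Z] (p : Z ⟶ X) (hp : IsProperMap p)
    (hf : ∀ x, ∃ (F : TopCat.{0}) (j : F ⟶ Z), IsFib j p x ∧
      Function.Bijective fun r : k => r • (1 : H k F))
    {h : X ⟶ Y} {g : Z ⟶ Y} (e : p ≫ h = g) : IsIso (pullo k p e) := by
  obtain ⟨ψ, -, h1, -, h3⟩ := lh p hp (ι := Unit) (fun _ => 0) (fun _ => (1 : H k Z))
    (fun _ => one_mem_Hd) (fun x => by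
      obtain ⟨F, j, hj, hb⟩ := hf x
      refine ⟨F, j, hj, ?_⟩
      refine bij_congr (hb.comp (Equiv.funUnique Unit k).bijective) fun r => ?_
      rw [Fintype.sum_unique, map_one]
      rfl) e
  have h4 : pullo k p e ≫ mul g (1 : H k Z) = pullo k p e := by
    rw [map_one]
    exact Category.comp_id _
  rw [h4] at h3
  refine ⟨ψ (), ?_, by simpa using h3⟩
  rw [← h1 (), h4]

end P275S
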