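import Vale.Agent.P275S.Taut
import Vale.Agent.P275S.HC

/-! Finiteness of the cohomology of compact spaces (Wilder), homogeneous bases. -/

open CategoryTheory Limits TopologicalSpace Topology Set
open Vale.Agent

noncomputable section

set_option backward.isDefEq.respectTransparency false

namespace P275S

variable {k : Type} [Field k]

section lin

variable {M N : Type} [AddCommGroup M] [Module k M] [AddCommGroup N] [Module k N]
  {Z Z' B B' : Submodule k M}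

/-- The image of `Z` in `M / B` is finite dimensional. -/
def Fc (Z B : Submodule k M) : Prop := (Z.map B.mkQ).FG

theorem exists_fg_of_map (f : M →ₗ[k] N) (h : (Z.map f).FG) :
    ∃ T : Submodule k M, T.FG ∧ T ≤ Z ∧ ∀ s ∈ Z, ∃ t ∈ T, f t = f s := by
  obtain ⟨n, v, hv⟩ := Submodule.fg_iff_exists_fin_generating_family.1 h
  choose z hz e using fun i => (hv ▸ Submodule.subset_span (mem_range_self i) : v i ∈ Z.map f)
  refine ⟨Submodule.span k (range z), Submodule.fg_span (finite_range z),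
    Submodule.span_le.2 (range_subset_iff.2 hz), fun s hs => ?_⟩
  have : f s ∈ (Submodule.span k (range z)).map f := by
    rw [Submodule.map_span, ← range_comp, show f ∘ z = v from funext e, hv]
    exact ⟨s, hs, rfl⟩
  exact this

theorem fc_of_le {T : Submodule k M} (hT : T.FG) (h : ∀ s ∈ Z, ∃ t ∈ T, s - t ∈ B) : Fc Z B :=
  (hT.map B.mkQ).of_le (by
    rintro _ ⟨s, hs, rfl⟩
    obtain ⟨t, ht, e⟩ := h s hs
    exact ⟨t, ht, ((Submodule.Quotient.eq B).2 e).symm⟩)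

theorem Fc.exists (h : Fc Z B) :
    ∃ T : Submodule k M, T.FG ∧ T ≤ Z ∧ ∀ s ∈ Z, ∃ t ∈ T, s - t ∈ B := by
  obtain ⟨T, a, b, c⟩ := exists_fg_of_map _ h
  exact ⟨T, a, b, fun s hs => (c s hs).imp fun t ht =>
    ⟨ht.1, (Submodule.Quotient.eq B).1 ht.2.symm⟩⟩

theorem fc_of_map (f : M →ₗ[k] N) (h : (Z.map f).FG) (hk : ∀ s ∈ Z, f s = 0 → s ∈ B) :
    Fc Z B := by
  obtain ⟨T, a, b, c⟩ := exists_fg_of_map f h
  exact fc_of_le a fun s hs => (c s hs).imp fun t ht =>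
    ⟨ht.1, hk _ (sub_mem hs (b ht.1)) (by rw [map_sub, ht.2, sub_self])⟩

theorem Fc.mono (h : Fc Z B) (hZ : Z' ≤ Z) (hB : B ≤ B') : Fc Z' B' := by
  obtain ⟨T, a, -, c⟩ := h.exists
  exact fc_of_le a fun s hs => (c s (hZ hs)).imp fun t ht => ⟨ht.1, hB ht.2⟩

theorem Fc.inf (h : Fc Z B) (h' : Fc Z B') : Fc Z (B ⊓ B') :=
  fc_of_map (B.mkQ.prod B'.mkQ) ((Submodule.FG.prod h h').of_le (by
    rintro _ ⟨s, hs, rfl⟩
    exact ⟨⟨s, hs, rfl⟩, s, hs, rfl⟩)) fun s _ e =>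
    ⟨(Submodule.Quotient.mk_eq_zero B).1 (congrArg Prod.fst e),
      (Submodule.Quotient.mk_eq_zero B').1 (congrArg Prod.snd e)⟩

theorem Fc.trans (h : Fc Z B') (h' : Fc (Z ⊓ B') B) : Fc Z B := by
  obtain ⟨T, a, b, c⟩ := h.exists
  obtain ⟨T', a', -, c'⟩ := h'.exists
  refine fc_of_le (a.sup a') fun s hs => ?_
  obtain ⟨t, ht, e⟩ := c s hs
  obtain ⟨t', ht', e'⟩ := c' (s - t) ⟨sub_mem hs (b ht), e⟩
  exact ⟨t + t', Submodule.add_mem_sup ht ht', by rwa [← sub_sub]⟩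

theorem Fc.rel {W D : Submodule k N} (h : Fc W D) (P : Submodule k (M × N))
    (h₁ : ∀ s ∈ Z, ∃ w, (s, w) ∈ P) (h₂ : ∀ z ∈ P, z.2 ∈ W) (h₃ : ∀ z ∈ P, z.2 ∈ D → z.1 ∈ B) :
    Fc Z B := by
  obtain ⟨T, a, -, c⟩ := (fc_of_map (Z := P) (B := B.comap (LinearMap.fst k M N))
    (D.mkQ ∘ₗ LinearMap.snd k M N) (Submodule.FG.of_le h (by
      rintro _ ⟨z, hz, rfl⟩
      exact ⟨z.2, h₂ z hz, rfl⟩))
    fun z hz e => h₃ z hz ((Submodule.Quotient.mk_eq_zero D).1 e)).exists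
  refine fc_of_le (a.map (LinearMap.fst k M N)) fun s hs => ?_
  obtain ⟨w, hw⟩ := h₁ s hs
  obtain ⟨t, ht, e⟩ := c _ hw
  exact ⟨t.1, ⟨t, ht, rfl⟩, e⟩

theorem exists_hbasis (D : ℤ → Submodule k M) (pr : ℤ → M →ₗ[k] M) (h₁ : ∀ n a, pr n a ∈ D n)
    (h₂ : ∀ n, ∀ a ∈ D n, pr n a = a) (h₃ : ∀ n m, ∀ a ∈ D n, n ≠ m → pr m a = 0)
    (h₄ : ∀ a b, (∀ n, pr n a = pr n b) → a = b) (h : ∀ n, (D n).FG) (s : Finset ℤ)
    (hs : ∀ n ∉ s, D n = ⊥) : ∃ (ι : Type) (_ : Fintype ι) (d : ι → ℤ) (c : ι → M),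
      (∀ i, c i ∈ D (d i)) ∧ Function.Bijective fun r : ι → k => ∑ i, r i • c i := by
  classical
  have : ∀ n, Module.Finite k (D n) := fun n => Module.Finite.iff_fg.2 (h n)
  let b := fun n : s => Module.finBasis k (D n)
  have key : ∀ (v : ∀ n : s, D n) (m : s), pr m.1 (∑ n, (v n).1) = (v m).1 := fun v m => by
    rw [map_sum, Finset.sum_eq_single m (fun n _ hn => h₃ _ _ _ (v n).2
      fun e => hn (Subtype.ext e)) fun e => (e (Finset.mem_univ _)).elim]
    exact h₂ _ _ (v m).2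
  have e : ∀ r : (Σ n : s, Fin (Module.finrank k (D n))) → k,
      ∑ i, r i • (b i.1 i.2).1 = ∑ n : s, ((b n).equivFun.symm fun j => r ⟨n, j⟩).1 := fun r => by
    rw [Fintype.sum_sigma]
    refine Finset.sum_congr rfl fun n _ => ?_
    rw [Module.Basis.equivFun_symm_apply, Submodule.coe_sum]
    rfl
  refine ⟨Σ n : s, Fin (Module.finrank k (D n)), inferInstance, fun i => i.1.1,
    fun i => (b i.1 i.2).1, fun i => (b i.1 i.2).2, fun r r' hr => ?_, fun a => ?_⟩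
  · funext i
    have := congrArg (pr i.1.1) ((e r).symm.trans (hr.trans (e r')))
    rw [key, key] at this
    exact congrFun ((b i.1).equivFun.symm.injective (Subtype.ext this)) i.2
  · refine ⟨fun i => (b i.1).equivFun ⟨pr i.1.1 a, h₁ _ a⟩ i.2, (e _).trans (h₄ _ _ fun m => ?_)⟩
    rw [Finset.sum_congr rfl fun n _ => congrArg Subtype.val
      ((b n).equivFun.symm_apply_apply ⟨pr n.1 a, h₁ _ a⟩)]
    by_cases hm : m ∈ s
    · exact key (fun n => ⟨pr n.1 a, h₁ _ a⟩) ⟨m, hm⟩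
    · rw [(Submodule.eq_bot_iff _).1 (hs m hm) _ (h₁ m a), map_sum]
      exact Finset.sum_eq_zero fun n _ => h₃ _ _ _ (h₁ _ a) fun e => hm (e ▸ n.2)

end lin

variable {X Y : TopCat.{0}} {F : Cx k X} {C C' D D' : Set X} {i j l : ℤ}

/-- Cocycles near `C`. -/
def Zc (F : Cx k X) (C : Set X) (j l : ℤ) : Submodule k (sec (F.X j) ⊤) :=
  (Nv (F.X l) C).comap (app (F.d j l) ⊤)

/-- Coboundaries near `C`. -/
def Bc (F : Cx k X) (C : Set X) (i j : ℤ) : Submodule k (sec (F.X j) ⊤) :=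
  LinearMap.range (app (F.d i j) ⊤) ⊔ Nv (F.X j) C

theorem mem_Bc {s : sec (F.X j) ⊤} :
    s ∈ Bc F C i j ↔ ∃ t, s - app (F.d i j) ⊤ t ∈ Nv (F.X j) C := by
  constructor
  · intro h
    obtain ⟨_, ⟨t, rfl⟩, b, hb, rfl⟩ := Submodule.mem_sup.1 h
    exact ⟨t, by rwa [add_sub_cancel_left]⟩
  · rintro ⟨t, h⟩
    exact Submodule.mem_sup.2 ⟨_, ⟨t, rfl⟩, _, h, add_sub_cancel _ _⟩

/-- The restriction from `C'` to `C` has finite rank on the cohomology of degree `j`. -/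
def FR (F : Cx k X) (C' C : Set X) (j : ℤ) : Prop :=
  ∀ i l, i + 1 = j → j + 1 = l → Fc (Zc F C' j l) (Bc F C i j)

theorem FR.mono (h : FR F C' C j) (h₁ : C' ⊆ D') (h₂ : D ⊆ C) : FR F D' D j :=
  fun i l hi hl => (h i l hi hl).mono (fun _ hs => Nv_anti h₁ hs)
    (sup_le_sup_left (fun _ hs => Nv_anti h₂ hs) _)

theorem fr_empty : FR F C' ∅ j := fun _ _ _ _ =>
  fc_of_le Submodule.fg_bot fun _ _ => ⟨0, zero_mem _, mem_Bc.2 ⟨0, mem_Nv_empty _⟩⟩

theorem fr_of_van (h : Van (𝟙 F) ∅ C j) : FR F C C j := fun i l hi hl =>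
  fc_of_le Submodule.fg_bot fun s hs => ⟨0, zero_mem _, by
    obtain ⟨t, -, e⟩ := h.flex hi hl (s := s) (by simp) hs
    rw [← neg_mem_iff, neg_sub] at e
    exact mem_Bc.2 ⟨t, by rwa [sub_zero]⟩⟩

theorem fr_union [Nice X] (hF : SoftC F) {E E' : Set X} (hE : IsCompact E) (hE' : IsCompact E')
    (a : E ⊆ D) (a' : E' ⊆ D') (h₀ : FR F (D ∩ D') (E ∩ E') (j - 1)) (h : FR F C D j)
    (h' : FR F C D' j) : FR F C (E ∪ E') j := by
  intro i l hi hl
  obtain rfl : i = j - 1 := by omega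
  refine ((h _ l hi hl).inf (h' _ l hi hl)).trans ((h₀ (j - 1 - 1) j (by omega) hi).rel
    { carrier := {z | ∃ t t', z.1 - app (F.d (j - 1) j) ⊤ t ∈ Nv _ D ∧
        z.1 - app (F.d (j - 1) j) ⊤ t' ∈ Nv _ D' ∧ z.2 = t - t'}
      zero_mem' := ⟨0, 0, by simp, by simp, by simp⟩
      add_mem' := ?_
      smul_mem' := ?_ } ?_ ?_ ?_)
  · rintro z z' ⟨t, u, b, c, e⟩ ⟨t', u', b', c', e'⟩
    refine ⟨t + t', u + u', ?_, ?_, by rw [Prod.snd_add, e, e']; abel⟩
    · rw [Prod.fst_add, map_add, add_sub_add_comm]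
      exact add_mem b b'
    · rw [Prod.fst_add, map_add, add_sub_add_comm]
      exact add_mem c c'
  · rintro r z ⟨t, u, b, c, e⟩
    refine ⟨r • t, r • u, ?_, ?_, by rw [Prod.smul_snd, e, smul_sub]⟩
    · rw [Prod.smul_fst, map_smul, ← smul_sub]
      exact Submodule.smul_mem _ r b
    · rw [Prod.smul_fst, map_smul, ← smul_sub]
      exact Submodule.smul_mem _ r c
  · rintro s ⟨-, b, c⟩
    obtain ⟨t, b⟩ := mem_Bc.1 b
    obtain ⟨u, c⟩ := mem_Bc.1 c
    exact ⟨t - u, t, u, b, c, rfl⟩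
  · rintro ⟨s, _⟩ ⟨t, u, b, c, rfl⟩
    have := sub_mem (Nv_anti inter_subset_right c) (Nv_anti (inter_subset_left (t := D')) b)
    rwa [sub_sub_sub_cancel_left, ← map_sub] at this
  · rintro ⟨s, _⟩ ⟨t, u, b, c, rfl⟩ hw
    obtain ⟨w, hw⟩ := mem_Bc.1 hw
    obtain ⟨v, hv, v', hv', e⟩ := (csoft_iff.1 (hF.2 _)).spl E E' hE hE' _ (mem_Nv_iff.1 hw)
    refine mem_Bc.2 ⟨t - v, mem_Nv_union.2 ⟨?_, ?_⟩⟩
    · have := add_mem (Nv_anti a b) (app_mem_Nv (F.d (j - 1) j) (mem_Nv_iff.2 hv))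
      rwa [map_sub, ← sub_add]
    · have := sub_mem (Nv_anti a' c) (app_mem_Nv (F.d (j - 1) j) (mem_Nv_iff.2 hv'))
      have e' : t - v = u + app (F.d (j - 1 - 1) (j - 1)) ⊤ w + v' := by
        rw [eq_sub_of_add_eq' e.symm]
        dsimp only
        abel
      rwa [e', map_add, map_add, app_d_d, add_zero, ← sub_sub]

/-- **Wilder's finiteness theorem.** -/
theorem wilder [Nice X] (hF : SoftC F)
    (h : ∀ x, ∀ U ∈ 𝓝 x, ∀ j, ∃ D ∈ 𝓝 x, FR F U D j) (j : ℤ) :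
    ∀ C C' : Set X, IsCompact C → C ⊆ interior C' → FR F C' C j := by
  obtain ⟨a, ha⟩ := hF.low
  have z : ∀ j < a, ∀ C C', FR F C' C j := fun j hj C C' i l _ _ =>
    fc_of_le Submodule.fg_bot fun s _ => ⟨0, zero_mem _, by rw [ha j hj ⊤ (_ - _)]; simp⟩
  rcases lt_or_ge j a with hj | hj
  · exact fun C C' _ _ => z j hj C C'
  obtain ⟨m, rfl⟩ : ∃ m : ℕ, j = a - 1 + m := ⟨(j - (a - 1)).toNat, by omega⟩
  clear hj
  induction m with
  | zero => exact fun C C' _ _ => z _ (by simp) C C'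
  | succ m ih =>
    intro C C' hC hC'
    have : ∃ E D, IsCompact E ∧ C ⊆ E ∧ E ⊆ interior D ∧ FR F C' D (a - 1 + (m + 1 : ℕ)) := by
      refine hC.induction_on (p := fun T => ∃ E D, IsCompact E ∧ T ⊆ E ∧ E ⊆ interior D ∧
        FR F C' D (a - 1 + (m + 1 : ℕ))) ⟨∅, ∅, isCompact_empty, Subset.rfl, empty_subset _,
          fr_empty⟩ (fun T T' b ⟨E, D, c, d, e⟩ => ⟨E, D, c, b.trans d, e⟩) ?_ ?_
      · rintro T T' ⟨E, D, c, d, e, f⟩ ⟨E', D', c', d', e', f'⟩
        obtain ⟨L, l1, l2, l3⟩ := exists_compact_between c isOpen_interior e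
        obtain ⟨L', m1, m2, m3⟩ := exists_compact_between c' isOpen_interior e'
        refine ⟨E ∪ E', L ∪ L', c.union c', union_subset_union d d', union_subset
          (l2.trans (interior_mono subset_union_left))
          (m2.trans (interior_mono subset_union_right)), fr_union hF l1 m1
          (l3.trans interior_subset) (m3.trans interior_subset) ?_ f f'⟩
        rw [show a - 1 + (m + 1 : ℕ) - 1 = a - 1 + m by push_cast; ring]
        exact ih _ _ (l1.inter m1) (by rw [interior_inter]; exact inter_subset_inter l3 m3)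
      · intro x hx
        obtain ⟨D, d, e⟩ := h x C' (mem_interior_iff_mem_nhds.1 (hC' hx)) (a - 1 + (m + 1 : ℕ))
        obtain ⟨E, b1, b2, b3⟩ := exists_compact_subset isOpen_interior
          (mem_interior_iff_mem_nhds.2 d)
        exact ⟨E, mem_nhdsWithin_of_mem_nhds (mem_interior_iff_mem_nhds.1 b2), E, D, b1,
          Subset.rfl, b3, e⟩
    obtain ⟨E, D, -, d, e, f⟩ := this
    exact f.mono Subset.rfl (d.trans (e.trans interior_subset))

theorem fr_of_acy [Nice X] {D : Set X} (h : Ab.Acy (dG (I k X)) (gG (I k X)) D) (j : ℤ) :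
    FR (I k X) D D j := by
  rcases lt_trichotomy j 0 with hj | rfl | hj
  · exact fr_of_van (vn_iff_van.1 ((res_I k X).vn_neg hj))
  · rintro i _ - rfl
    refine fc_of_le (Submodule.fg_span_singleton (eI k X)) fun s hs => ?_
    obtain ⟨a, ha⟩ := (res_I k X).zero_conn h.1 (s := s) (mem_Nv_iff.1 hs)
    exact ⟨a • eI k X, Submodule.smul_mem _ a (Submodule.mem_span_singleton_self _),
      Submodule.mem_sup_right (mem_Nv_iff.2 ha)⟩
  · exact fr_of_van (vn_iff_van.1 (h.2 j hj))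

theorem fg_Hd_of_fr {n : ℤ} (h : FR (I k X) univ univ n) : (Hd k X n).FG := by
  obtain ⟨T, a, b, c⟩ := (h (n - 1) (n + 1) (by omega) rfl).exists
  let f : T →ₗ[k] H k X :=
    { toFun := fun t => hc t.1 (mem_Nv_univ.1 (b t.2))
      map_add' := fun _ _ => hc_add _ _ _ _
      map_smul' := fun r _ => hc_smul r _ _ }
  have : Module.Finite k T := Module.Finite.iff_fg.2 a
  refine (Module.Finite.fg_top.map f).of_le fun x hx => ?_
  obtain ⟨s, hs, rfl⟩ := exists_hc hx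
  obtain ⟨t, ht, e⟩ := c s (mem_Nv_univ.2 hs)
  obtain ⟨u, hu⟩ := mem_Bc.1 e
  exact ⟨⟨t, ht⟩, trivial, ((hc_eq_iff _ _ _ _ (n - 1) (by omega)).2
    ⟨u, (sub_eq_zero.1 (mem_Nv_univ.1 hu)).symm⟩).symm⟩

/-- Every point has small acyclic neighbourhoods. -/
def LocAcy (k : Type) [Field k] (X : TopCat.{0}) : Prop :=
  ∀ x : X, ∀ U ∈ 𝓝 x, ∃ D ∈ 𝓝 x, D ⊆ U ∧ Ab.Acy (dG (I k X)) (gG (I k X)) D

theorem LocAcy.fr [Nice X] (h : LocAcy k X) (j : ℤ) {C C' : Set X} (hC : IsCompact C)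
    (hC' : C ⊆ interior C') : FR (I k X) C' C j :=
  wilder (softC_I k X) (fun x U hU j => by
    obtain ⟨D, a, b, c⟩ := h x U hU
    exact ⟨D, a, (fr_of_acy c j).mono b Subset.rfl⟩) j C C' hC hC'

theorem LocAcy.fg [Nice X] [CompactSpace X] (h : LocAcy k X) (n : ℤ) : (Hd k X n).FG :=
  fg_Hd_of_fr (h.fr n isCompact_univ (by simp))

/-- Topological manifolds are locally acyclic. -/
theorem locAcy_of_chart [Nice X] (E : Type) [NormedAddCommGroup E] [NormedSpace ℝ E]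
    [FiniteDimensional ℝ E] [ChartedSpace E X] : LocAcy k X := by
  intro x U hU
  let e := chartAt E x
  have hx : x ∈ e.source := mem_chart_source E x
  obtain ⟨r, hr, h⟩ := Metric.nhds_basis_closedBall.mem_iff.1 (Filter.inter_mem
    (e.open_target.mem_nhds (e.map_source hx))
    ((e.continuousAt_symm (e.map_source hx)).preimage_mem_nhds (by rwa [e.left_inv hx])))
  let L := (Module.finBasis ℝ E).equivFunL
  have s1 : e.symm '' Metric.closedBall (e x) r ⊆ e.source := by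
    rintro _ ⟨y, hy, rfl⟩
    exact e.map_target (h hy).1
  have : ProperSpace E := FiniteDimensional.proper_real E
  refine ⟨e.symm '' Metric.closedBall (e x) r, ?_, ?_, (res_I k X).acy_convex _
    ((isCompact_closedBall _ _).image_of_continuousOn (e.continuousOn_symm.mono
      fun y hy => (h hy).1)) (fun y => L (e y))
    (L.continuous.comp_continuousOn (e.continuousOn.mono s1))
    (L.injective.comp_injOn (e.injOn.mono s1)) ?_⟩
  · have := e.symm.image_mem_nhds (e.map_source hx) (Metric.closedBall_mem_nhds (e x) hr)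
    rwa [e.left_inv hx] at this
  · rintro _ ⟨y, hy, rfl⟩
    exact (h hy).2
  · rw [image_image, image_congr fun y hy => congrArg L (e.right_inv (h hy).1)]
    exact (convex_closedBall _ _).linear_image L.toLinearEquiv.toLinearMap

/-- `c` is a finite homogeneous basis of the cohomology of `X`. -/
structure Bas {ι : Type} [Fintype ι] (d : ι → ℤ) (c : ι → H k X) : Prop where
  mem : ∀ i, c i ∈ Hd k X (d i)
  bij : Function.Bijective fun r : ι → k => ∑ i, r i • c i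

/-- The cohomology of `X` is finite dimensional. -/
def Fd (k : Type) [Field k] (X : TopCat.{0}) : Prop :=
  ∃ (ι : Type) (_ : Fintype ι) (d : ι → ℤ) (c : ι → H k X), Bas d c

theorem fd_of_fg (h : ∀ n, (Hd k X n).FG) {N : ℤ} (hN : ∀ n, N < n → Hd k X n = ⊥) : Fd k X := by
  obtain ⟨ι, _, d, c, a, b⟩ := exists_hbasis (Hd k X) KG.pr KG.pr_mem_deg
    (fun _ _ => KG.pr_of_mem) (fun _ _ _ => KG.pr_of_ne) (fun _ _ => KG.ext_pr) h (Finset.Icc 0 N)
    fun m hm => by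
      rw [Finset.mem_Icc, not_and_or] at hm
      exact hm.elim (fun h => Hd_neg (by omega)) fun h => hN m (by omega)
  exact ⟨ι, _, d, c, a, b⟩

/-- Compact manifolds have finite dimensional cohomology. -/
theorem fd_of_chart [Nice X] [CompactSpace X] (E : Type) [NormedAddCommGroup E] [NormedSpace ℝ E]
    [FiniteDimensional ℝ E] [ChartedSpace E X] {N : ℤ} (hN : ∀ n, N < n → Hd k X n = ⊥) :
    Fd k X := fd_of_fg (locAcy_of_chart E).fg hN

end P275S
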