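import Vale.Agent.P275S.Htpy
import Vale.Agent.P275S.FinD
import Vale.Agent.P275LO.LH

/-! Leray-Hirsch splittings over a base, the theorem of Kuenneth, slant products. -/

open CategoryTheory Limits TopologicalSpace Topology Set
open Vale.Agent

noncomputable section

set_option backward.isDefEq.respectTransparency false

namespace P275S

variable {k : Type} [Field k] {X X' Y Y' Z Z' C C' : TopCat.{0}}

/-- The direct image of a morphism `Rp_* k ⟶ k`. -/
def downR {p : Z ⟶ X} (u : K k p ⟶ IK k X) (h : X ⟶ Y) : K k (p ≫ h) ⟶ K k h := (pushK k h).map u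

/-- A morphism `Rp_* k ⟶ k` pushed to the base `Y`. -/
def down {p : Z ⟶ X} (u : K k p ⟶ IK k X) (h : X ⟶ Y) (g : Z ⟶ Y) (e : p ≫ h = g) :
    K k g ⟶ K k h := eqToHom (congrArg (K k) e).symm ≫ downR u h

theorem down_rfl {p : Z ⟶ X} (u : K k p ⟶ IK k X) (h : X ⟶ Y) :
    down u h (p ≫ h) rfl = downR u h := Category.id_comp _

theorem down_id {p : Z ⟶ X} (u : K k p ⟶ IK k X) : down u (𝟙 X) p (Category.comp_id p) = u :=
  (down_rfl u (𝟙 X)).trans (pushK_id u)

theorem downR_mem {p : Z ⟶ X} {u : K k p ⟶ IK k X} {n : ℤ} (hu : u ∈ KG.deg k _ _ n)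
    (h : X ⟶ Y) : downR u h ∈ KG.deg k (K k (p ≫ h)) (K k h) n :=
  let ⟨z, hz⟩ := KG.map_mem_deg (push k h) hu
  ⟨z, hz⟩

theorem down_mem {p : Z ⟶ X} {u : K k p ⟶ IK k X} {n : ℤ} (hu : u ∈ KG.deg k _ _ n) (h : X ⟶ Y)
    (g : Z ⟶ Y) (e : p ≫ h = g) : down u h g e ∈ KG.deg k _ _ n := by
  subst e
  rw [down_rfl]
  exact downR_mem hu h

theorem push_down {p : Z ⟶ X} (u : K k p ⟶ IK k X) (h : X ⟶ Y) (g : Z ⟶ Y) (e : p ≫ h = g)
    (r : Y ⟶ Y') : (pushK k r).map (down u h g e) =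
      down u (h ≫ r) (g ≫ r) (by rw [← Category.assoc, e]) := by
  subst e
  rw [down_rfl]
  exact (pushK_comp h r u).trans (down_rfl u (h ≫ r)).symm

/-- The action on cohomology of a morphism `Rp_* k ⟶ k`. -/
def actD {p : Z ⟶ X} (u : K k p ⟶ IK k X) : H k Z →ₗ[k] H k X := act (h := p) (h' := 𝟙 X) u

theorem act_down {p : Z ⟶ X} (u : K k p ⟶ IK k X) (h : X ⟶ Y) (g : Z ⟶ Y) (e : p ≫ h = g)
    (b : H k Z) : act (down u h g e) b = actD u b := by
  subst e
  rw [down_rfl]
  exact act_push (h := p) (h' := 𝟙 X) h u b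

theorem actD_eq {p : Z ⟶ X} (u : K k p ⟶ IK k X) (b : H k Z) :
    actD u b = pullI k p ≫ mul p b ≫ u := by
  refine (evK (𝟙 X)).injective ((evK_act (h := p) (h' := 𝟙 X) u b).trans ?_)
  rw [evK_apply, evK_apply, mul_id, uK_id, ← unit_pullI, Category.assoc, Category.assoc]

theorem actD_mem {p : Z ⟶ X} {u : K k p ⟶ IK k X} {b : H k Z} {m n l : ℤ} (e : m + n = l)
    (hu : u ∈ KG.deg k _ _ n) (hb : b ∈ Hd k Z m) : actD u b ∈ Hd k X l :=
  act_mem (h := p) (h' := 𝟙 X) e hu hb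

theorem pull_mul_downR {p : Z ⟶ X} (u : K k p ⟶ IK k X) (h : X ⟶ Y) (b : H k Z) :
    pull k p h ≫ mul (p ≫ h) b ≫ downR u h = (pushK k h).map (pullI k p ≫ mul p b ≫ u) := by
  rw [Functor.map_comp, Functor.map_comp, push_mul]
  rfl

/-- Pull back, multiply by `b` and push down: multiplication by a class. -/
theorem pullE_mul_down {p : Z ⟶ X} (u : K k p ⟶ IK k X) (h : X ⟶ Y) (g : Z ⟶ Y) (e : p ≫ h = g)
    (b : H k Z) : pullE k p h g e ≫ mul g b ≫ down u h g e = mul h (actD u b) := by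
  subst e
  rw [down_rfl, pullE_rfl, pull_mul_downR, actD_eq]
  rfl

/-- A Leray-Hirsch splitting of `Rp_* k` defined by the classes `c i`. -/
structure LHS (p : Z ⟶ X) {ι : Type} [Fintype ι] (d : ι → ℤ) (c : ι → H k Z)
    (ψ : ι → (K k p ⟶ IK k X)) : Prop where
  mem : ∀ i, c i ∈ Hd k Z (d i)
  deg : ∀ i, ψ i ∈ KG.deg k _ _ (-d i)
  one : ∀ i, (pullI k p ≫ mul p (c i)) ≫ ψ i = 𝟙 _
  zero : ∀ i j, i ≠ j → (pullI k p ≫ mul p (c i)) ≫ ψ j = 0
  sum : ∑ i, ψ i ≫ pullI k p ≫ mul p (c i) = 𝟙 _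

/-- **Leray-Hirsch.** -/
theorem exists_lhs [Nice Z] [Nice X] {p : Z ⟶ X} (hp : IsProperMap p) {ι : Type} [Fintype ι]
    {d : ι → ℤ} {c : ι → H k Z} (hc : ∀ i, c i ∈ Hd k Z (d i))
    (h : ∀ a, ∃ (P : TopCat.{0}) (i : P ⟶ Z), IsInducing i ∧ Set.range i = p ⁻¹' {a} ∧
      Function.Bijective fun r : ι → k => ∑ j, r j • pb i (c j)) : ∃ ψ, LHS p d c ψ := by
  let φ : ι → (IK k X ⟶ K k p) := fun j => pullI k p ≫ mul p (c j)
  have e1 : ∀ j a, evK p (c j * pb p a) = evI k X a ≫ φ j := fun j a => by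
    rw [← evK_mul, evK_pb, evI_apply, Category.assoc, Category.assoc, Category.assoc]
  obtain ⟨ψ, h0, h1, h2, h3⟩ := sum_iso (A := fun _ => IK k X) (fun _ => injC_I k X) (injC_K p)
    d φ (fun j => KG.comp_mem_deg (zero_add _) (pullI_mem p) (mul_mem p (hc j))) fun a => by
      obtain ⟨P, i, hi, hr, hb⟩ := h a
      obtain ⟨f, hf⟩ := P275LO.ex_fib (k := k) hp a hi hr
      rw [← Function.Bijective.of_comp_iff' f.bijective, ← Function.Bijective.of_comp_iff _
        (Function.Bijective.piMap fun _ : ι => P275LO.stalk_one (k := k) a)]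
      refine (congrArg Function.Bijective (funext fun r => ?_)).mpr hb
      simp only [Function.comp_apply, map_sum, Pi.map_apply, Linear.smul_comp, map_smul]
      refine Finset.sum_congr rfl fun j _ => congrArg _ ?_
      rw [← hf, ← germ_comp, ← mul_one (c j), ← map_one (pb p), e1]
      exact congrArg (fun x => f (germ a _ (x ≫ φ j))) (Category.comp_id _).symm
  exact ⟨ψ, hc, h0, h1, h2, h3⟩

namespace LHS

variable {p : Z ⟶ X} {ι : Type} [Fintype ι] {d : ι → ℤ} {c : ι → H k Z}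
  {ψ : ι → (K k p ⟶ IK k X)} (L : LHS p d c ψ) (h : X ⟶ Y) (g : Z ⟶ Y) (e : p ≫ h = g)
include L

omit L in
theorem auxY (u : K k p ⟶ IK k X) (b : H k Z) : pullE k p h g e ≫ mul g b ≫ down u h g e =
    mul h ((pullI k p ≫ mul p b) ≫ u) := by
  rw [pullE_mul_down, actD_eq, Category.assoc]

theorem oneY (i : ι) : pullE k p h g e ≫ mul g (c i) ≫ down (ψ i) h g e = 𝟙 _ := by
  rw [auxY, L.one]
  exact map_one (mul h)

theorem zeroY {i j : ι} (hij : i ≠ j) :
    pullE k p h g e ≫ mul g (c i) ≫ down (ψ j) h g e = 0 := by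
  rw [auxY, L.zero i j hij]
  exact map_zero (mul h)

theorem sumY : ∑ i, down (ψ i) h g e ≫ pullE k p h g e ≫ mul g (c i) = 𝟙 _ := by
  subst e
  have := congrArg (pushK k h).map L.sum
  simp only [Functor.map_sum, Functor.map_comp, push_mul] at this
  simp only [pullE_rfl, down_rfl]
  exact this.trans ((pushK k h).map_id _)

theorem extY {B : KG k (Sh k Y)} {u v : K k g ⟶ B}
    (H : ∀ i, pullE k p h g e ≫ mul g (c i) ≫ u = pullE k p h g e ≫ mul g (c i) ≫ v) : u = v := by
  rw [← Category.id_comp u, ← Category.id_comp v, ← L.sumY h g e]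
  simp only [Preadditive.sum_comp, Category.assoc, H]

theorem mulY [Nice Z] (i : ι) {m : ℤ} {a : H k X} (ha : a ∈ Hd k X m) :
    mul g (pb p a) ≫ down (ψ i) h g e = (m * d i).negOnePow • (down (ψ i) h g e ≫ mul h a) := by
  refine L.extY h g e fun j => ?_
  have : mul g (c j) ≫ mul g (pb p a) = (m * d j).negOnePow • (mul g (pb p a) ≫ mul g (c j)) := by
    have := congrArg (mul g) (mul_comm_Hd (pb_mem p ha) (L.mem j))
    rw [Units.smul_def, map_zsmul, map_mul, map_mul] at this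
    exact this
  rw [← Category.assoc (mul g (c j)), this, Linear.units_smul_comp, Linear.comp_units_smul,
    Linear.comp_units_smul, Linear.comp_units_smul, Category.assoc, ← Category.assoc (pullE ..),
    pullE_mul, Category.assoc, ← Category.assoc (mul g (c j)), ← Category.assoc (pullE ..) _ (mul h a)]
  by_cases hij : j = i
  · subst hij
    rw [L.oneY, Category.comp_id, Category.id_comp]
  · rw [L.zeroY h g e hij, comp_zero, zero_comp, smul_zero, smul_zero]

theorem mulY_even [Nice Z] {i : ι} (hi : Even (d i)) (a : H k X) :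
    mul g (pb p a) ≫ down (ψ i) h g e = down (ψ i) h g e ≫ mul h a := by
  induction a using KG.ind_deg with
  | h0 => simp only [map_zero, zero_comp, comp_zero]
  | hadd x y hx hy =>
    rw [map_add, map_add, map_add]
    exact (Preadditive.add_comp ..).trans ((congrArg₂ (· + ·) hx hy).trans
      (Preadditive.comp_add ..).symm)
  | hmk n a ha => rw [L.mulY h g e i ha, Int.negOnePow_even _ (hi.mul_left n), one_smul]

/-- Base change. -/
theorem natY {p' : Z' ⟶ X'} {d' : ι → ℤ} {c' : ι → H k Z'} {ψ' : ι → (K k p' ⟶ IK k X')}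
    (L' : LHS p' d' c' ψ') (F : Z' ⟶ Z) (f : X' ⟶ X) (w : F ≫ p = p' ≫ f)
    (hc : ∀ i, c' i = pb F (c i)) (h' : X' ⟶ Y) (g' : Z' ⟶ Y) (e' : p' ≫ h' = g')
    (e₁ : f ≫ h = h') (e₂ : F ≫ g = g') (i : ι) :
    pullE k F g g' e₂ ≫ down (ψ' i) h' g' e' = down (ψ i) h g e ≫ pullE k f h h' e₁ := by
  refine L.extY h g e fun j => ?_
  rw [← Category.assoc (mul g (c j)), ← pullE_mul, ← hc, Category.assoc,
    ← Category.assoc (pullE ..), pullE_comp, pullE_congr w, ← pullE_comp p' f h h' g' e₁ e',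
    Category.assoc, ← Category.assoc (mul g (c j)), ← Category.assoc (pullE k p h g e)]
  by_cases hij : j = i
  · subst hij
    rw [L.oneY, L'.oneY, Category.comp_id, Category.id_comp]
  · rw [L.zeroY h g e hij, L'.zeroY h' g' e' hij, comp_zero, zero_comp]

omit h g e in
theorem act_mul_one (i : ι) (a : H k X) : actD (ψ i) (c i * pb p a) = a := by
  have := congrArg (fun u => act u a) (L.oneY (𝟙 X) p (Category.comp_id p) i)
  simpa only [act_comp, act_pullE, act_mul, act_down, act_id] using this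

omit h g e in
theorem act_mul_zero {i j : ι} (hij : i ≠ j) (a : H k X) : actD (ψ j) (c i * pb p a) = 0 := by
  have := congrArg (fun u => act u a) (L.zeroY (𝟙 X) p (Category.comp_id p) hij)
  simpa only [act_comp, act_pullE, act_mul, act_down, map_zero, LinearMap.zero_apply] using this

omit h g e in
theorem act_sum (b : H k Z) : ∑ i, c i * pb p (actD (ψ i) b) = b := by
  have := congrArg (fun u => act u b) (L.sumY (𝟙 X) p (Category.comp_id p))
  simpa only [map_sum, LinearMap.sum_apply, act_comp, act_pullE, act_mul, act_down, act_id]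
    using this

omit h g e in
theorem bij : Function.Bijective fun a : ι → H k X => ∑ i, c i * pb p (a i) :=
  Function.bijective_iff_has_inverse.2 ⟨fun b i => actD (ψ i) b,
    fun a => funext fun i => (map_sum (actD (ψ i)) _ _).trans (by
      rw [Finset.sum_eq_single i (fun j _ hj => L.act_mul_zero hj _)
        fun h => (h (Finset.mem_univ i)).elim, L.act_mul_one]), L.act_sum⟩

end LHS

/-- `Z` is the product of `X` and of a compact space `C` with finite dimensional cohomology. -/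
structure Prd (k : Type) [Field k] (p : Z ⟶ X) (q : Z ⟶ C) : Prop where
  hom : IsHomeomorph fun z => (p z, q z)
  nX : Nice X
  nC : Nice C
  cpt : CompactSpace C
  fd : Fd k C

theorem prd_fst (X C : TopCat.{0}) [Nice X] [Nice C] [CompactSpace C] (h : Fd k C) :
    Prd k (TopCat.ofHom ContinuousMap.fst : TopCat.of (X × C) ⟶ X)
      (TopCat.ofHom ContinuousMap.snd : TopCat.of (X × C) ⟶ C) :=
  ⟨IsHomeomorph.id, ‹_›, ‹_›, ‹_›, h⟩

theorem prd_snd (X C : TopCat.{0}) [Nice X] [Nice C] [CompactSpace C] (h : Fd k C) :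
    Prd k (TopCat.ofHom ContinuousMap.snd : TopCat.of (C × X) ⟶ X)
      (TopCat.ofHom ContinuousMap.fst : TopCat.of (C × X) ⟶ C) :=
  ⟨(Homeomorph.prodComm C X).isHomeomorph, ‹_›, ‹_›, ‹_›, h⟩

namespace Prd

variable {p : Z ⟶ X} {q : Z ⟶ C} (P : Prd k p q)
include P

theorem nZ : Nice Z :=
  have := P.nX
  have := P.nC
  ⟨P.hom.homeomorph.isOpenEmbedding.locallyCompactSpace, P.hom.isEmbedding.t2Space,
    P.hom.isEmbedding.secondCountableTopology⟩

theorem proper : IsProperMap p :=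
  have := P.cpt
  isProperMap_fst_of_compactSpace.comp P.hom.homeomorph.isProperMap

/-- The inclusion of the fibre. -/
def fib (x : X) : C ⟶ Z :=
  TopCat.ofHom ⟨fun c => P.hom.homeomorph.symm (x, c), by fun_prop⟩

theorem fib_p (x : X) (c : C) : p (P.fib x c) = x :=
  congrArg Prod.fst (P.hom.homeomorph.apply_symm_apply (x, c))

theorem fib_q (x : X) : P.fib x ≫ q = 𝟙 C := by
  ext c
  exact congrArg Prod.snd (P.hom.homeomorph.apply_symm_apply (x, c))

theorem fib_ind (x : X) : IsInducing (P.fib x) :=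
  P.hom.homeomorph.symm.isInducing.comp (isInducing_prodMkRight x)

theorem fib_range (x : X) : range (P.fib x) = p ⁻¹' {x} := by
  refine Subset.antisymm (range_subset_iff.2 (P.fib_p x)) ?_
  rintro z rfl
  exact ⟨q z, P.hom.homeomorph.symm_apply_apply z⟩

theorem lhs {ι : Type} [Fintype ι] {d : ι → ℤ} {c : ι → H k C} (b : Bas d c) :
    ∃ ψ, LHS p d (fun i => pb q (c i)) ψ :=
  have := P.nX
  have := P.nZ
  exists_lhs P.proper (fun i => pb_mem q (b.mem i)) fun x =>
    ⟨C, P.fib x, P.fib_ind x, P.fib_range x, by simpa only [pb_comp, P.fib_q, pb_id] using b.bij⟩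

/-- **Kuenneth.** -/
theorem bij {ι : Type} [Fintype ι] {d : ι → ℤ} {c : ι → H k C} (b : Bas d c) :
    Function.Bijective fun a : ι → H k X => ∑ i, pb q (c i) * pb p (a i) :=
  (P.lhs b).choose_spec.bij

theorem ind {Q : H k Z → Prop} (h0 : Q 0) (hm : ∀ n, ∀ c ∈ Hd k C n, ∀ a, Q (pb q c * pb p a))
    (hadd : ∀ x y, Q x → Q y → Q (x + y)) (z : H k Z) : Q z := by
  obtain ⟨ι, _, d, c, b⟩ := P.fd
  obtain ⟨a, rfl⟩ := (P.bij b).2 z
  exact Finset.sum_induction _ Q hadd h0 fun i _ => hm _ _ (b.mem i) _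

theorem extY (h : X ⟶ Y) (g : Z ⟶ Y) (e : p ≫ h = g) {B : KG k (Sh k Y)} {u v : K k g ⟶ B}
    (H : ∀ n, ∀ c ∈ Hd k C n,
      pullE k p h g e ≫ mul g (pb q c) ≫ u = pullE k p h g e ≫ mul g (pb q c) ≫ v) : u = v := by
  obtain ⟨ι, _, d, c, b⟩ := P.fd
  exact (P.lhs b).choose_spec.extY h g e fun i => H _ _ (b.mem i)

theorem exists_slK (l : H k C →ₗ[k] k) : ∃ u : K k p ⟶ IK k X,
    (∀ c a, actD u (pb q c * pb p a) = l c • a) ∧
      ∀ n, (∀ m, m ≠ n → ∀ c ∈ Hd k C m, l c = 0) → u ∈ KG.deg k _ _ (-n) := by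
  obtain ⟨ι, _, d, c, b⟩ := P.fd
  obtain ⟨ψ, L⟩ := P.lhs b
  refine ⟨∑ i, l (c i) • ψ i, fun x a => ?_, fun n hn => Submodule.sum_mem _ fun i _ => ?_⟩
  · obtain ⟨r, rfl⟩ := b.bij.2 x
    have e : actD (∑ i, l (c i) • ψ i) = ∑ i, l (c i) • actD (ψ i) :=
      (map_sum (act (h := p) (h' := 𝟙 X)) _ _).trans (Finset.sum_congr rfl fun i _ =>
        map_smul (act (h := p) (h' := 𝟙 X)) _ _)
    simp only [e, map_sum, map_smul, Finset.sum_mul, smul_mul_assoc, LinearMap.sum_apply,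
      LinearMap.smul_apply, Finset.sum_smul]
    refine Finset.sum_congr rfl fun i _ => ?_
    rw [Finset.sum_eq_single i (fun j _ hj => by rw [L.act_mul_zero hj.symm, smul_zero])
      fun h => (h (Finset.mem_univ i)).elim, L.act_mul_one, smul_smul, smul_eq_mul]
  · by_cases hi : d i = n
    · exact Submodule.smul_mem _ _ (hi ▸ L.deg i)
    · rw [hn _ hi _ (b.mem i), zero_smul]
      exact zero_mem _

/-- The slant product with a functional, as a morphism `Rp_* k ⟶ k`. -/
def slK (l : H k C →ₗ[k] k) : K k p ⟶ IK k X := (P.exists_slK l).choose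

/-- The slant product with a functional over a base. -/
def slY (l : H k C →ₗ[k] k) (h : X ⟶ Y) (g : Z ⟶ Y) (e : p ≫ h = g) : K k g ⟶ K k h :=
  down (P.slK l) h g e

/-- The slant product with a functional on cohomology. -/
def sl (l : H k C →ₗ[k] k) : H k Z →ₗ[k] H k X := actD (P.slK l)

variable (l : H k C →ₗ[k] k)

theorem sl_mul (c : H k C) (a : H k X) : P.sl l (pb q c * pb p a) = l c • a :=
  (P.exists_slK l).choose_spec.1 c a

theorem sl_q (c : H k C) : P.sl l (pb q c) = l c • 1 := by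
  rw [← P.sl_mul, map_one, mul_one]

theorem sl_p (a : H k X) : P.sl l (pb p a) = l 1 • a := by
  rw [← P.sl_mul, map_one, one_mul]

theorem sl_mul_right (b : H k Z) (a : H k X) : P.sl l (b * pb p a) = P.sl l b * a := by
  induction b using P.ind with
  | h0 => simp
  | hadd x y hx hy => simp only [add_mul, map_add, hx, hy]
  | hm n c hc a' => rw [mul_assoc, ← map_mul, P.sl_mul, P.sl_mul, smul_mul_assoc]

variable (h : X ⟶ Y) (g : Z ⟶ Y) (e : p ≫ h = g)

theorem act_slY (b : H k Z) : act (P.slY l h g e) b = P.sl l b := act_down _ h g e b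

theorem pullE_mul_slY (b : H k Z) :
    pullE k p h g e ≫ mul g b ≫ P.slY l h g e = mul h (P.sl l b) := pullE_mul_down _ h g e b

theorem pullE_mul_slY' (c : H k C) :
    pullE k p h g e ≫ mul g (pb q c) ≫ P.slY l h g e = l c • 𝟙 _ := by
  rw [P.pullE_mul_slY, P.sl_q, map_smul, map_one]
  rfl

theorem push_slY (r : Y ⟶ Y') : (pushK k r).map (P.slY l h g e) =
    P.slY l (h ≫ r) (g ≫ r) (by rw [← Category.assoc, e]) := push_down _ h g e r

/-- Naturality for maps of products. -/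
theorem slY_nat {p' : Z' ⟶ X'} {q' : Z' ⟶ C'} (P' : Prd k p' q') (l' : H k C' →ₗ[k] k)
    (F : Z' ⟶ Z) (f : X' ⟶ X) (r : C' ⟶ C) (w : F ≫ p = p' ≫ f) (w' : F ≫ q = q' ≫ r)
    (hl : ∀ c, l' (pb r c) = l c) (h' : X' ⟶ Y) (g' : Z' ⟶ Y) (e' : p' ≫ h' = g')
    (e₁ : f ≫ h = h') (e₂ : F ≫ g = g') :
    pullE k F g g' e₂ ≫ P'.slY l' h' g' e' = P.slY l h g e ≫ pullE k f h h' e₁ := by
  refine P.extY h g e fun _ c _ => ?_
  rw [← Category.assoc (mul g (pb q c)), ← pullE_mul, pb_comp, w', ← pb_comp, Category.assoc,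
    ← Category.assoc (pullE ..), pullE_comp, pullE_congr w, ← pullE_comp p' f h h' g' e₁ e',
    Category.assoc, ← Category.assoc (mul g (pb q c)), ← Category.assoc (pullE k p h g e),
    P.pullE_mul_slY', P'.pullE_mul_slY', hl, Linear.comp_smul, Linear.smul_comp, Category.comp_id,
    Category.id_comp]

omit h g e in
theorem sl_nat {p' : Z' ⟶ X'} {q' : Z' ⟶ C'} (P' : Prd k p' q') (l' : H k C' →ₗ[k] k)
    (F : Z' ⟶ Z) (f : X' ⟶ X) (r : C' ⟶ C) (w : F ≫ p = p' ≫ f) (w' : F ≫ q = q' ≫ r)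
    (hl : ∀ c, l' (pb r c) = l c) (b : H k Z) : P'.sl l' (pb F b) = pb f (P.sl l b) := by
  induction b using P.ind with
  | h0 => simp only [map_zero]
  | hadd x y hx hy => simp only [map_add, hx, hy]
  | hm n c hc a =>
    rw [map_mul, pb_comp, pb_comp, w, w', ← pb_comp, ← pb_comp, P.sl_mul, P'.sl_mul, hl, map_smul]

variable {l} {n : ℤ} (hl : ∀ m, m ≠ n → ∀ c ∈ Hd k C m, l c = 0)
include hl

theorem slY_mem : P.slY l h g e ∈ KG.deg k _ _ (-n) :=
  down_mem ((P.exists_slK l).choose_spec.2 n hl) h g e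

omit h g e in
theorem sl_mem {m j : ℤ} (hj : j + n = m) {b : H k Z} (hb : b ∈ Hd k Z m) :
    P.sl l b ∈ Hd k X j :=
  actD_mem (by omega) ((P.exists_slK l).choose_spec.2 n hl) hb

omit h g e in
theorem sl_mul_left (hn : Even n) (a : H k X) (b : H k Z) :
    P.sl l (pb p a * b) = a * P.sl l b := by
  have := P.nZ
  induction a using KG.ind_deg with
  | h0 => simp
  | hadd x y hx hy => simp only [add_mul, map_add, hx, hy]
  | hmk m a ha =>
    induction b using P.ind with
    | h0 => simp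
    | hadd x y hx hy => simp only [mul_add, map_add, hx, hy]
    | hm j c hc a' =>
      rw [← mul_assoc, mul_comm_Hd (pb_mem p ha) (pb_mem q hc), smul_mul_assoc, mul_assoc,
        ← map_mul, Units.smul_def, map_zsmul, P.sl_mul, P.sl_mul, mul_smul_comm]
      by_cases hj : j = n
      · rw [hj, Int.negOnePow_even _ (hn.mul_left m), Units.val_one, one_smul]
      · rw [hl j hj c hc, zero_smul, smul_zero]

theorem mul_slY (hn : Even n) (a : H k X) :
    mul g (pb p a) ≫ P.slY l h g e = P.slY l h g e ≫ mul h a := by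
  refine P.extY h g e fun _ c _ => ?_
  rw [← Category.assoc (mul g (pb q c)), ← End.mul_def, ← map_mul, P.pullE_mul_slY,
    P.sl_mul_left hl hn, map_mul, End.mul_def, ← P.pullE_mul_slY l h g e, Category.assoc,
    Category.assoc]

end Prd

end P275S
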