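import Vale.Agent.P275S.Wind
import Vale.Agent.P275S.Htpy
import Vale.Agent.P275LO.LH

/-! The Chern class of a mapping torus line bundle; the product with the punctured plane. -/

open CategoryTheory TopologicalSpace Topology Set CochainComplex CochainComplex.HomComplex P275CC

noncomputable section

set_option backward.isDefEq.respectTransparency false

namespace P275S

variable {X Z : TopCat.{0}}

/-- The constant `1 / (2 π i)`. -/
def kap : ℂ := (2 * Real.pi * Complex.I)⁻¹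

theorem kap_ne : kap ≠ 0 := inv_ne_zero Complex.two_pi_I_ne_zero

theorem c1_tor₀ {f g : X → ℂ} (hf : Nz f) (hg : Nz g) (L : LB X) (l : L.ι → X → ℂ)
    (hl : ∀ i, ContinuousOn (l i) (L.U i)) (he : ∀ i, ∀ x ∈ L.U i, Complex.exp (l i x) = g x)
    (hk : ∀ i j x, x ∈ L.U i → x ∈ L.U j →
      ∃ k : ℤ, l i x - l j x = 2 * Real.pi * Complex.I * k ∧ L.g i j x = f x ^ k) :
    c1 L = -kap • (wind hf * wind hg) := by
  obtain ⟨z, hz⟩ : ∃ z : Cocycle (I ℂ X) (I ℂ X) 1, (show H ℂ X from KG.mk ℂ z) = wind hf :=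
    KG.mem_deg.1 (wind_mem hf)
  have h1 := mk_mul_hc (show (0 : ℤ) + 1 = 1 from rfl) (eI ℂ X) d_eI z
  rw [hc_one, mul_one] at h1
  obtain ⟨t, ht⟩ : ∃ t, app ((I ℂ X).d 0 1) ⊤ t = app (z.1.v 0 1 rfl) ⊤ (eI ℂ X) - windz hf :=
    (hc_eq_iff _ _ _ _ 0 rfl).1 (h1.symm.trans hz)
  obtain ⟨ψ, hψ⟩ := exists_phi t
  let χ : C0 X ⟶ (I ℂ X).X 1 := phi X ≫ z.1.v 0 1 rfl - ψ ≫ (I ℂ X).d 0 1
  have χ1 : app χ ⊤ (cOne ⊤) = windz hf := by
    rw [app_sub, app_comp, app_comp, phi_one, hψ, ht, sub_sub_cancel]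
  have hδ : z.1.v 0 1 rfl ≫ (I ℂ X).d 1 2 = -((I ℂ X).d 0 1 ≫ z.1.v 1 2 rfl) := by
    have h := Cochain.congr_v (z.δ_eq_zero 2) 0 2 rfl
    rw [δ_v 1 2 rfl z.1 0 2 rfl 1 1 rfl rfl, Int.negOnePow_even 2 even_two, one_smul] at h
    exact eq_neg_of_add_eq_zero_left h
  have χd : χ ≫ (I ℂ X).d 1 2 = -((phi X ≫ (I ℂ X).d 0 1) ≫ z.1.v 1 2 rfl) := by
    simp [χ, hδ]
  let m : ∀ i, sec (C0 X) (covU L.toCov i) := fun i => cmk (l i) (hl i)
  have hm : ∀ i, IsLog (𝟙 _) g (m i) := fun i x hx => by rw [app_id, cv_cmk _ _ hx, he i x hx]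
  have key : IsC1 (𝟙 _) (phi X) L (-kap • app (z.1.v 1 2 rfl) ⊤ (windz hg)) := by
    refine ⟨fun i => kap • app χ _ (m i), fun i j => fn_id.isW_of_loc (d_phi_one X)
      fun x hx => ?_, fun i => ?_⟩
    · have a : IsLog (𝟙 _) (fun _ => 1) (res _ inf_le_left (m i) - res _ inf_le_right (m j) :
          sec (C0 X) (covU L.toCov i ⊓ covU L.toCov j)) :=
        (((hm i).res _).sub ((hm j).res _)).congr fun y _ => div_self (hg.ne y)
      have b : ∀ y ∈ covU L.toCov i ⊓ covU L.toCov j,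
          cv (res _ inf_le_left (m i) - res _ inf_le_right (m j) :
          sec (C0 X) (covU L.toCov i ⊓ covU L.toCov j)) y = l i y - l j y := fun y hy => by
        rw [cv_sub, cv_res _ _ hy, cv_res _ _ hy, cv_cmk _ _ hy.1, cv_cmk _ _ hy.2]
      obtain ⟨V, hV, xV, e⟩ := fn_id.log_one a hx
      obtain ⟨k, k1, -⟩ := hk i j x hx.1 hx.2
      rw [app_id, b x hx, k1, res_cOne] at e
      obtain ⟨W, -, xW, u, hu⟩ := hf.hasLog x trivial
      refine ⟨V ⊓ W, inf_le_left.trans hV, ⟨xV, xW⟩, (k : ℂ) • res _ inf_le_right u,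
        fun y hy => ?_, ?_⟩
      · obtain ⟨k', k2, k3⟩ := hk i j y (hV hy.1).1 (hV hy.1).2
        have c := congrArg (fun s => cv s y) e
        simp only [cv_res _ _ hy.1, b y (hV hy.1), cv_smul, cv_cOne hy.1, mul_one, k2] at c
        obtain rfl : k' = k := Int.cast_injective (mul_left_cancel₀ Complex.two_pi_I_ne_zero c)
        rw [app_id, cv_smul, cv_res _ _ hy, Complex.exp_int_mul, k3, ← hu y hy.2, app_id]
      · rw [← res_res _ hV inf_le_left, map_smul, map_smul, ← smul_sub, ← app_res, ← app_res,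
          ← map_sub, map_smul, ← app_res, e, map_smul, map_smul, ← res_cOne (le_top : V ≤ ⊤),
          app_res, χ1, map_smul, smul_smul, ← mul_assoc, kap,
          inv_mul_cancel₀ Complex.two_pi_I_ne_zero, one_mul,
          map_smul, res_res, isW_windz hf _ le_top _ (hu.res inf_le_right)]
    · rw [map_smul, ← app_comp, χd, app_neg, app_comp, ← isW_windz hg _ le_top _ (hm i), app_res,
        map_smul, smul_neg, neg_smul]
  rw [c1_eq key, hc_smul _ _ (cocycle_app (show (1 : ℤ) + 1 = 2 from rfl) _ (d_windz hg _) z),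
    ← mk_mul_hc, hz]
  rfl

theorem wind_anti [Nice X] {f g : X → ℂ} (hf : Nz f) (hg : Nz g) :
    wind hf * wind hg = -(wind hg * wind hf) := by
  simpa using mul_comm_Hd (wind_mem hf) (wind_mem hg)

theorem wind_sq [Nice X] {g : X → ℂ} (hg : Nz g) : wind hg * wind hg = 0 := by
  have h := eq_neg_iff_add_eq_zero.1 (wind_anti hg hg)
  rw [← two_smul ℂ] at h
  rw [← one_smul ℂ (wind hg * wind hg), ← inv_mul_cancel₀ (two_ne_zero (α := ℂ)), mul_smul, h,
    smul_zero]

/-- The Chern class of the line bundle with cocycle `f ^ k`, where `k` is the cocycle of the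
logarithms of `g`. -/
theorem c1_tor [Nice X] {f g : X → ℂ} (hf : Nz f) (hg : Nz g) (L : LB X) (l : L.ι → X → ℂ)
    (hl : ∀ i, ContinuousOn (l i) (L.U i)) (he : ∀ i, ∀ x ∈ L.U i, Complex.exp (l i x) = g x)
    (hk : ∀ i j x, x ∈ L.U i → x ∈ L.U j →
      ∃ k : ℤ, l i x - l j x = 2 * Real.pi * Complex.I * k ∧ L.g i j x = f x ^ k) :
    c1 L = kap • (wind hg * wind hf) := by
  rw [c1_tor₀ hf hg L l hl he hk, wind_anti hf hg, smul_neg, neg_smul, neg_neg]

theorem wind_circle_ne : wind nz_circle ≠ 0 := fun h => by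
  have := H_circle.1 (a₁ := ![0, 1]) (a₂ := 0) (by simp [Fin.sum_univ_two, h])
  simpa using congrFun this 1

/-- The cohomology of the product with the punctured plane. -/
theorem kunc [Nice X] (p : Z ⟶ X) {g : Z → ℂ} (hg : Nz g) (he : IsEmbedding fun z => (p z, g z))
    (hr : ∀ x w, w ≠ 0 → ∃ z, p z = x ∧ g z = w) :
    Function.Bijective fun a : H ℂ X × H ℂ X => pb p a.1 + wind hg * pb p a.2 := by
  have ho : IsOpenEmbedding fun z => (p z, g z) := ⟨he, by
    refine Eq.mpr (congrArg IsOpen (Set.ext fun ⟨x, w⟩ => ?_))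
      ((isOpen_ne (x := (0 : ℂ))).preimage (continuous_snd (X := X)))
    exact ⟨fun ⟨z, h⟩ e => hg.ne z ((Prod.ext_iff.1 h).2.trans e),
      fun h => (hr x w h).imp fun z h => Prod.ext h.1 h.2⟩⟩
  have : Nice Z := ⟨ho.locallyCompactSpace, he.t2Space, he.secondCountableTopology⟩
  have : Nice (TopCat.of X) := ‹Nice X›
  choose σ σp σg using hr
  have inj : ∀ z z', p z = p z' → g z = g z' → z = z' := fun z z' a b => he.injective (Prod.ext a b)
  let s : TopCat.of (Circle × X) ⟶ Z := TopCat.ofHom ⟨fun y => σ y.2 y.1 y.1.coe_ne_zero,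
    he.continuous_iff.2 (by simp only [Function.comp_def, σp, σg]; fun_prop)⟩
  have n0 : ∀ z, (‖g z‖ : ℂ) ≠ 0 := fun z => by simpa using hg.ne z
  have cg := hg.ct
  have m1 : ∀ z, g z / ‖g z‖ ∈ Submonoid.unitSphere ℂ := fun z => by
    simp [Submonoid.unitSphere, hg.ne z]
  let r : Z ⟶ TopCat.of (Circle × X) := TopCat.ofHom ⟨fun z => (⟨g z / ‖g z‖, m1 z⟩, p z),
    (Continuous.subtype_mk (cg.div (by fun_prop) n0) m1).prodMk p.hom.continuous⟩
  have pos : ∀ y : unitInterval × Z, ((1 - y.1.1) * ‖g y.2‖ + y.1.1 : ℝ) ≠ 0 := fun y => by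
    have a := norm_pos_iff.2 (hg.ne y.2)
    have b := y.1.2.1
    have c := y.1.2.2
    rcases b.eq_or_lt with b | b
    · rw [← b]; simpa using a.ne'
    · have := mul_nonneg (sub_nonneg.2 c) a.le
      positivity
  have bs : Function.Bijective (pb (k := ℂ) s) := by
    refine pb_bijective_of_homotopy s r ?_ ⟨⟨⟨fun y => σ (p y.2)
      (g y.2 / ((1 - y.1.1) * ‖g y.2‖ + y.1.1 : ℝ)) (div_ne_zero (hg.ne _) (by
        exact_mod_cast pos y)), he.continuous_iff.2 ?_⟩, fun z => ?_, fun z => ?_⟩⟩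
    · have : s ≫ r = 𝟙 _ := by
        ext y
        · change g (σ _ _ _) / (‖g (σ _ _ _)‖ : ℝ) = y.1
          simp [σg]
        · exact σp _ _ _
      rw [this]
    · simp only [Function.comp_def, σp, σg]
      exact (p.hom.continuous.comp continuous_snd).prodMk ((cg.comp continuous_snd).div
        (by fun_prop) fun y => by exact_mod_cast pos y)
    · refine inj _ _ ((σp _ _ _).trans (σp _ _ _).symm) ((σg _ _ _).trans (Eq.trans ?_
        (σg _ _ _).symm))
      change _ = g z / (‖g z‖ : ℝ)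
      simp
    · exact inj _ _ (σp _ _ _) ((σg _ _ _).trans (by simp))
  refine (Function.Bijective.of_comp_iff' bs _).1 ?_
  refine Eq.mpr (congrArg Function.Bijective (funext fun ⟨a, b⟩ => ?_))
    (Vale.Agent.P275LO.kun (wind_mem nz_circle) wind_circle_ne X)
  have e : s ≫ p = TopCat.ofHom ContinuousMap.snd := by
    ext y
    exact σp _ _ _
  rw [Function.comp_apply, map_add, map_mul, pb_comp, pb_comp, e, ← wind_pb,
    wind_congr _ (nz_circle.pb (TopCat.ofHom (ContinuousMap.fst : C(Circle × X, Circle))))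
    (fun y => σg _ _ _), wind_pb]
  rfl

end P275S
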