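import Vale.Agent.P275S.PN
import Vale.Agent.P275LO.LH

/-! The cohomology theory with first Chern classes. -/

open CategoryTheory Set
open P275CC (LB Co PFib inc Nc Th)

noncomputable section

set_option backward.isDefEq.respectTransparency false

namespace P275S

instance nice_of_nc (X : Type) [TopologicalSpace X] [Nc X] : Nice (TopCat.of X) :=
  ⟨inferInstance, inferInstance, inferInstance⟩

theorem nc_of_nice (X : TopCat.{0}) [Nice X] : Nc X := ⟨inferInstance, inferInstance, inferInstance⟩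

/-- Sheaf cohomology with complex coefficients, given the Leray-Hirsch theorem. -/
def thOf (LH : LHP) : Th where
  H X _ := H ℂ (TopCat.of X)
  ring _ _ := inferInstance
  alg _ _ := inferInstance
  pb f := pb (TopCat.ofHom f)
  pb_id _ _ a := pb_id a
  pb_comp f g a := (pb_comp (TopCat.ofHom f) (TopCat.ofHom g) a).symm
  pr _ _ j := KG.pr j
  pr_pb f j a := (pb_pr (TopCat.ofHom f) j a).symm
  pr_pr _ _ i j a := by
    split_ifs with h
    · subst h
      exact KG.pr_of_mem (KG.pr_mem_deg i a)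
    · exact KG.pr_of_ne (KG.pr_mem_deg j a) (Ne.symm h)
  pr_sum _ _ a := let ⟨s, _, h⟩ := KG.exists_sum_pr a; ⟨s, h⟩
  pr_one _ _ := KG.pr_of_mem one_mem_Hd
  pr_neg _ _ j a h := eq_zero_of_neg h (KG.pr_mem_deg j a)
  pr_mul _ _ _ _ _ _ ha hb := KG.pr_of_mem
    (mul_mem_Hd rfl (KG.mem_deg_iff_pr.2 ha) (KG.mem_deg_iff_pr.2 hb))
  comm _ _ _ _ _ _ _ ha hb := mul_comm_Hd (KG.mem_deg_iff_pr.2 ha) (KG.mem_deg_iff_pr.2 hb)
  empty X _ _ a := H_empty (X := TopCat.of X) a
  mv X _ _ W W' a b h _ e ha hb := mul_eq_zero_of_cover (X := TopCat.of X)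
    (i := TopCat.ofHom (inc W)) (j := TopCat.ofHom (inc W')) Topology.IsInducing.subtypeVal
    Topology.IsInducing.subtypeVal (Subtype.range_coe.symm ▸ h)
    ((congrArg₂ (· ∪ ·) Subtype.range_coe Subtype.range_coe).trans e) ha hb
  c1 {X} _ L := c1 (X := TopCat.of X) L
  c1_deg {X} _ L := KG.pr_of_mem (c1_mem (X := TopCat.of X) L)
  c1_pb f L := c1_pb (TopCat.ofHom f) L
  c1_mul {X} _ _ L L' := c1_mul (X := TopCat.of X) L L'
  c1_triv {X} _ _ _ h := c1_triv (X := TopCat.of X) h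
  lh π L _ _ hp he h := lh_pf LH he (TopCat.ofHom π) hp L h

theorem lhp : LHP := fun _ hp _ _ c d hc h => Vale.Agent.P275LO.lh hp c d hc h

/-- Sheaf cohomology with complex coefficients. -/
def th : Th := thOf lhp

theorem th_H (X : Type) [TopologicalSpace X] : th.H X = H ℂ (TopCat.of X) := rfl

theorem th_pb {X Y : Type} [TopologicalSpace X] [TopologicalSpace Y] (f : C(X, Y))
    (a : H ℂ (TopCat.of Y)) : th.pb f a = pb (TopCat.ofHom f) a := rfl

theorem th_pr (X : Type) [TopologicalSpace X] (j : ℤ) (a : H ℂ (TopCat.of X)) :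
    th.pr X j a = KG.pr j a := rfl

theorem th_c1 {X : Type} [TopologicalSpace X] (L : LB X) :
    th.c1 L = c1 (X := TopCat.of X) L := rfl

theorem th_pr_iff (X : Type) [TopologicalSpace X] (j : ℤ) (a : H ℂ (TopCat.of X)) :
    th.pr X j a = a ↔ a ∈ Hd ℂ (TopCat.of X) j := KG.mem_deg_iff_pr.symm

/-- The cohomology of a projective space. -/
theorem H_pn {Z : TopCat.{0}} [Nice Z] {L : LB Z} {r e : ℕ} (he : e ≠ 0) (h : PFib L univ r e) :
    Function.Bijective fun a : Fin (r + 1) → ℂ => ∑ i, a i • c1 L ^ (i : ℕ) :=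
  let ⟨_, _, h⟩ := exists_pf h
  h.basis (PF.pow_ne lhp he r Z L _ _ h)

/-- The cohomology of a projective subspace, in the form used by the Leray-Hirsch theorem. -/
theorem H_pfib {Z : TopCat.{0}} [Nice Z] {L : LB Z} {F : Set Z} {r e : ℕ} (he : e ≠ 0)
    (h : PFib L F r e) : ∃ (P : TopCat.{0}) (j : P ⟶ Z), Topology.IsInducing j ∧ range j = F ∧
      Function.Bijective fun a : Fin (r + 1) → ℂ => ∑ i, a i • pb j (c1 L ^ (i : ℕ)) := by
  obtain ⟨q, s, h⟩ := exists_pf h
  obtain ⟨q', h'⟩ := h.sub LinearMap.id Function.injective_id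
  have := nice_of_compact (h.compact_sub LinearMap.id Function.injective_id)
  refine ⟨_, sub (q '' (LinearMap.id (R := ℂ) '' {0}ᶜ)), sub_inducing _,
    by rw [range_sub, LinearMap.id_coe, image_id, h.pn.img], ?_⟩
  simp only [map_pow, ← c1_pb]
  exact PF.basis (Z := TopCat.of _) h' (PF.pow_ne lhp he r (TopCat.of _) _ _ _ h')

end P275S
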