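import Vale.Agent.P275SO.Abs
import Mathlib.Analysis.Convex.Topology
import Mathlib.Analysis.Convex.PathConnected

/-!
# Soft resolutions of the constants: connected sets, convex sets, acyclic pairs
-/

namespace P275S.Ab

open Set Topology Vale.Agent.P275SO

variable {k : Type*} [Field k] {X : Type*} [TopologicalSpace X]
  {M : ℤ → Type*} [∀ i, AddCommGroup (M i)] [∀ i, Module k (M i)]

/-- A soft resolution of the constants with unit `e`. -/
structure Res (d : ∀ i j, M i →ₗ[k] M j) (G : ∀ i, X → Submodule k (M i)) (e : M 0) : Prop where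
  dat : Dat d G fun _ => LinearMap.id
  neg : ∀ j < 0, ∀ s : M j, s = 0
  de : d 0 1 e = 0
  loc0 : ∀ x s, d 0 1 s ∈ G 1 x → ∃ a : k, s - a • e ∈ G 0 x
  ne : ∀ x (a : k), a • e ∈ G 0 x → a = 0
  locp : ∀ x j, 0 < j → Van d G (fun _ => LinearMap.id) ∅ {x} j

/-- Vanishing of the relative cohomology of `(C, A ∩ C)` in degree `j`. -/
abbrev Vn (d : ∀ i j, M i →ₗ[k] M j) (G : ∀ i, X → Submodule k (M i)) (A C : Set X) (j : ℤ) :
    Prop := Van d G (fun _ => LinearMap.id) A C j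

/-- `C` is connected (or empty) and has no cohomology in positive degrees. -/
def Acy (d : ∀ i j, M i →ₗ[k] M j) (G : ∀ i, X → Submodule k (M i)) (C : Set X) : Prop :=
  IsPreconnected C ∧ ∀ j, 0 < j → Vn d G ∅ C j

variable {d : ∀ i j, M i →ₗ[k] M j} {G : ∀ i, X → Submodule k (M i)} {e : M 0}
  {A C C' : Set X} {i j l : ℤ}

theorem Res.vn_neg (h : Res d G e) (hj : j < 0) : Vn d G A C j := fun i _ _ _ s _ _ =>
  ⟨0, zero_mem _, by rw [h.neg j hj (_ - _)]; exact zero_mem _⟩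

/-- A cocycle of degree zero near a connected set is a constant. -/
theorem Res.zero_conn (h : Res d G e) (hC : IsPreconnected C) {s : M 0}
    (hs : d 0 1 s ∈ N (G 1) C) : ∃ a : k, s - a • e ∈ N (G 0) C := by
  rcases C.eq_empty_or_nonempty with rfl | ⟨x, hx⟩
  · exact ⟨0, mem_N_empty⟩
  obtain ⟨a, ha⟩ := h.loc0 x s (mem_N.1 hs x hx)
  refine ⟨a, mem_N.2 fun y hy => ?_⟩
  by_contra hn
  obtain ⟨z, -, h1, h2⟩ := hC {z | s - a • e ∈ G 0 z} (⋃ b ∈ ({a}ᶜ : Set k), {z | s - b • e ∈ G 0 z})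
    (h.dat.op 0 _) (isOpen_biUnion fun b _ => h.dat.op 0 _) (fun z hz => by
      obtain ⟨b, hb⟩ := h.loc0 z s (mem_N.1 hs z hz)
      by_cases hab : b = a
      · exact Or.inl (hab ▸ hb)
      · exact Or.inr (mem_biUnion hab hb)) ⟨x, hx, ha⟩ (by
      obtain ⟨b, hb⟩ := h.loc0 y s (mem_N.1 hs y hy)
      exact ⟨y, hy, mem_biUnion (fun hab : b ∈ ({a} : Set k) => hn (hab ▸ hb)) hb⟩)
  obtain ⟨b, hb, h2⟩ := mem_iUnion₂.1 h2
  have := sub_mem (show s - a • e ∈ G 0 z from h1) (show s - b • e ∈ G 0 z from h2)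
  rw [show s - a • e - (s - b • e) = (b - a) • e by rw [sub_smul]; abel] at this
  exact hb (sub_eq_zero.1 (h.ne z _ this))

/-- Relative cohomology in degree zero. -/
theorem Res.vn_zero (h : Res d G e) (hC : IsPreconnected C) (hA : (A ∩ C).Nonempty) :
    Vn d G A C 0 := by
  intro i l hi hl s hs hd
  obtain rfl : l = 1 := by omega
  obtain ⟨a, ha⟩ := h.zero_conn hC hd
  obtain ⟨x, hx⟩ := hA
  have := sub_mem (mem_N.1 hs x hx) (mem_N.1 ha x hx.2)
  rw [sub_sub_cancel] at this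
  rw [h.ne x a this, zero_smul, sub_zero] at ha
  exact ⟨0, zero_mem _, by simpa using ha⟩

/-- Mayer-Vietoris in degree one along a connected intersection. -/
theorem Res.mv0 (h : Res d G e) (hC : IsCompact C) (hC' : IsCompact C')
    (hc : IsPreconnected (C ∩ C')) {s : M 1} (h1 : Bd d G ∅ C 0 s) (h2 : Bd d G ∅ C' 0 s) :
    Bd d G ∅ (C ∪ C') 0 s := by
  obtain ⟨t1, -, b1⟩ := h1
  obtain ⟨t2, -, b2⟩ := h2
  obtain ⟨a, ha⟩ := h.zero_conn hc (s := t1 - t2) (by
    have := sub_mem (N_anti inter_subset_right b2) (N_anti (inter_subset_left (t := C')) b1)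
    rwa [show s - d 0 1 t2 - (s - d 0 1 t1) = d 0 1 (t1 - t2) by rw [map_sub]; abel] at this)
  obtain ⟨u, hu, v, hv, huv⟩ := h.dat.spl 0 C C' hC hC' _ ha
  refine ⟨t1 - u, by simp, mem_N_union.2 ⟨?_, ?_⟩⟩
  · have := add_mem b1 (h.dat.dN (j := 1) hu)
    rwa [show s - d 0 1 t1 + d 0 1 u = s - d 0 1 (t1 - u) by rw [map_sub]; abel] at this
  · have := sub_mem b2 (h.dat.dN (j := 1) hv)
    have e1 : t1 - u = t2 + a • e + v := by
      have : t1 = t2 + a • e + (u + v) := by rw [← huv]; abel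
      rw [this]; abel
    rwa [show s - d 0 1 t2 - d 0 1 v = s - d 0 1 (t1 - u) by
      rw [e1, map_add, map_add, map_smul, h.de, smul_zero]; abel] at this

/-- Induction along a continuous function on a compact set. -/
theorem line_ind [T2Space X] (P : Set X → Prop) (h0 : P ∅)
    (mono : ∀ {B B' : Set X}, P B → B' ⊆ B → P B') (hC : IsCompact C) {g : X → ℝ}
    (hg : ContinuousOn g C)
    (loc : ∀ r, ∃ U, IsOpen U ∧ C ∩ g ⁻¹' {r} ⊆ U ∧ P U)
    (gl : ∀ a b : ℝ, a ≤ b → P (C ∩ g ⁻¹' Iic a) → P (C ∩ g ⁻¹' Icc a b) →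
      P (C ∩ g ⁻¹' Iic a ∪ C ∩ g ⁻¹' Icc a b)) : P C := by
  have loc' : ∀ r, ∃ ε > 0, P (C ∩ g ⁻¹' Icc (r - ε) (r + ε)) := by
    intro r
    obtain ⟨U, u1, u2, u3⟩ := loc r
    have c : IsClosed (g '' (C \ U)) :=
      ((hC.diff u1).image_of_continuousOn (hg.mono sdiff_subset)).isClosed
    have c' : r ∈ (g '' (C \ U))ᶜ := by
      rintro ⟨x, hx, e⟩
      exact hx.2 (u2 ⟨hx.1, e⟩)
    obtain ⟨ε, e1, e2⟩ := Metric.isOpen_iff.1 c.isOpen_compl r c'
    refine ⟨ε / 2, by positivity, mono u3 fun x hx => ?_⟩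
    by_contra a
    refine e2 (a := g x) ?_ ⟨x, ⟨hx.1, a⟩, rfl⟩
    rw [Real.ball_eq_Ioo]
    exact ⟨by linarith [hx.2.1], by linarith [hx.2.2]⟩
  obtain ⟨R, hR⟩ : ∃ R : ℝ, ∀ x ∈ C, g x ∈ Icc (-R) R := by
    obtain ⟨R, hR⟩ := (hC.image_of_continuousOn hg).isBounded.subset_closedBall 0
    exact ⟨R, fun x hx => by simpa [Real.closedBall_eq_Icc] using hR ⟨x, hx, rfl⟩⟩
  have glue : ∀ a b : ℝ, P (C ∩ g ⁻¹' Iic a) → P (C ∩ g ⁻¹' Icc a b) → P (C ∩ g ⁻¹' Iic b) := by
    intro a b ha hb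
    rcases le_or_gt a b with hab | hab
    · refine mono (gl a b hab ha hb) fun x hx => ?_
      rcases le_total (g x) a with c | c
      · exact Or.inl ⟨hx.1, c⟩
      · exact Or.inr ⟨hx.1, c, hx.2⟩
    · exact mono ha fun x hx => ⟨hx.1, le_trans hx.2 hab.le⟩
  have main : ∀ b : ℝ, P (C ∩ g ⁻¹' Iic b) := by
    by_contra hn
    push Not at hn
    have bd : ∀ b ∈ {b : ℝ | ¬ P (C ∩ g ⁻¹' Iic b)}, -R ≤ b := by
      intro b hb
      by_contra a
      refine hb ?_
      rw [show C ∩ g ⁻¹' Iic b = ∅ from eq_empty_of_forall_notMem fun x hx =>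
        a ((hR x hx.1).1.trans hx.2)]
      exact h0
    obtain ⟨ε, e1, e2⟩ := loc' (sInf {b : ℝ | ¬ P (C ∩ g ⁻¹' Iic b)})
    obtain ⟨b, b1, b2⟩ := Real.lt_sInf_add_pos (s := {b : ℝ | ¬ P (C ∩ g ⁻¹' Iic b)}) hn e1
    refine b1 (mono (glue _ _ ?_ e2) fun x hx => ⟨hx.1, le_trans hx.2 b2.le⟩)
    by_contra a
    have := csInf_le ⟨_, bd⟩ a
    linarith
  exact mono (main R) fun x hx => ⟨hx, (hR x hx).2⟩

/-- A compact set with acyclic fibres over the line has no cohomology in positive degrees. -/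
theorem Res.bisect [T2Space X] (h : Res d G e) (hC : IsCompact C) {g : X → ℝ}
    (hg : ContinuousOn g C) (hf : ∀ r, Acy d G (C ∩ g ⁻¹' {r})) (hj : 0 < j) : Vn d G ∅ C j := by
  rcases lt_or_ge 1 j with h1 | h1
  · exact h.dat.bisect isClosed_empty hC hg (fun r => (hf r).2 _ (by omega))
      fun r => (hf r).2 _ hj
  obtain rfl : j = 1 := by omega
  intro i l hi hl s _ hd
  obtain rfl : i = 0 := by omega
  have cl : ∀ {T : Set ℝ}, IsClosed T → IsCompact (C ∩ g ⁻¹' T) := fun hT =>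
    hC.of_isClosed_subset (hg.preimage_isClosed_of_isClosed hC.isClosed hT) inter_subset_left
  refine line_ind (fun B => Bd d G ∅ B 0 s) (Bd.empty _) (fun a b => a.mono b) hC hg
    (fun r => h.dat.nhds isClosed_empty ((hf r).2 1 one_pos 0 l hi hl s (by simp)
      (N_anti inter_subset_left hd))) fun a b hab ha hb => ?_
  refine h.mv0 (cl isClosed_Iic) (cl isClosed_Icc) ?_ ha hb
  have : C ∩ g ⁻¹' Iic a ∩ (C ∩ g ⁻¹' Icc a b) = C ∩ g ⁻¹' {a} := by
    ext x
    exact ⟨fun hx => ⟨hx.1.1, le_antisymm hx.1.2 hx.2.2.1⟩,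
      fun hx => ⟨⟨hx.1, le_of_eq hx.2⟩, hx.1, ge_of_eq hx.2, (le_of_eq hx.2).trans hab⟩⟩
  rw [this]
  exact (hf a).1

theorem Res.acy_sub (h : Res d G e) (hC : C.Subsingleton) : Acy d G C := by
  refine ⟨hC.isPreconnected, fun j hj => ?_⟩
  rcases hC.eq_empty_or_singleton with rfl | ⟨x, rfl⟩
  · exact fun i _ _ _ s _ _ => Bd.empty _
  · exact h.locp x j hj

theorem preconn_of_inj [T2Space X] {Y : Type*} [TopologicalSpace Y] [T2Space Y]
    (hC : IsCompact C) {g : X → Y} (hg : ContinuousOn g C) (hi : InjOn g C)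
    (hc : IsPreconnected (g '' C)) : IsPreconnected C := by
  have : CompactSpace C := isCompact_iff_compactSpace.1 hC
  have e : IsClosedEmbedding (C.domRestrict g) :=
    (continuousOn_iff_continuous_domRestrict.1 hg).isClosedEmbedding (injOn_iff_injective.1 hi)
  have : IsPreconnected (univ : Set C) := by
    rw [← e.isInducing.isPreconnected_image, image_univ, range_domRestrict]
    exact hc
  simpa using this.image _ continuous_subtype_val.continuousOn

/-- A compact set homeomorphic to a convex set is acyclic. -/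
theorem Res.acy_convex [T2Space X] (h : Res d G e) : ∀ (n : ℕ) {C : Set X}, IsCompact C →
    ∀ g : X → Fin n → ℝ, ContinuousOn g C → InjOn g C → Convex ℝ (g '' C) → Acy d G C := by
  intro n
  induction n with
  | zero => exact fun _ g _ hi _ => h.acy_sub fun x hx y hy => hi hx hy (Subsingleton.elim _ _)
  | succ n ih =>
    intro C hC g hg hi hc
    refine ⟨preconn_of_inj hC hg hi hc.isPreconnected, fun j hj => ?_⟩
    have g0 : ContinuousOn (fun x => g x 0) C := (continuous_apply 0).comp_continuousOn hg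
    refine h.bisect hC g0 (fun r => ih
      (hC.of_isClosed_subset (g0.preimage_isClosed_of_isClosed hC.isClosed isClosed_singleton)
        inter_subset_left) (fun x => Fin.tail (g x))
      (continuousOn_pi.2 fun a => continuousOn_pi.1 (hg.mono inter_subset_left) a.succ)
      (fun x hx y hy hxy => hi hx.1 hy.1 ?_) ?_) hj
    · rw [← Fin.cons_self_tail (g x), ← Fin.cons_self_tail (g y), show g x 0 = g y 0 from
        hx.2.trans hy.2.symm]
      exact congrArg _ hxy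
    · rintro _ ⟨x, hx, rfl⟩ _ ⟨y, hy, rfl⟩ a b ha hb hab
      obtain ⟨z, hz, e⟩ := hc ⟨x, hx.1, rfl⟩ ⟨y, hy.1, rfl⟩ ha hb hab
      refine ⟨z, ⟨hz, ?_⟩, ?_⟩
      · have h1 : g x 0 = r := hx.2
        have h2 : g y 0 = r := hy.2
        change g z 0 = r
        rw [e, Pi.add_apply, Pi.smul_apply, Pi.smul_apply, h1, h2, ← add_smul, hab, one_smul]
      · funext t
        change g z t.succ = _
        rw [e]
        rfl

/-- A pair of acyclic sets is acyclic. -/
theorem Res.vn_pair (h : Res d G e) (hC : Acy d G C) (hA : Acy d G (A ∩ C))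
    (hne : (A ∩ C).Nonempty) (j : ℤ) : Vn d G A C j := by
  rcases lt_trichotomy j 0 with hj | rfl | hj
  · exact h.vn_neg hj
  · exact h.vn_zero hC.1 hne
  intro i l hi hl s hs hd
  obtain ⟨t, -, ht⟩ := hC.2 j hj i l hi hl s (by simp) hd
  have h1 : d i j t ∈ N (G j) (A ∩ C) := by
    have := sub_mem hs (N_anti inter_subset_right ht)
    simpa using this
  rcases lt_or_ge 0 i with hi0 | hi0
  · obtain ⟨u, -, hu⟩ := hA.2 i hi0 (i - 1) j (by omega) hi t (by simp) h1
    exact ⟨_, hu, by simpa [h.dat.dd] using ht⟩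
  · obtain rfl : i = 0 := by omega
    obtain rfl : j = 1 := by omega
    obtain ⟨a, ha⟩ := h.zero_conn hA.1 h1
    exact ⟨_, ha, by simpa [h.de] using ht⟩

end P275S.Ab
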