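import Vale.Agent.P275S.Defs

/-! The graded homotopy category of complexes: morphisms are finite sums of classes of cocycles
of the Hom complex. -/

open CategoryTheory Limits CochainComplex CochainComplex.HomComplex
open scoped DirectSum

noncomputable section

universe v u v' u'

namespace P275S

variable (k : Type) [Field k] {C : Type u} [Category.{v} C] [Preadditive C] [Linear k C]

/-- Coboundaries of the Hom complex. -/
def bdry (F G : CochainComplex C ℤ) (n : ℤ) : Submodule k (Cocycle F G n) where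
  carrier := {z | ∃ y : Cochain F G (n - 1), δ (n - 1) n y = z.1}
  zero_mem' := ⟨0, by simp⟩
  add_mem' := by
    rintro a b ⟨y, hy⟩ ⟨y', hy'⟩
    exact ⟨y + y', by rw [δ_add, hy, hy']; rfl⟩
  smul_mem' := by
    rintro c a ⟨y, hy⟩
    exact ⟨c • y, by rw [δ_smul, hy]; rfl⟩

theorem mem_bdry {F G : CochainComplex C ℤ} {n : ℤ} (z : Cocycle F G n) (m : ℤ) (h : m + 1 = n) :
    z ∈ bdry k F G n ↔ ∃ y : Cochain F G m, δ m n y = z.1 := by
  obtain rfl : m = n - 1 := by omega
  rfl

/-- Homotopy classes of maps of degree `n`. -/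
abbrev HH (F G : CochainComplex C ℤ) (n : ℤ) : Type v := Cocycle F G n ⧸ bdry k F G n

variable {k}

/-- Composition of cocycles. -/
def zcomp {F G K : CochainComplex C ℤ} {a b c : ℤ} (x : Cocycle F G a) (y : Cocycle G K b)
    (h : a + b = c) : Cocycle F K c :=
  Cocycle.mk (x.1.comp y.1 h) (c + 1) rfl (by
    rw [δ_comp x.1 y.1 h (a + 1) (b + 1) (c + 1) rfl rfl rfl]
    simp)

@[simp] theorem zcomp_coe {F G K : CochainComplex C ℤ} {a b c : ℤ} (x : Cocycle F G a)
    (y : Cocycle G K b) (h : a + b = c) : (zcomp x y h).1 = x.1.comp y.1 h := rfl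

variable (k)

/-- Composition of cocycles as a bilinear map. -/
def zcompL (F G K : CochainComplex C ℤ) {a b c : ℤ} (h : a + b = c) :
    Cocycle F G a →ₗ[k] Cocycle G K b →ₗ[k] Cocycle F K c :=
  LinearMap.mk₂ k (fun x y => zcomp x y h)
    (fun _ _ _ => Cocycle.ext (by simp)) (fun _ _ _ => Cocycle.ext (by simp))
    (fun _ _ _ => Cocycle.ext (by simp)) (fun _ _ _ => Cocycle.ext (by simp))

theorem zcomp_mem_left {F G K : CochainComplex C ℤ} {a b c : ℤ} {x : Cocycle F G a}
    (hx : x ∈ bdry k F G a) (y : Cocycle G K b) (h : a + b = c) :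
    zcomp x y h ∈ bdry k F K c := by
  obtain ⟨w, hw⟩ := hx
  refine ⟨b.negOnePow • w.comp y.1 (by omega), ?_⟩
  rw [δ_units_smul, δ_comp w y.1 _ a (b + 1) c (by omega) (by omega) rfl, hw]
  simp [smul_smul]

theorem zcomp_mem_right {F G K : CochainComplex C ℤ} {a b c : ℤ} (x : Cocycle F G a)
    {y : Cocycle G K b} (hy : y ∈ bdry k G K b) (h : a + b = c) :
    zcomp x y h ∈ bdry k F K c := by
  obtain ⟨w, hw⟩ := hy
  refine ⟨x.1.comp w (by omega), ?_⟩
  rw [δ_comp x.1 w _ (a + 1) b c (by omega) rfl (by omega), hw]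
  simp

/-- Composition of homotopy classes. -/
def hcomp (F G K : CochainComplex C ℤ) {a b c : ℤ} (h : a + b = c) :
    HH k F G a →ₗ[k] HH k G K b →ₗ[k] HH k F K c :=
  (bdry k F G a).liftQ
    (((bdry k G K b).liftQ ((zcompL k F G K h).compr₂ (bdry k F K c).mkQ).flip (fun y hy => by
      ext x
      exact (Submodule.Quotient.mk_eq_zero _).2 (zcomp_mem_right k x hy h))).flip)
    (fun x hx => by
      ext y
      exact (Submodule.Quotient.mk_eq_zero _).2 (zcomp_mem_left k hx y h))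

theorem hcomp_mk {F G K : CochainComplex C ℤ} {a b c : ℤ} (h : a + b = c) (x : Cocycle F G a)
    (y : Cocycle G K b) :
    hcomp k F G K h (Submodule.Quotient.mk x) (Submodule.Quotient.mk y) =
      Submodule.Quotient.mk (zcomp x y h) := rfl

/-- The graded homotopy category. -/
structure KG (k : Type) (C : Type u) [Category.{v} C] [Preadditive C] where
  /-- the object defined by a complex -/
  of ::
  /-- the underlying complex -/
  c : CochainComplex C ℤ

namespace KG

/-- Graded morphisms. -/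
def Hm (F G : CochainComplex C ℤ) : Type v := ⨁ n : ℤ, HH k F G n

instance (F G : CochainComplex C ℤ) : AddCommGroup (Hm k F G) :=
  inferInstanceAs (AddCommGroup (⨁ n : ℤ, HH k F G n))

instance (F G : CochainComplex C ℤ) : Module k (Hm k F G) :=
  inferInstanceAs (Module k (⨁ n : ℤ, HH k F G n))

/-- The graded morphism of a cocycle, as a linear map. -/
def mkL (F G : CochainComplex C ℤ) (n : ℤ) : Cocycle F G n →ₗ[k] Hm k F G :=
  (DirectSum.lof k ℤ (fun n => HH k F G n) n).comp (bdry k F G n).mkQ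

/-- Composition of graded morphisms. -/
def cmp (F G K : CochainComplex C ℤ) : Hm k F G →ₗ[k] Hm k G K →ₗ[k] Hm k F K :=
  DirectSum.toModule k ℤ _ fun a => (DirectSum.toModule k ℤ _ fun b =>
    ((hcomp k F G K (rfl : a + b = a + b)).compr₂
      (DirectSum.lof k ℤ (fun n => HH k F K n) (a + b))).flip).flip

theorem cmp_mk {F G K : CochainComplex C ℤ} {a b c : ℤ} (h : a + b = c) (x : Cocycle F G a)
    (y : Cocycle G K b) :
    cmp k F G K (mkL k F G a x) (mkL k G K b y) = mkL k F K c (zcomp x y h) := by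
  subst h
  have h1 := DirectSum.toModule_lof k (φ := fun a => (DirectSum.toModule k ℤ _ fun b =>
    ((hcomp k F G K (rfl : a + b = a + b)).compr₂
      (DirectSum.lof k ℤ (fun n => HH k F K n) (a + b))).flip).flip) a
    (Submodule.Quotient.mk x)
  have h2 := DirectSum.toModule_lof k (φ := fun b =>
    ((hcomp k F G K (rfl : a + b = a + b)).compr₂
      (DirectSum.lof k ℤ (fun n => HH k F K n) (a + b))).flip) b
    (Submodule.Quotient.mk y)
  exact (LinearMap.congr_fun h1 _).trans (LinearMap.congr_fun h2 _)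

theorem Hm.ind {F G : CochainComplex C ℤ} {P : Hm k F G → Prop} (h0 : P 0)
    (hmk : ∀ n z, P (mkL k F G n z)) (hadd : ∀ x y, P x → P y → P (x + y)) (x : Hm k F G) :
    P x := by
  refine DirectSum.induction_on (motive := P) x h0 (fun n y => ?_) hadd
  obtain ⟨z, rfl⟩ := Submodule.Quotient.mk_surjective _ y
  exact hmk n z

instance : Category (KG k C) where
  Hom F G := Hm k F.c G.c
  id F := mkL k F.c F.c 0 (Cocycle.ofHom (𝟙 _))
  comp f g := cmp k _ _ _ f g
  id_comp f := by
    induction f using Hm.ind with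
    | h0 => simp
    | hmk n z => rw [cmp_mk k (zero_add n)]; congr 1; exact Cocycle.ext (by simp)
    | hadd x y hx hy => rw [map_add, hx, hy]
  comp_id f := by
    induction f using Hm.ind with
    | h0 => simp
    | hmk n z => rw [cmp_mk k (add_zero n)]; congr 1; exact Cocycle.ext (by simp)
    | hadd x y hx hy => rw [map_add, LinearMap.add_apply, hx, hy]
  assoc f g h := by
    induction f using Hm.ind with
    | h0 => simp
    | hadd x y hx hy => simp only [map_add, LinearMap.add_apply, hx, hy]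
    | hmk a x =>
      induction g using Hm.ind with
      | h0 => simp
      | hadd x y hx hy => simp only [map_add, LinearMap.add_apply, hx, hy]
      | hmk b y =>
        induction h using Hm.ind with
        | h0 => simp
        | hadd x y hx hy => simp only [map_add, hx, hy]
        | hmk c z =>
          rw [cmp_mk k rfl, cmp_mk k rfl, cmp_mk k rfl, cmp_mk k (add_assoc a b c).symm]
          congr 1
          exact Cocycle.ext (Cochain.comp_assoc _ _ _ rfl rfl rfl)

instance : Preadditive (KG k C) where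
  homGroup F G := inferInstanceAs (AddCommGroup (Hm k F.c G.c))
  add_comp A B D f f' g := LinearMap.congr_fun ((cmp k A.c B.c D.c).map_add f f') g
  comp_add A B D f g g' := (cmp k A.c B.c D.c f).map_add g g'

instance : Linear k (KG k C) where
  homModule F G := inferInstanceAs (Module k (Hm k F.c G.c))
  smul_comp A B D r f g := LinearMap.congr_fun ((cmp k A.c B.c D.c).map_smul r f) g
  comp_smul A B D f r g := (cmp k A.c B.c D.c f).map_smul r g

variable {F G K : CochainComplex C ℤ}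

/-- The graded morphism of a cocycle of degree `n`. -/
def mk {n : ℤ} : Cocycle F G n →ₗ[k] ((of F : KG k C) ⟶ of G) := mkL k F G n

/-- The graded morphism of a chain map. -/
def hom (φ : F ⟶ G) : (of F : KG k C) ⟶ of G := mk k (Cocycle.ofHom φ)

theorem mk_comp {a b c : ℤ} (h : a + b = c) (x : Cocycle F G a) (y : Cocycle G K b) :
    mk k x ≫ mk k y = mk k (zcomp x y h) := cmp_mk k h x y

theorem ind {A B : KG k C} {P : (A ⟶ B) → Prop} (h0 : P 0)
    (hmk : ∀ n (z : Cocycle A.c B.c n), P (mk k z)) (hadd : ∀ x y, P x → P y → P (x + y))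
    (x : A ⟶ B) : P x := Hm.ind k h0 hmk hadd x

theorem mk_eq_zero_iff {n : ℤ} (z : Cocycle F G n) (m : ℤ) (h : m + 1 = n) :
    mk k z = 0 ↔ ∃ y : Cochain F G m, δ m n y = z.1 := by
  rw [← mem_bdry k z m h, ← Submodule.Quotient.mk_eq_zero]
  exact map_eq_zero_iff (DirectSum.lof k ℤ (fun n => HH k F G n) n) (DirectSum.of_injective n)

theorem hom_id (F : CochainComplex C ℤ) : hom k (𝟙 F) = 𝟙 (of F : KG k C) := rfl

theorem hom_comp (φ : F ⟶ G) (ψ : G ⟶ K) : hom k (φ ≫ ψ) = hom k φ ≫ hom k ψ := by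
  rw [hom, hom, hom, mk_comp k (zero_add 0)]
  congr 1
  exact Cocycle.ext (by simp)

theorem hom_add (φ ψ : F ⟶ G) : hom k (φ + ψ) = hom k φ + hom k ψ := by
  rw [hom, hom, hom, ← map_add]
  congr 1
  exact Cocycle.ext (by simp)

theorem hom_sub (φ ψ : F ⟶ G) : hom k (φ - ψ) = hom k φ - hom k ψ := by
  rw [hom, hom, hom, ← map_sub]
  congr 1
  exact Cocycle.ext (by simp)

theorem hom_zero : hom k (0 : F ⟶ G) = 0 := by
  rw [hom, ← map_zero (mk k (F := F) (G := G) (n := 0))]
  congr 1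
  exact Cocycle.ext (by simp)

theorem hom_smul (r : k) (φ : F ⟶ G) : hom k (r • φ) = r • hom k φ := by
  rw [hom, hom, ← map_smul]
  congr 1
  refine Cocycle.ext ?_
  ext p
  simp

theorem hom_comp_mk {n : ℤ} (φ : F ⟶ G) (z : Cocycle G K n) :
    hom k φ ≫ mk k z = mk k (z.precomp φ) := mk_comp k (zero_add n) _ _

theorem mk_comp_hom {n : ℤ} (z : Cocycle F G n) (φ : G ⟶ K) :
    mk k z ≫ hom k φ = mk k (z.postcomp φ) := mk_comp k (add_zero n) _ _

theorem hom_eq_iff (φ ψ : F ⟶ G) : hom k φ = hom k ψ ↔ Nonempty (Homotopy φ ψ) := by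
  rw [← sub_eq_zero, hom, hom, ← map_sub, mk_eq_zero_iff k _ (-1) (by simp)]
  constructor
  · rintro ⟨y, hy⟩
    exact ⟨(Cochain.equivHomotopy φ ψ).symm ⟨y, by rw [hy]; simp⟩⟩
  · rintro ⟨h⟩
    exact ⟨Cochain.ofHomotopy h, by simp⟩

/-- Homogeneous morphisms of degree `n`. -/
def deg (A B : KG k C) (n : ℤ) : Submodule k (A ⟶ B) :=
  LinearMap.range (mk k (F := A.c) (G := B.c) (n := n))

variable {k}

theorem mem_deg {A B : KG k C} {n : ℤ} {f : A ⟶ B} :
    f ∈ deg k A B n ↔ ∃ z : Cocycle A.c B.c n, mk k z = f := Iff.rfl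

theorem mk_mem_deg {n : ℤ} (z : Cocycle F G n) : mk k z ∈ deg k (of F) (of G) n := ⟨z, rfl⟩

theorem hom_mem_deg (φ : F ⟶ G) : hom k φ ∈ deg k (of F) (of G) 0 := ⟨_, rfl⟩

theorem mem_deg_zero {A B : KG k C} {f : A ⟶ B} :
    f ∈ deg k A B 0 ↔ ∃ φ : A.c ⟶ B.c, hom k φ = f :=
  ⟨fun ⟨z, hz⟩ => ⟨z.homOf, by rw [hom, Cocycle.ofHom_homOf_eq_self]; exact hz⟩,
    fun ⟨_, hφ⟩ => ⟨_, hφ⟩⟩

theorem id_mem_deg (A : KG k C) : 𝟙 A ∈ deg k A A 0 := ⟨_, rfl⟩

theorem comp_mem_deg {A B D : KG k C} {a b c : ℤ} (h : a + b = c) {f : A ⟶ B} {g : B ⟶ D}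
    (hf : f ∈ deg k A B a) (hg : g ∈ deg k B D b) : f ≫ g ∈ deg k A D c := by
  obtain ⟨x, rfl⟩ := hf
  obtain ⟨y, rfl⟩ := hg
  exact ⟨_, (mk_comp k h x y).symm⟩

/-- The component of degree `n` of a morphism. -/
def pr {A B : KG k C} (n : ℤ) : (A ⟶ B) →ₗ[k] (A ⟶ B) :=
  (DirectSum.lof k ℤ (fun n => HH k A.c B.c n) n).comp
    (DirectSum.component k ℤ (fun n => HH k A.c B.c n) n)

theorem pr_mem_deg {A B : KG k C} (n : ℤ) (f : A ⟶ B) : pr n f ∈ deg k A B n := by
  obtain ⟨z, hz⟩ := Submodule.Quotient.mk_surjective _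
    (DirectSum.component k ℤ (fun n => HH k A.c B.c n) n f)
  exact ⟨z, congrArg (DirectSum.lof k ℤ (fun n => HH k A.c B.c n) n) hz⟩

theorem pr_of_mem {A B : KG k C} {n : ℤ} {f : A ⟶ B} (hf : f ∈ deg k A B n) : pr n f = f := by
  obtain ⟨z, rfl⟩ := hf
  exact congrArg (DirectSum.lof k ℤ (fun n => HH k A.c B.c n) n)
    (DirectSum.component.lof_self k n _)

theorem pr_of_ne {A B : KG k C} {n m : ℤ} {f : A ⟶ B} (hf : f ∈ deg k A B n) (h : n ≠ m) :
    pr m f = 0 := by
  obtain ⟨z, rfl⟩ := hf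
  have : DirectSum.component k ℤ (fun n => HH k A.c B.c n) m
      (DirectSum.lof k ℤ (fun n => HH k A.c B.c n) n (Submodule.Quotient.mk z)) = 0 := by
    rw [DirectSum.component.of, dif_neg h]
  exact (congrArg (DirectSum.lof k ℤ (fun n => HH k A.c B.c n) m) this).trans (map_zero _)

theorem ind_deg {A B : KG k C} {P : (A ⟶ B) → Prop} (h0 : P 0)
    (hmk : ∀ n, ∀ f ∈ deg k A B n, P f) (hadd : ∀ x y, P x → P y → P (x + y))
    (x : A ⟶ B) : P x := ind k h0 (fun n z => hmk n _ ⟨z, rfl⟩) hadd x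

theorem exists_sum_pr {A B : KG k C} (f : A ⟶ B) :
    ∃ s : Finset ℤ, (∀ n ∉ s, pr n f = 0) ∧ ∑ n ∈ s, pr n f = f := by
  induction f using ind_deg with
  | h0 => exact ⟨∅, by simp, by simp⟩
  | hmk n f hf =>
    exact ⟨{n}, fun m hm => pr_of_ne hf fun h => hm (by simp [h]), by simp [pr_of_mem hf]⟩
  | hadd x y hx hy =>
    obtain ⟨s, hs, hs'⟩ := hx
    obtain ⟨t, ht, ht'⟩ := hy
    refine ⟨s ∪ t, fun n hn => ?_, ?_⟩
    · rw [Finset.mem_union, not_or] at hn
      rw [map_add, hs n hn.1, ht n hn.2, add_zero]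
    · simp only [map_add, Finset.sum_add_distrib]
      rw [← Finset.sum_subset Finset.subset_union_left fun n _ hn => hs n hn, hs',
        ← Finset.sum_subset Finset.subset_union_right fun n _ hn => ht n hn, ht']

theorem ext_pr {A B : KG k C} {f g : A ⟶ B} (h : ∀ n, pr n f = pr n g) : f = g := by
  rw [← sub_eq_zero]
  obtain ⟨s, -, hs⟩ := exists_sum_pr (f - g)
  rw [← hs]
  exact Finset.sum_eq_zero fun n _ => by rw [map_sub, h n, sub_self]

theorem mem_deg_iff_pr {A B : KG k C} {n : ℤ} {f : A ⟶ B} : f ∈ deg k A B n ↔ pr n f = f :=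
  ⟨pr_of_mem, fun h => h ▸ pr_mem_deg n f⟩

theorem pr_comp_of_right {A B D : KG k C} {a b c : ℤ} (h : a + b = c) (f : A ⟶ B) {g : B ⟶ D}
    (hg : g ∈ deg k B D b) : pr c (f ≫ g) = pr a f ≫ g := by
  induction f using ind_deg with
  | h0 => simp
  | hadd x y hx hy => simp [hx, hy]
  | hmk n f hf =>
    by_cases hn : n = a
    · subst hn
      rw [pr_of_mem hf, pr_of_mem (comp_mem_deg h hf hg)]
    · rw [pr_of_ne hf hn, pr_of_ne (comp_mem_deg rfl hf hg) (by omega), zero_comp]

theorem pr_comp_of_left {A B D : KG k C} {a b c : ℤ} (h : a + b = c) {f : A ⟶ B}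
    (hf : f ∈ deg k A B a) (g : B ⟶ D) : pr c (f ≫ g) = f ≫ pr b g := by
  induction g using ind_deg with
  | h0 => simp
  | hadd x y hx hy => simp [hx, hy]
  | hmk n g hg =>
    by_cases hn : n = b
    · subst hn
      rw [pr_of_mem hg, pr_of_mem (comp_mem_deg h hf hg)]
    · rw [pr_of_ne hg hn, pr_of_ne (comp_mem_deg rfl hf hg) (by omega), comp_zero]

/-- The inverse of a homogeneous isomorphism is homogeneous. -/
theorem inv_mem_deg {A B : KG k C} {a b : ℤ} (h : a + b = 0) {f : A ⟶ B} [IsIso f]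
    (hf : f ∈ deg k A B a) : inv f ∈ deg k B A b := by
  have := pr_comp_of_left h hf (inv f)
  rw [IsIso.hom_inv_id, pr_of_mem (id_mem_deg A)] at this
  rw [mem_deg_iff_pr]
  exact IsIso.eq_inv_of_hom_inv_id this.symm

section map

variable {C' : Type u'} [Category.{v'} C'] [Preadditive C'] [Linear k C']
  (Φ : C ⥤ C') [Φ.Additive] [Φ.Linear k]

/-- The image of a cocycle under an additive functor. -/
def zmap {n : ℤ} (z : Cocycle F G n) : Cocycle ((mapC Φ).obj F) ((mapC Φ).obj G) n :=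
  Cocycle.mk (z.1.map Φ) (n + 1) rfl (by rw [δ_map]; simp)

omit [Linear k C] [Linear k C'] [Φ.Linear k] in
@[simp] theorem zmap_coe {n : ℤ} (z : Cocycle F G n) : (zmap Φ z).1 = z.1.map Φ := rfl

variable (k) in
/-- `zmap` as a linear map. -/
def zmapL (F G : CochainComplex C ℤ) (n : ℤ) :
    Cocycle F G n →ₗ[k] Cocycle ((mapC Φ).obj F) ((mapC Φ).obj G) n where
  toFun := zmap Φ
  map_add' _ _ := Cocycle.ext (by simp)
  map_smul' _ _ := Cocycle.ext (by ext; simp; rfl)

variable (k) in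
/-- An additive functor on graded morphisms. -/
def mapL (F G : CochainComplex C ℤ) :
    Hm k F G →ₗ[k] Hm k ((mapC Φ).obj F) ((mapC Φ).obj G) :=
  DirectSum.toModule k ℤ _ fun n => (bdry k F G n).liftQ
    ((mkL k _ _ n).comp (zmapL k Φ F G n)) (by
      rintro z ⟨y, hy⟩
      exact (mk_eq_zero_iff k (zmap Φ z) (n - 1) (by simp)).2
        ⟨y.map Φ, by rw [δ_map, hy]; rfl⟩)

theorem mapL_mk {n : ℤ} (z : Cocycle F G n) :
    mapL k Φ F G (mkL k F G n z) = mkL k _ _ n (zmap Φ z) := by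
  exact DirectSum.toModule_lof k (M := fun n => HH k F G n) n (Submodule.Quotient.mk z)

variable (k) in
/-- The functor on graded homotopy categories induced by an additive functor. -/
def map : KG k C ⥤ KG k C' where
  obj A := of ((mapC Φ).obj A.c)
  map f := mapL k Φ _ _ f
  map_id A := (mapL_mk Φ _).trans (congrArg _ (Cocycle.ext (by simp)))
  map_comp {A B D} f g := by
    change mapL k Φ _ _ (cmp k _ _ _ f g) = cmp k _ _ _ (mapL k Φ _ _ f) (mapL k Φ _ _ g)
    induction f using Hm.ind with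
    | h0 => simp
    | hadd x y hx hy => simp only [map_add, LinearMap.add_apply, hx, hy]
    | hmk a x =>
      induction g using Hm.ind with
      | h0 => simp
      | hadd x y hx hy => simp only [map_add, hx, hy]
      | hmk b y =>
        rw [cmp_mk k rfl, mapL_mk, mapL_mk, mapL_mk, cmp_mk k rfl]
        congr 1
        exact Cocycle.ext (by simp)

instance : (map k Φ).Additive where
  map_add := map_add (mapL k Φ _ _) _ _

instance : (map k Φ).Linear k where
  map_smul f r := map_smul (mapL k Φ _ _) r f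

theorem map_obj (A : KG k C) : (map k Φ).obj A = of ((mapC Φ).obj A.c) := rfl

theorem map_mk {n : ℤ} (z : Cocycle F G n) :
    (map k Φ).map (mk k z) = mk k (zmap Φ z) := mapL_mk Φ z

theorem map_hom (φ : F ⟶ G) : (map k Φ).map (hom k φ) = hom k ((mapC Φ).map φ) :=
  (map_mk Φ _).trans (congrArg _ (Cocycle.ext (by simp)))

theorem map_mem_deg {A B : KG k C} {n : ℤ} {f : A ⟶ B} (hf : f ∈ deg k A B n) :
    (map k Φ).map f ∈ deg k _ _ n := by
  obtain ⟨z, rfl⟩ := hf
  exact ⟨_, (map_mk Φ z).symm⟩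

theorem map_pr {A B : KG k C} (n : ℤ) (f : A ⟶ B) :
    (map k Φ).map (pr n f) = pr n ((map k Φ).map f) := by
  induction f using ind_deg with
  | h0 => simp
  | hadd x y hx hy => simp [hx, hy]
  | hmk m f hf =>
    by_cases hn : m = n
    · subst hn
      rw [pr_of_mem hf, pr_of_mem (map_mem_deg Φ hf)]
    · rw [pr_of_ne hf hn, pr_of_ne (map_mem_deg Φ hf) hn, Functor.map_zero]

end map

end KG

end P275S
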