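import Vale.Agent.P275S.Mvg
import Vale.Agent.P275S.Htpy
import Vale.Agent.P275S.Taut

/-! Maps which are locally cohomology isomorphisms; bundles with contractible fibre. -/

open CategoryTheory TopologicalSpace Topology Set

noncomputable section

set_option backward.isDefEq.respectTransparency false

namespace P275S

variable {k : Type} [Field k] {W E B : TopCat.{0}}

theorem hcU_comp (g : W ⟶ E) (f : E ⟶ B) {U : Opens B} (h : ∀ w, (g ≫ f) w ∈ U) {n : ℤ}
    (s : sec ((I k B).X n) U) (hs : app ((I k B).d n (n + 1)) U s = 0) :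
    hcU g (U := (Opens.map f).obj U) h (app ((pullC k f).f n) U s)
      ((app_f_d (pullC k f) n (n + 1) U s).symm.trans (by rw [hs, map_zero])) =
      hcU (g ≫ f) h s hs := by
  obtain ⟨G⟩ := (KG.hom_eq_iff k (pullC k f ≫ (pushC k f).map (pullC k g)) (pullC k (g ≫ f))).1
    ((KG.hom_comp k _ _).trans ((congrArg _ (pull_eq_hom g f).symm).trans (pullI_comp g f)))
  have a := app_homotopy G (show n - 1 + 1 = n by omega) rfl U s
  rw [hs, map_zero, zero_add] at a
  rw [hcU, hcU, hc_eq_iff _ _ _ _ (n - 1) (by omega)]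
  refine ⟨res ((I k W).X (n - 1)) (U := (Opens.map (g ≫ f)).obj U) (fun w _ => h w)
    (app (G.hom n (n - 1)) U s), ?_⟩
  have b := congrArg (res ((I k W).X n) (U := (Opens.map (g ≫ f)).obj U) (V := ⊤)
    fun w _ => h w) a
  rw [map_add] at b
  rw [app_res, eq_sub_iff_add_eq]
  exact b.symm

/-- A map which is a cohomology isomorphism over small neighbourhoods of `x`. -/
theorem qisAt_of_basis [Nice E] [Nice B] (f : E ⟶ B) {x : B} (h : ∀ U : Opens B, x ∈ U →
    ∃ (V W : TopCat.{0}) (j : V ⟶ B) (i : W ⟶ E) (q : W ⟶ V), IsOpenEmbedding j ∧ x ∈ range j ∧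
      range j ⊆ U ∧ IsInducing i ∧ f ⁻¹' range j ⊆ range i ∧ q ≫ j = i ≫ f ∧
      Function.Bijective (pb (k := k) q)) : QisAt (pullC k f) x := by
  refine fun n => ⟨fun U hU s hs => ?_, fun U hU s hs t ht => ?_⟩
  all_goals
    obtain ⟨V, W, j, i, q, hj, xj, jU, hi, hr, e, hq⟩ := h U hU
    let U' : Opens B := ⟨_, hj.isOpen_range⟩
    have m : ∀ v, j v ∈ U' := fun v => ⟨v, rfl⟩
    have m' : ∀ w, (i ≫ f) w ∈ U' := fun w => e ▸ m (q w)
    have c : ∀ u hu, pb q (hcU j m (n := n) u hu) = hcU (k := k) (i ≫ f) m' u hu := fun u hu => by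
      rw [pb_hcU]
      congr 1
  · have d1 : app (((pushC k f).obj (I k E)).d n (n + 1)) U' (res _ jU s) = 0 := by
      rw [app_res, hs, map_zero]
    obtain ⟨a, ha⟩ := hq.2 (hcU i (U := (Opens.map f).obj U') m' _ d1)
    obtain ⟨u, hu, e1⟩ := hcU_surj hj.isInducing Subset.rfl m (KG.pr_mem_deg n a)
    have d2 := (app_f_d (pullC k f) n (n + 1) U' u).symm.trans (by rw [hu, map_zero])
    obtain ⟨t, ht⟩ := hcU_eq_zero (U := (Opens.map f).obj U') hi hr m' _
      ((map_sub _ _ _).trans ((congrArg₂ _ d1 d2).trans (sub_zero _))) (by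
      rw [hcU_sub (f := i) (U := (Opens.map f).obj U') m' _ _ d1 d2, hcU_comp i f m' u hu, ← c, e1, pb_pr, ha, KG.pr_of_mem (hcU_mem _ _ _),
        sub_self])
    exact ⟨U', jU, xj, u, hu, t, (eq_sub_iff_add_eq'.1 ht)⟩
  · have d1 : app ((I k B).d n (n + 1)) U' (res _ jU s) = 0 := by rw [app_res, hs, map_zero]
    refine ⟨U', jU, xj, hcU_eq_zero hj.isInducing Subset.rfl m _ d1 (hq.1 ?_)⟩
    rw [c, map_zero, ← hcU_comp, ← hcU_d (f := i) (U := (Opens.map f).obj U') m'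
      (show n - 1 + 1 = n by omega) (res (((pushC k f).obj (I k E)).X (n - 1)) jU t)]
    refine hcU_congr _ ?_ _
    exact (app_res _ _ _).trans ((congrArg _ ht.symm).trans
      (app_res (((pushC k f).obj (I k E)).d (n - 1) n) _ _).symm)

theorem nice_sub (X : TopCat.{0}) [Nice X] {s : Set X} (hs : IsOpen s) : Nice (TopCat.of s) :=
  ⟨hs.locallyCompactSpace, inferInstance, inferInstance⟩

/-- A map which is locally a fibrewise deformation retraction. -/
theorem isIso_pullI_retr [Nice E] [Nice B] (f : E ⟶ B) (h : ∀ x, ∃ V : Set B, IsOpen V ∧ x ∈ V ∧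
    ∃ (s : B → E) (G : unitInterval × E → E), ContinuousOn s V ∧ (∀ y ∈ V, f (s y) = y) ∧
      ContinuousOn G (univ ×ˢ (f ⁻¹' V)) ∧ ∀ w, f w ∈ V →
        G (0, w) = s (f w) ∧ G (1, w) = w ∧ ∀ t, f (G (t, w)) = f w) : IsIso (pullI k f) := by
  refine isIso_pullI fun x => qisAt_of_basis f fun U hU => ?_
  obtain ⟨V, hV, xV, s, G, cs, fs, cG, hG⟩ := h x
  have o1 : IsOpen (V ∩ U) := hV.inter U.2
  have o2 : IsOpen (f ⁻¹' (V ∩ U)) := o1.preimage f.hom.continuous
  have := nice_sub B o1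
  have := nice_sub E o2
  let q : TopCat.of (f ⁻¹' (V ∩ U) :) ⟶ TopCat.of (V ∩ U :) := TopCat.ofHom
    ⟨fun w => ⟨f w.1, w.2⟩, (f.hom.continuous.comp continuous_subtype_val).subtype_mk _⟩
  have m0 : ∀ y : (V ∩ U :), s y.1 ∈ f ⁻¹' (V ∩ U) := fun y => by
    rw [mem_preimage, fs _ y.2.1]
    exact y.2
  let σ : TopCat.of (V ∩ U :) ⟶ TopCat.of (f ⁻¹' (V ∩ U) :) := TopCat.ofHom
    ⟨fun y => ⟨s y.1, m0 y⟩,
      (cs.comp_continuous continuous_subtype_val fun y => y.2.1).subtype_mk m0⟩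
  have m : ∀ p : unitInterval × (f ⁻¹' (V ∩ U) :), G (p.1, p.2.1) ∈ f ⁻¹' (V ∩ U) := fun p => by
    rw [mem_preimage, (hG _ p.2.2.1).2.2]
    exact p.2.2
  refine ⟨_, _, TopCat.ofHom ⟨Subtype.val, continuous_subtype_val⟩,
    TopCat.ofHom ⟨Subtype.val, continuous_subtype_val⟩, q, o1.isOpenEmbedding_subtypeVal,
    ⟨⟨x, xV, hU⟩, rfl⟩, fun _ ⟨y, e⟩ => e ▸ y.2.2, IsInducing.subtypeVal,
    fun w ⟨y, e⟩ => ⟨⟨w, by rw [mem_preimage, ← e]; exact y.2⟩, rfl⟩, rfl,
    pb_bijective_of_homotopy q σ ⟨⟨⟨fun p => ⟨G (p.1, p.2.1), m p⟩, (cG.comp_continuous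
      (by fun_prop) fun p => ⟨trivial, p.2.2.1⟩).subtype_mk m⟩,
      fun w => Subtype.ext (hG _ w.2.1).1, fun w => Subtype.ext (hG _ w.2.1).2.1⟩⟩ ?_⟩
  have : σ ≫ q = 𝟙 _ := by
    ext y
    exact fs _ y.2.1
  rw [this]

/-- A locally trivial map with contractible fibre. -/
theorem isIso_pullI_triv [Nice E] [Nice B] (f : E ⟶ B) (A : Type) [TopologicalSpace A]
    [ContractibleSpace A] (h : ∀ x, ∃ e : Bundle.Trivialization A f, x ∈ e.baseSet) :
    IsIso (pullI k f) := by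
  obtain ⟨a, ⟨G⟩⟩ := id_nullhomotopic A
  refine isIso_pullI_retr f fun x => ?_
  obtain ⟨e, hx⟩ := h x
  have c1 : ContinuousOn e.toOpenPartialHomeomorph.symm (e.baseSet ×ˢ univ) :=
    e.target_eq ▸ e.toOpenPartialHomeomorph.continuousOn_symm
  have c2 : ContinuousOn e (f ⁻¹' e.baseSet) := by
    rw [← e.source_eq]
    exact e.toOpenPartialHomeomorph.continuousOn
  refine ⟨_, e.open_baseSet, hx, fun y => e.toOpenPartialHomeomorph.symm (y, a),
    fun p => e.toOpenPartialHomeomorph.symm (f p.2, G.symm (p.1, (e p.2).2)),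
    c1.comp (by fun_prop) fun y hy => ⟨hy, trivial⟩, fun y hy => e.proj_symm_apply' hy,
    c1.comp ((f.hom.continuous.comp continuous_snd).continuousOn.prodMk
      (G.symm.continuous.comp_continuousOn (continuousOn_fst.prodMk
        (c2.comp continuousOn_snd fun p hp => hp.2).snd))) fun p hp => ⟨hp.2, trivial⟩,
    fun w hw => ⟨by simp, ?_, fun t => e.proj_symm_apply' hw⟩⟩
  simpa using e.symm_apply_mk_proj (e.mem_source.2 hw)

end P275S
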