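import Mathlib

/-! Sheaves of vector spaces on a space: element level interface. -/

open CategoryTheory TopologicalSpace Opposite Limits

noncomputable section

namespace P275S

/-- Sheaves of `k`-vector spaces on `X`. -/
abbrev Sh (k : Type) [Field k] (X : TopCat.{0}) : Type 1 := TopCat.Sheaf (ModuleCat.{0} k) X

/-- Complexes of sheaves of `k`-vector spaces on `X`. -/
abbrev Cx (k : Type) [Field k] (X : TopCat.{0}) : Type 1 := CochainComplex (Sh k X) ℤ

variable {k : Type} [Field k] {X Y : TopCat.{0}}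

instance linearSh : Linear k (Sh k X) :=
  inferInstanceAs (Linear k (Sheaf (Opens.grothendieckTopology X) (ModuleCat.{0} k)))

/-- Sections over an open set. -/
abbrev sec (F : Sh k X) (U : Opens X) : Type := F.1.obj (op U)

/-- Restriction of sections. -/
def res (F : Sh k X) {U V : Opens X} (h : V ≤ U) : sec F U →ₗ[k] sec F V :=
  (F.1.map (homOfLE h).op).hom

/-- A morphism of sheaves on sections. -/
def app {F G : Sh k X} (φ : F ⟶ G) (U : Opens X) : sec F U →ₗ[k] sec G U :=
  (φ.1.app (op U)).hom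

@[simp] theorem res_self (F : Sh k X) {U : Opens X} (h : U ≤ U) (s : sec F U) :
    res F h s = s := by
  have : (homOfLE h).op = 𝟙 (op U) := rfl
  simp [res, this]

@[simp] theorem res_res (F : Sh k X) {U V W : Opens X} (h : V ≤ U) (h' : W ≤ V) (s : sec F U) :
    res F h' (res F h s) = res F (h'.trans h) s := by
  have : (homOfLE (h'.trans h)).op = (homOfLE h).op ≫ (homOfLE h').op := rfl
  simp [res, this]

theorem app_res {F G : Sh k X} (φ : F ⟶ G) {U V : Opens X} (h : V ≤ U) (s : sec F U) :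
    app φ V (res F h s) = res G h (app φ U s) := by
  have := congrArg (fun f => (ModuleCat.Hom.hom f) s) (φ.1.naturality (homOfLE h).op)
  simpa [app, res] using this

@[simp] theorem app_id (F : Sh k X) (U : Opens X) (s : sec F U) : app (𝟙 F) U s = s := rfl

@[simp] theorem app_comp {F G H : Sh k X} (φ : F ⟶ G) (ψ : G ⟶ H) (U : Opens X) (s : sec F U) :
    app (φ ≫ ψ) U s = app ψ U (app φ U s) := rfl

@[simp] theorem app_zero {F G : Sh k X} (U : Opens X) (s : sec F U) :
    app (0 : F ⟶ G) U s = 0 := rfl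

@[simp] theorem app_add {F G : Sh k X} (φ ψ : F ⟶ G) (U : Opens X) (s : sec F U) :
    app (φ + ψ) U s = app φ U s + app ψ U s := rfl

@[simp] theorem app_neg {F G : Sh k X} (φ : F ⟶ G) (U : Opens X) (s : sec F U) :
    app (-φ) U s = -app φ U s := rfl

@[simp] theorem app_sub {F G : Sh k X} (φ ψ : F ⟶ G) (U : Opens X) (s : sec F U) :
    app (φ - ψ) U s = app φ U s - app ψ U s := rfl

@[simp] theorem app_smul {F G : Sh k X} (c : k) (φ : F ⟶ G) (U : Opens X) (s : sec F U) :
    app (c • φ) U s = c • app φ U s := rfl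

theorem hom_ext {F G : Sh k X} {φ ψ : F ⟶ G} (h : ∀ U s, app φ U s = app ψ U s) : φ = ψ := by
  apply Sheaf.hom_ext
  ext U s
  exact h U.unop s

/-- A section that is locally zero is zero. -/
theorem loc_zero (F : Sh k X) {U : Opens X} (s : sec F U)
    (h : ∀ x ∈ U, ∃ V, ∃ hV : V ≤ U, x ∈ V ∧ res F hV s = 0) : s = 0 := by
  refine TopCat.Presheaf.IsSheaf.section_ext (F := F.1) F.2 (U := op U) fun x hx => ?_
  obtain ⟨V, hV, hx, h0⟩ := h x hx
  refine ⟨V, hV, hx, ?_⟩
  change res F hV s = res F hV 0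
  rw [h0, map_zero]

theorem loc_ext (F : Sh k X) {U : Opens X} (s t : sec F U)
    (h : ∀ x ∈ U, ∃ V, ∃ hV : V ≤ U, x ∈ V ∧ res F hV s = res F hV t) : s = t := by
  rw [← sub_eq_zero]
  refine loc_zero F _ fun x hx => ?_
  obtain ⟨V, hV, hx, h0⟩ := h x hx
  exact ⟨V, hV, hx, by rw [map_sub, h0, sub_self]⟩

/-- Gluing of compatible sections over an open cover of `U`. -/
theorem glue (F : Sh k X) {ι : Type} (V : ι → Opens X) (U : Opens X) (hV : ∀ i, V i ≤ U)
    (hU : U ≤ iSup V) (s : ∀ i, sec F (V i))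
    (h : ∀ i j, res F (inf_le_left : V i ⊓ V j ≤ V i) (s i) =
      res F (inf_le_right : V i ⊓ V j ≤ V j) (s j)) :
    ∃ t : sec F U, ∀ i, res F (hV i) t = s i := by
  obtain ⟨t, ht, -⟩ := TopCat.Sheaf.existsUnique_gluing' F V U (fun i => homOfLE (hV i)) hU s h
  exact ⟨t, ht⟩

/-- Gluing of two sections. -/
theorem glue₂ (F : Sh k X) {U V W : Opens X} (hU : U ≤ W) (hV : V ≤ W) (hW : W ≤ U ⊔ V)
    (s : sec F U) (t : sec F V)
    (h : res F (inf_le_left : U ⊓ V ≤ U) s = res F (inf_le_right : U ⊓ V ≤ V) t) :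
    ∃ w : sec F W, res F hU w = s ∧ res F hV w = t := by
  let O : Bool → Opens X := fun b => Bool.rec U V b
  let σ : ∀ b, sec F (O b) := fun b => Bool.rec s t b
  have hO : ∀ b, O b ≤ W := fun b => by cases b <;> assumption
  obtain ⟨w, hw⟩ := glue F O W hO
    (hW.trans (sup_le (le_iSup O false) (le_iSup O true))) σ (by
      rintro (_ | _) (_ | _)
      · rfl
      · exact h
      · have := congrArg (res F (le_of_eq (inf_comm V U) : V ⊓ U ≤ U ⊓ V)) h
        rw [res_res, res_res] at this
        exact this.symm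
      · rfl)
  exact ⟨w, hw false, hw true⟩

/-- A morphism of sheaves from linear maps on sections commuting with restrictions. -/
def mkHom {F G : Sh k X} (φ : ∀ U, sec F U →ₗ[k] sec G U)
    (h : ∀ U V (hV : V ≤ U) s, φ V (res F hV s) = res G hV (φ U s)) : F ⟶ G :=
  ObjectProperty.homMk
    { app := fun U => ModuleCat.ofHom (φ U.unop)
      naturality := fun U V f => by
        ext s
        exact h U.unop V.unop f.unop.le s }

@[simp] theorem app_mkHom {F G : Sh k X} (φ : ∀ U, sec F U →ₗ[k] sec G U) (h) (U : Opens X) :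
    app (mkHom φ h) U = φ U := rfl

/-- Data for a sheaf of vector spaces. -/
structure Data (k : Type) [Field k] (X : TopCat.{0}) : Type 1 where
  /-- sections -/
  M : Opens X → ModuleCat.{0} k
  /-- restriction -/
  r : ∀ {U V : Opens X}, V ≤ U → (M U →ₗ[k] M V)
  r_self : ∀ (U : Opens X) (s : M U), r le_rfl s = s
  r_r : ∀ {U V W : Opens X} (h : V ≤ U) (h' : W ≤ V) (s : M U),
    r h' (r h s) = r (h'.trans h) s
  loc : ∀ (U : Opens X) (s : M U),
    (∀ x ∈ U, ∃ V, ∃ hV : V ≤ U, x ∈ V ∧ r hV s = 0) → s = 0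
  gl : ∀ {ι : Type} (V : ι → Opens X) (s : ∀ i, M (V i)),
    (∀ i j, r (inf_le_left : V i ⊓ V j ≤ V i) (s i) = r (inf_le_right : V i ⊓ V j ≤ V j) (s j)) →
    ∃ t : M (iSup V), ∀ i, r (le_iSup V i) t = s i

/-- The presheaf of a `Data`. -/
def Data.pre (P : Data k X) : TopCat.Presheaf (ModuleCat.{0} k) X where
  obj U := P.M U.unop
  map f := ModuleCat.ofHom (P.r f.unop.le)
  map_id U := by
    ext s
    exact P.r_self _ s
  map_comp f g := by
    ext s
    exact (P.r_r _ _ s).symm

/-- The sheaf of a `Data`. -/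
def Data.sh (P : Data k X) : Sh k X :=
  ⟨P.pre, by
    refine (TopCat.Presheaf.isSheaf_iff_isSheafUniqueGluing P.pre).2 fun ι V s hs => ?_
    obtain ⟨t, ht⟩ := P.gl V s hs
    refine ⟨t, ht, fun t' ht' => ?_⟩
    have : (show P.M (iSup V) from t') - t = 0 := by
      refine P.loc _ _ fun x hx => ?_
      obtain ⟨i, hi⟩ := Opens.mem_iSup.1 hx
      refine ⟨V i, le_iSup V i, hi, ?_⟩
      rw [map_sub, ht i]
      exact sub_eq_zero.2 (ht' i)
    exact sub_eq_zero.1 this⟩

theorem Data.res_sh (P : Data k X) {U V : Opens X} (h : V ≤ U) : res P.sh h = P.r h := rfl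

/-- The support of a section. -/
def supp {F : Sh k X} {U : Opens X} (s : sec F U) : Set X :=
  {x | x ∈ U ∧ ∀ V, ∀ hV : V ≤ U, x ∈ V → res F hV s ≠ 0}

theorem not_mem_supp {F : Sh k X} {U : Opens X} {s : sec F U} {x : X} (hx : x ∈ U) :
    x ∉ supp s ↔ ∃ V, ∃ hV : V ≤ U, x ∈ V ∧ res F hV s = 0 := by
  simp [supp, hx]

theorem supp_subset {F : Sh k X} {U : Opens X} (s : sec F U) : supp s ⊆ U := fun _ h => h.1

/-- The largest open subset of `U` on which `s` vanishes. -/
def zer {F : Sh k X} {U : Opens X} (s : sec F U) : Opens X :=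
  ⟨(U : Set X) \ supp s, by
    rw [isOpen_iff_forall_mem_open]
    rintro x ⟨hx, hx'⟩
    obtain ⟨V, hV, hxV, h0⟩ := (not_mem_supp hx).1 hx'
    exact ⟨V, fun y hy => ⟨hV hy, (not_mem_supp (hV hy)).2 ⟨V, hV, hy, h0⟩⟩, V.2, hxV⟩⟩

theorem mem_zer {F : Sh k X} {U : Opens X} {s : sec F U} {x : X} :
    x ∈ zer s ↔ x ∈ U ∧ x ∉ supp s := Iff.rfl

theorem zer_le {F : Sh k X} {U : Opens X} (s : sec F U) : zer s ≤ U := fun _ h => h.1

theorem res_eq_zero_iff {F : Sh k X} {U V : Opens X} (h : V ≤ U) (s : sec F U) :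
    res F h s = 0 ↔ Disjoint (supp s) V := by
  constructor
  · intro h0
    exact Set.disjoint_left.2 fun x hx hxV => hx.2 V h hxV h0
  · intro hd
    refine loc_zero F _ fun x hx => ?_
    obtain ⟨W, hW, hxW, h0⟩ := (not_mem_supp (h hx)).1 fun hs => Set.disjoint_left.1 hd hs hx
    refine ⟨V ⊓ W, inf_le_left, ⟨hx, hxW⟩, ?_⟩
    rw [res_res, ← res_res F hW inf_le_right, h0, map_zero]

theorem res_zer {F : Sh k X} {U : Opens X} (s : sec F U) : res F (zer_le s) s = 0 :=
  (res_eq_zero_iff _ s).2 (Set.disjoint_left.2 fun _ hx hz => hz.2 hx)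

theorem supp_res {F : Sh k X} {U V : Opens X} (h : V ≤ U) (s : sec F U) :
    supp (res F h s) = supp s ∩ V := by
  ext x
  by_cases hx : x ∈ V
  · have h1 := not_mem_supp (s := res F h s) hx
    have h2 := not_mem_supp (s := s) (h hx)
    have : x ∉ supp (res F h s) ↔ x ∉ supp s := by
      rw [h1, h2]
      constructor
      · rintro ⟨W, hW, hxW, h0⟩
        exact ⟨W, hW.trans h, hxW, by simpa using h0⟩
      · rintro ⟨W, hW, hxW, h0⟩
        refine ⟨V ⊓ W, inf_le_left, ⟨hx, hxW⟩, ?_⟩
        rw [res_res, ← res_res F hW inf_le_right, h0, map_zero]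
    simp only [Set.mem_inter_iff, SetLike.mem_coe, hx, and_true]
    exact not_iff_not.1 this
  · exact ⟨fun h' => absurd h'.1 hx, fun h' => absurd h'.2 hx⟩

@[simp] theorem supp_zero (F : Sh k X) (U : Opens X) : supp (0 : sec F U) = ∅ := by
  ext x
  refine ⟨fun h => (h.2 U le_rfl h.1 (map_zero _)).elim, fun h => h.elim⟩

theorem supp_eq_empty {F : Sh k X} {U : Opens X} {s : sec F U} : supp s = ∅ ↔ s = 0 := by
  refine ⟨fun h => ?_, fun h => by rw [h, supp_zero]⟩
  have := (res_eq_zero_iff le_rfl s).2 (by rw [h]; exact Set.empty_disjoint _)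
  simpa using this

theorem supp_add {F : Sh k X} {U : Opens X} (s t : sec F U) :
    supp (s + t) ⊆ supp s ∪ supp t := by
  intro x hx
  by_contra hn
  rw [Set.mem_union, not_or] at hn
  obtain ⟨V, hV, hxV, h0⟩ := (not_mem_supp hx.1).1 hn.1
  obtain ⟨W, hW, hxW, h1⟩ := (not_mem_supp hx.1).1 hn.2
  refine hx.2 (V ⊓ W) (inf_le_left.trans hV) ⟨hxV, hxW⟩ ?_
  rw [map_add, ← res_res F hV inf_le_left s, h0, ← res_res F hW inf_le_right t, h1]
  simp

theorem supp_app {F G : Sh k X} (φ : F ⟶ G) {U : Opens X} (s : sec F U) :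
    supp (app φ U s) ⊆ supp s := fun x hx =>
  ⟨hx.1, fun V hV hxV h0 => hx.2 V hV hxV (by rw [← app_res, h0, map_zero])⟩

theorem supp_smul {F : Sh k X} {U : Opens X} (c : k) (s : sec F U) : supp (c • s) ⊆ supp s :=
  supp_app (c • 𝟙 F) s

theorem supp_neg {F : Sh k X} {U : Opens X} (s : sec F U) : supp (-s) = supp s :=
  (supp_app (-𝟙 F) s).antisymm (by simpa using supp_app (-𝟙 F) (-s))

theorem supp_sub {F : Sh k X} {U : Opens X} (s t : sec F U) :
    supp (s - t) ⊆ supp s ∪ supp t := by
  rw [sub_eq_add_neg, ← supp_neg t]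
  exact supp_add _ _

theorem isClosed_supp {F : Sh k X} (s : sec F ⊤) : IsClosed (supp s) := by
  have : supp s = (zer s : Set X)ᶜ := by
    ext x
    simp [mem_zer]
  rw [this]
  exact (zer s).2.isClosed_compl

/-- Extension by zero of a section whose support lies in a set `C ⊆ U` closed in `W`. -/
theorem ext_zero (F : Sh k X) {U W : Opens X} (hU : U ≤ W) (s : sec F U) {C : Set X}
    (hC : IsClosed C) (hs : supp s ⊆ C) (hCU : C ∩ W ⊆ U) :
    ∃ t : sec F W, res F hU t = s ∧ supp t = supp s := by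
  let V : Opens X := W ⊓ ⟨Cᶜ, hC.isOpen_compl⟩
  obtain ⟨t, h1, h2⟩ := glue₂ F hU (inf_le_left : V ≤ W) (fun x hx => by
      by_cases hc : x ∈ C
      · exact Or.inl (hCU ⟨hc, hx⟩)
      · exact Or.inr ⟨hx, hc⟩) s 0 (by
      rw [map_zero, res_eq_zero_iff]
      exact Set.disjoint_left.2 fun x hx hx' => hx'.2.2 (hs hx))
  refine ⟨t, h1, ?_⟩
  rw [← h1, supp_res]
  refine (Set.inter_eq_left.2 fun x hx => ?_).symm
  by_contra hxU
  have hc : x ∉ C := fun hc => hxU (hCU ⟨hc, hx.1⟩)
  exact hx.2 V inf_le_left ⟨hx.1, hc⟩ h2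

/-- Sections with support in a set `S`, as a submodule. -/
def suppIn (F : Sh k X) (S : Set X) (U : Opens X) : Submodule k (sec F U) where
  carrier := {s | supp s ⊆ S}
  zero_mem' := by simp
  add_mem' := fun {a b} ha hb => (supp_add a b).trans (Set.union_subset ha hb)
  smul_mem' := fun c s hs => (supp_smul c s).trans hs

theorem mem_suppIn {F : Sh k X} {S : Set X} {U : Opens X} {s : sec F U} :
    s ∈ suppIn F S U ↔ supp s ⊆ S := Iff.rfl

/-- A locally defined family of submodules of sections. -/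
structure SubData (F : Sh k X) where
  /-- the submodules -/
  P : ∀ U, Submodule k (sec F U)
  res_mem : ∀ {U V : Opens X} (h : V ≤ U) {s : sec F U}, s ∈ P U → res F h s ∈ P V
  loc : ∀ (U : Opens X) (s : sec F U),
    (∀ x ∈ U, ∃ V, ∃ hV : V ≤ U, x ∈ V ∧ res F hV s ∈ P V) → s ∈ P U

/-- The subsheaf of a `SubData`. -/
def SubData.sh {F : Sh k X} (S : SubData F) : Sh k X :=
  Data.sh
    { M := fun U => ModuleCat.of k (S.P U)
      r := fun h => (res F h).restrict fun _ hs => S.res_mem h hs
      r_self := fun U s => Subtype.ext (res_self F _ s.1)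
      r_r := fun h h' s => Subtype.ext (res_res F h h' s.1)
      loc := fun U s hs => Subtype.ext (loc_zero F s.1 fun x hx => by
        obtain ⟨V, hV, hxV, h0⟩ := hs x hx
        exact ⟨V, hV, hxV, congrArg Subtype.val h0⟩)
      gl := fun V s hs => by
        obtain ⟨t, ht⟩ := glue F V (iSup V) (le_iSup V) le_rfl (fun i => (s i).1)
          fun i j => congrArg Subtype.val (hs i j)
        refine ⟨⟨t, S.loc _ t fun x hx => ?_⟩, fun i => Subtype.ext (ht i)⟩
        obtain ⟨i, hi⟩ := Opens.mem_iSup.1 hx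
        exact ⟨V i, le_iSup V i, hi, by rw [ht i]; exact (s i).2⟩ }

/-- The inclusion of a subsheaf. -/
def SubData.ι {F : Sh k X} (S : SubData F) : S.sh ⟶ F :=
  mkHom (fun U => (S.P U).subtype) fun _ _ _ _ => rfl

theorem SubData.ι_injective {F : Sh k X} (S : SubData F) (U : Opens X) :
    Function.Injective (app S.ι U) := Subtype.val_injective

theorem SubData.ι_mem {F : Sh k X} (S : SubData F) (U : Opens X) (s : sec S.sh U) :
    app S.ι U s ∈ S.P U := s.2

theorem SubData.exists_ι {F : Sh k X} (S : SubData F) {U : Opens X} {s : sec F U}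
    (hs : s ∈ S.P U) : ∃ t : sec S.sh U, app S.ι U t = s := ⟨⟨s, hs⟩, rfl⟩

/-- A morphism into a subsheaf. -/
def SubData.lift {F G : Sh k X} (S : SubData F) (φ : G ⟶ F)
    (h : ∀ U s, app φ U s ∈ S.P U) : G ⟶ S.sh :=
  mkHom (fun U => (app φ U).codRestrict (S.P U) (h U)) fun _ _ hV s =>
    Subtype.ext (app_res φ hV s)

@[simp] theorem SubData.lift_ι {F G : Sh k X} (S : SubData F) (φ : G ⟶ F) (h) :
    S.lift φ h ≫ S.ι = φ := hom_ext fun _ _ => rfl

/-- Sections with support in `S`. -/
def suppData (S : Set X) (F : Sh k X) : SubData F where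
  P := suppIn F S
  res_mem := fun h s hs => by
    rw [mem_suppIn, supp_res]
    exact Set.inter_subset_left.trans hs
  loc := fun U s hs x hx => by
    obtain ⟨V, hV, hxV, h0⟩ := hs x hx.1
    rw [mem_suppIn, supp_res] at h0
    exact h0 ⟨hx, hxV⟩

/-- The subsheaf of sections with support in `S` (for closed `S`: local sections supported in
`S`; for open `S`: extension by zero of the restriction to `S`). -/
def GamS (k : Type) [Field k] (S : Set X) : Sh k X ⥤ Sh k X where
  obj F := (suppData S F).sh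
  map {F G} φ := (suppData S G).lift ((suppData S F).ι ≫ φ) fun U s =>
    (supp_app φ _).trans ((suppData S F).ι_mem U s)
  map_id _ := hom_ext fun _ _ => rfl
  map_comp _ _ := hom_ext fun _ _ => rfl

instance (S : Set X) : (GamS k S).Additive where
  map_add := hom_ext fun _ _ => rfl

instance (S : Set X) : (GamS k S).Linear k where
  map_smul _ _ := hom_ext fun _ _ => rfl

/-- The inclusion of the sections with support in `S`. -/
def GamSι (k : Type) [Field k] (S : Set X) : GamS k S ⟶ 𝟭 (Sh k X) where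
  app F := (suppData S F).ι
  naturality _ _ _ := hom_ext fun _ _ => rfl

/-- Sections over `U`, as a functor. -/
def Gam (k : Type) [Field k] (U : Opens X) : Sh k X ⥤ ModuleCat.{0} k where
  obj F := F.1.obj (op U)
  map φ := φ.1.app (op U)

instance (U : Opens X) : (Gam k U).Additive where

instance (U : Opens X) : (Gam k U).Linear k where
  map_smul _ _ := rfl

/-- The stalk at `x`, as a functor. -/
abbrev Stk (k : Type) [Field k] (x : X) : Sh k X ⥤ ModuleCat.{0} k :=
  TopCat.Sheaf.forget _ X ⋙ TopCat.Presheaf.stalkFunctor _ x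

/-- Direct image. -/
abbrev push (k : Type) [Field k] (f : X ⟶ Y) : Sh k X ⥤ Sh k Y :=
  TopCat.Sheaf.pushforward (ModuleCat.{0} k) f

instance (f : X ⟶ Y) : (push k f).Additive where

instance (f : X ⟶ Y) : (push k f).Linear k where
  map_smul _ _ := rfl

theorem res_push (f : X ⟶ Y) (F : Sh k X) {U V : Opens Y} (h : V ≤ U)
    (s : sec ((push k f).obj F) U) :
    res ((push k f).obj F) h s =
      res F (U := (Opens.map f).obj U) (V := (Opens.map f).obj V) (fun _ hx => h hx) s := rfl

theorem app_push (f : X ⟶ Y) {F G : Sh k X} (φ : F ⟶ G) (U : Opens Y)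
    (s : sec ((push k f).obj F) U) :
    app ((push k f).map φ) U s = app φ ((Opens.map f).obj U) s := rfl

/-- Direct image of complexes. -/
abbrev pushC (k : Type) [Field k] (f : X ⟶ Y) : Cx k X ⥤ Cx k Y :=
  (push k f).mapHomologicalComplex _

/-- The constant sheaf: locally constant functions with values in the vector space `V`. -/
def cstV (V : Type) [AddCommGroup V] [Module k V] (X : TopCat.{0}) : Sh k X :=
  Data.sh
    { M := fun U => ModuleCat.of k (LocallyConstant U V)
      r := fun {U W} h => LocallyConstant.comapₗ k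
        ⟨Set.inclusion h, continuous_inclusion h⟩
      r_self := fun _ _ => rfl
      r_r := fun _ _ _ => rfl
      loc := fun U s hs => by
        ext x
        obtain ⟨W, hW, hx, h0⟩ := hs x.1 x.2
        exact congrArg (fun t : LocallyConstant W V => t ⟨x.1, hx⟩) h0
      gl := fun {ι} W s hs => by
        have hx : ∀ x : (iSup W : Opens X), ∃ i, x.1 ∈ W i := fun x => Opens.mem_iSup.1 x.2
        choose a ha using hx
        have key : ∀ i (x : (iSup W : Opens X)) (hi : x.1 ∈ W i),
            (s (a x) : LocallyConstant (W (a x)) V) ⟨x.1, ha x⟩ =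
              (s i : LocallyConstant (W i) V) ⟨x.1, hi⟩ := fun i x hi =>
          congrArg (fun t : LocallyConstant (W (a x) ⊓ W i : Opens X) V => t ⟨x.1, ha x, hi⟩)
            (hs (a x) i)
        refine ⟨⟨fun x => (s (a x) : LocallyConstant (W (a x)) V) ⟨x.1, ha x⟩, ?_⟩, fun i => ?_⟩
        · rw [IsLocallyConstant.iff_eventually_eq]
          intro x
          have h1 := (IsLocallyConstant.iff_eventually_eq _).1
            (s (a x) : LocallyConstant (W (a x)) V).isLocallyConstant ⟨x.1, ha x⟩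
          rw [nhds_subtype, Filter.eventually_comap] at h1
          rw [nhds_subtype, Filter.eventually_comap]
          filter_upwards [h1, (W (a x)).2.mem_nhds (ha x)] with y hy hy' z hz
          subst hz
          rw [key (a x) z hy']
          exact hy ⟨z.1, hy'⟩ rfl
        · ext x
          exact key i ⟨x.1, le_iSup W i x.2⟩ x.2 }

/-- The constant sheaf with stalk `k`. -/
abbrev cst (k : Type) [Field k] (X : TopCat.{0}) : Sh k X := cstV (k := k) k X

end P275S
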