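import Vale.Agent.P275S.Unit
import Vale.Agent.P275CC.Defs

/-! The first Chern class of a line bundle as a cocycle of a resolution of `ℂ_X`. -/

open CategoryTheory TopologicalSpace Opposite Limits Filter Topology
open P275CC (LB Co Cov)

noncomputable section

namespace P275S

variable {X Y : TopCat.{0}}

/-- The sheaf of continuous complex functions. -/
def C0 (X : TopCat.{0}) : Sh ℂ X :=
  Data.sh
    { M := fun U => ModuleCat.of ℂ C(U, ℂ)
      r := fun {U W} h =>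
        { toFun := fun f => f.comp ⟨Set.inclusion h, continuous_inclusion h⟩
          map_add' := fun _ _ => rfl
          map_smul' := fun _ _ => rfl }
      r_self := fun _ _ => rfl
      r_r := fun _ _ _ => rfl
      loc := fun U s hs => by
        ext x
        obtain ⟨W, hW, hx, h0⟩ := hs x.1 x.2
        exact congrArg (fun t : C(W, ℂ) => t ⟨x.1, hx⟩) h0
      gl := fun {ι} W s hs => by
        have hx : ∀ x : (iSup W : Opens X), ∃ i, x.1 ∈ W i := fun x => Opens.mem_iSup.1 x.2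
        choose a ha using hx
        have key : ∀ i (x : (iSup W : Opens X)) (hi : x.1 ∈ W i),
            (s (a x) : C(W (a x), ℂ)) ⟨x.1, ha x⟩ = (s i : C(W i, ℂ)) ⟨x.1, hi⟩ := fun i x hi =>
          congrArg (fun t : C((W (a x) ⊓ W i : Opens X), ℂ) => t ⟨x.1, ha x, hi⟩) (hs (a x) i)
        refine ⟨⟨fun x => (s (a x) : C(W (a x), ℂ)) ⟨x.1, ha x⟩, ?_⟩, fun i => ?_⟩
        · rw [continuous_iff_continuousAt]
          intro x
          have o : IsOpen {z : (iSup W : Opens X) | z.1 ∈ W (a x)} :=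
            (W (a x)).2.preimage continuous_subtype_val
          refine ContinuousOn.continuousAt ?_ (o.mem_nhds (ha x))
          rw [continuousOn_iff_continuous_domRestrict]
          refine ((s (a x) : C(W (a x), ℂ)).continuous.comp
            ((continuous_subtype_val.comp continuous_subtype_val).subtype_mk
              fun z => z.2)).congr fun z => (key (a x) z.1 z.2).symm
        · ext x
          exact key i ⟨x.1, le_iSup W i x.2⟩ x.2 }

open Classical in
/-- The value of a continuous section at a point (zero outside the domain). -/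
def cv {U : Opens X} (l : sec (C0 X) U) (x : X) : ℂ :=
  if h : x ∈ U then (show C(U, ℂ) from l) ⟨x, h⟩ else 0

theorem cv_res {U V : Opens X} (h : V ≤ U) (l : sec (C0 X) U) {x : X} (hx : x ∈ V) :
    cv (res _ h l) x = cv l x := by
  rw [cv, cv, dif_pos hx, dif_pos (h hx)]
  rfl

theorem cv_add {U : Opens X} (l l' : sec (C0 X) U) (x : X) : cv (l + l') x = cv l x + cv l' x := by
  unfold cv
  split_ifs
  · rfl
  · simp

theorem cv_smul {U : Opens X} (a : ℂ) (l : sec (C0 X) U) (x : X) : cv (a • l) x = a * cv l x := by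
  unfold cv
  split_ifs
  · rfl
  · simp

theorem cv_sub {U : Opens X} (l l' : sec (C0 X) U) (x : X) : cv (l - l') x = cv l x - cv l' x := by
  rw [sub_eq_add_neg, ← neg_one_smul ℂ l', cv_add, cv_smul]
  ring

theorem cv_zero {U : Opens X} (x : X) : cv (0 : sec (C0 X) U) x = 0 := by
  rw [← zero_smul ℂ (0 : sec (C0 X) U), cv_smul, zero_mul]

theorem cv_ext {U : Opens X} {l l' : sec (C0 X) U} (h : ∀ x ∈ U, cv l x = cv l' x) : l = l' := by
  refine ContinuousMap.ext fun x => ?_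
  have := h x.1 x.2
  rwa [cv, cv, dif_pos x.2, dif_pos x.2] at this

theorem cv_cont {U : Opens X} (l : sec (C0 X) U) : ContinuousOn (cv l) U := by
  rw [continuousOn_iff_continuous_domRestrict]
  exact (show C(U, ℂ) from l).continuous.congr fun x => by
    rw [Set.domRestrict_apply, cv, dif_pos (show x.1 ∈ U from x.2)]

theorem cv_at {U : Opens X} (l : sec (C0 X) U) {x : X} (hx : x ∈ U) : ContinuousAt (cv l) x :=
  (cv_cont l).continuousAt (U.2.mem_nhds hx)

/-- The section defined by a continuous function. -/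
def cmk {U : Opens X} (g : X → ℂ) (hg : ContinuousOn g U) : sec (C0 X) U :=
  (⟨fun x => g x.1, continuousOn_iff_continuous_domRestrict.1 hg⟩ : C(U, ℂ))

theorem cv_cmk {U : Opens X} (g : X → ℂ) (hg : ContinuousOn g U) {x : X} (hx : x ∈ U) :
    cv (cmk g hg) x = g x := by
  rw [cv, dif_pos hx]
  rfl

/-- The constant function one. -/
def cOne (U : Opens X) : sec (C0 X) U := cmk (fun _ => 1) continuousOn_const

theorem cv_cOne {U : Opens X} {x : X} (hx : x ∈ U) : cv (cOne U) x = 1 := cv_cmk _ _ hx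

theorem res_cOne {U V : Opens X} (h : V ≤ U) : res _ h (cOne U) = cOne V := rfl

instance : Mono (secHom (cOne (⊤ : Opens X))) := by
  refine (mono_iff _).2 fun U => (injective_iff_map_eq_zero _).2 fun f hf =>
    loc_zero _ f fun x hx => ?_
  obtain ⟨V, hV, xV, a, ha⟩ := exists_cst_eq f hx
  refine ⟨V, hV, xV, ?_⟩
  have := congrArg (fun s => cv (res _ hV s) x) hf
  simp only [map_zero, cv_zero] at this
  rw [← app_res, ha, map_smul, ← res_cstOne (le_top : V ≤ ⊤), app_res, secHom_one, res_cOne,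
    cv_smul, cv_cOne xV, mul_one] at this
  rw [ha, this, zero_smul]

/-- A global section of an injective sheaf is the image of `1` under a map from `C0`. -/
theorem exists_phi {G : Sh ℂ X} [Injective G] (e : sec G ⊤) :
    ∃ φ : C0 X ⟶ G, app φ ⊤ (cOne ⊤) = e :=
  ⟨Injective.factorThru (secHom e) (secHom (cOne ⊤)), by
    have := congrArg (fun φ => app φ ⊤ (cstOne ℂ ⊤))
      (Injective.comp_factorThru (secHom e) (secHom (cOne (⊤ : Opens X))))
    simpa only [app_comp, secHom_one] using this⟩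

/-- Pull back of continuous functions. -/
def c0pb (f : Y ⟶ X) : C0 X ⟶ (push ℂ f).obj (C0 Y) :=
  mkHom (fun U =>
    { toFun := fun l => (show C(((Opens.map f).obj U : Opens Y), ℂ) from
        (show C(U, ℂ) from l).comp ⟨fun y => ⟨f y.1, y.2⟩,
          (f.hom.continuous.comp continuous_subtype_val).subtype_mk _⟩)
      map_add' := fun _ _ => rfl
      map_smul' := fun _ _ => rfl }) fun _ _ _ _ => rfl

theorem cv_c0pb (f : Y ⟶ X) {U : Opens X} (l : sec (C0 X) U) (y : Y) :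
    cv (U := (Opens.map f).obj U) (app (c0pb f) U l) y = cv l (f y) := by
  unfold cv
  by_cases h : f y ∈ U
  · rw [dif_pos h, dif_pos (show y ∈ (Opens.map f).obj U from h)]
    rfl
  · rw [dif_neg h, dif_neg (show y ∉ (Opens.map f).obj U from h)]

theorem c0pb_one (f : Y ⟶ X) : app (c0pb f) ⊤ (cOne ⊤) = cOne ⊤ := rfl

theorem ev_zero_of_exp {Z : Type*} [TopologicalSpace Z] {h : Z → ℂ} {z : Z}
    (hc : ContinuousAt h z) (he : ∀ᶠ w in 𝓝 z, Complex.exp (h w) = 1) (h0 : h z = 0) :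
    ∀ᶠ w in 𝓝 z, h w = 0 := by
  have : ∀ᶠ w in 𝓝 z, ‖h w‖ < 1 := hc.norm.eventually_lt continuousAt_const (by simp [h0])
  filter_upwards [this, he] with w a b
  obtain ⟨n, hn⟩ := Complex.exp_eq_one_iff.1 b
  rw [hn] at a ⊢
  have c : |(n : ℝ)| * (2 * Real.pi) < 1 := by simpa [abs_of_pos Real.pi_pos] using a
  have : n = 0 := by
    by_contra hn0
    have : (1 : ℝ) ≤ |(n : ℝ)| := by exact_mod_cast Int.one_le_abs hn0
    nlinarith [Real.pi_gt_three]
  simp [this]

/-- `l` is a logarithm of `g` on `W`. -/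
def IsLog {S : Sh ℂ X} (j : S ⟶ C0 X) (g : X → ℂ) {W : Opens X} (l : sec S W) : Prop :=
  ∀ x ∈ W, Complex.exp (cv (app j W l) x) = g x

theorem IsLog.res {S : Sh ℂ X} {j : S ⟶ C0 X} {g : X → ℂ} {W V : Opens X} {l : sec S W}
    (h : IsLog j g l) (hV : V ≤ W) : IsLog j g (res S hV l) := fun x hx => by
  rw [app_res, cv_res hV _ hx, h x (hV hx)]

theorem IsLog.add {S : Sh ℂ X} {j : S ⟶ C0 X} {g g' : X → ℂ} {W : Opens X} {l l' : sec S W}
    (h : IsLog j g l) (h' : IsLog j g' l') : IsLog j (fun x => g x * g' x) (l + l') :=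
  fun x hx => by rw [map_add, cv_add, Complex.exp_add, h x hx, h' x hx]

theorem IsLog.sub {S : Sh ℂ X} {j : S ⟶ C0 X} {g g' : X → ℂ} {W : Opens X} {l l' : sec S W}
    (h : IsLog j g l) (h' : IsLog j g' l') : IsLog j (fun x => g x / g' x) (l - l') :=
  fun x hx => by rw [map_sub, cv_sub, Complex.exp_sub, h x hx, h' x hx]

theorem IsLog.congr {S : Sh ℂ X} {j : S ⟶ C0 X} {g g' : X → ℂ} {W : Opens X} {l : sec S W}
    (h : IsLog j g l) (e : ∀ x ∈ W, g x = g' x) : IsLog j g' l := fun x hx => (h x hx).trans (e x hx)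

theorem IsLog.ne {S : Sh ℂ X} {j : S ⟶ C0 X} {g : X → ℂ} {W : Opens X} {l : sec S W}
    (h : IsLog j g l) {x : X} (hx : x ∈ W) : g x ≠ 0 := h x hx ▸ Complex.exp_ne_zero _

/-- `g` has local logarithms in `S` on `U`. -/
def HasLog {S : Sh ℂ X} (j : S ⟶ C0 X) (g : X → ℂ) (U : Opens X) : Prop :=
  ∀ x ∈ U, ∃ W, W ≤ U ∧ x ∈ W ∧ ∃ l : sec S W, IsLog j g l

theorem HasLog.mono {S : Sh ℂ X} {j : S ⟶ C0 X} {g : X → ℂ} {U V : Opens X} (h : HasLog j g U)
    (hV : V ≤ U) : HasLog j g V := fun x hx =>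
  let ⟨W, _, b, _, c⟩ := h x (hV hx)
  ⟨V ⊓ W, inf_le_left, ⟨hx, b⟩, _, c.res inf_le_right⟩

theorem hasLog_id {g : X → ℂ} {U : Opens X} (hg : ContinuousOn g U) (h0 : ∀ x ∈ U, g x ≠ 0) :
    HasLog (𝟙 (C0 X)) g U := by
  intro x hx
  have c : ContinuousOn (fun y => g y / g x) U := hg.div_const _
  let W : Opens X := ⟨U ∩ (fun y => g y / g x) ⁻¹' Complex.slitPlane,
    c.isOpen_inter_preimage U.2 Complex.isOpen_slitPlane⟩
  refine ⟨W, fun _ h => h.1, ⟨hx, by simp [h0 x hx]⟩,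
    cmk (fun y => Complex.log (g x) + Complex.log (g y / g x))
      (continuousOn_const.add ((c.mono fun _ h => h.1).clog fun _ h => h.2)), fun y hy => ?_⟩
  rw [app_id, cv_cmk _ _ hy, Complex.exp_add, Complex.exp_log (h0 x hx),
    Complex.exp_log (div_ne_zero (h0 y hy.1) (h0 x hx)), mul_div_cancel₀ _ (h0 x hx)]

/-- A sheaf of continuous functions that contains the constants. -/
structure Fn {S : Sh ℂ X} (j : S ⟶ C0 X) (o : sec S ⊤) : Prop where
  inj : ∀ U, Function.Injective (app j U)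
  one : app j ⊤ o = cOne ⊤

theorem fn_id : Fn (𝟙 (C0 X)) (cOne ⊤) := ⟨fun _ _ _ h => h, rfl⟩

variable {S : Sh ℂ X} {j : S ⟶ C0 X} {o : sec S ⊤}

/-- A logarithm of `1` is locally constant. -/
theorem Fn.log_one (h : Fn j o) {W : Opens X} {l : sec S W} (hl : IsLog j (fun _ => 1) l) {x : X}
    (hx : x ∈ W) : ∃ V, ∃ hV : V ≤ W, x ∈ V ∧
      res S hV l = cv (app j W l) x • res S le_top o := by
  have := ev_zero_of_exp (h := fun y => cv (app j W l) y - cv (app j W l) x) (z := x)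
    ((cv_at _ hx).sub continuousAt_const) (by
      filter_upwards [W.2.mem_nhds hx] with y hy
      rw [Complex.exp_sub, hl y hy, hl x hx, div_one]) (sub_self _)
  obtain ⟨V, a, b, c⟩ := mem_nhds_iff.1 this
  refine ⟨W ⊓ ⟨V, b⟩, inf_le_left, ⟨hx, c⟩, h.inj _ (cv_ext fun y hy => ?_)⟩
  rw [app_res, cv_res _ _ hy, map_smul, app_res, h.one, res_cOne, cv_smul, cv_cOne hy, mul_one]
  exact sub_eq_zero.1 (a hy.2)

theorem Fn.kill (h : Fn j o) {G : Sh ℂ X} {ψ : S ⟶ G} (hψ : app ψ ⊤ o = 0) {W : Opens X}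
    {l : sec S W} (hl : IsLog j (fun _ => 1) l) : app ψ W l = 0 := by
  refine loc_zero _ _ fun x hx => ?_
  obtain ⟨V, hV, xV, e⟩ := h.log_one hl hx
  exact ⟨V, hV, xV, by rw [← app_res, e, map_smul, app_res, hψ, map_zero, smul_zero]⟩

theorem Fn.app_eq (h : Fn j o) {G : Sh ℂ X} {ψ : S ⟶ G} (hψ : app ψ ⊤ o = 0) {g : X → ℂ}
    {W : Opens X} {l l' : sec S W} (hl : IsLog j g l) (hl' : IsLog j g l') :
    app ψ W l = app ψ W l' := by
  rw [← sub_eq_zero, ← map_sub]
  exact h.kill hψ ((hl.sub hl').congr fun x hx => div_self (hl'.ne hx))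

/-- `w` is the section `ψ (log g)`. -/
def IsW (j : S ⟶ C0 X) {G : Sh ℂ X} (ψ : S ⟶ G) (g : X → ℂ) {U : Opens X} (w : sec G U) : Prop :=
  ∀ W (hW : W ≤ U) (l : sec S W), IsLog j g l → res G hW w = app ψ W l

variable {G : Sh ℂ X} {ψ : S ⟶ G} {g g' : X → ℂ} {U V : Opens X}

theorem IsW.res {w : sec G U} (h : IsW j ψ g w) (hV : V ≤ U) : IsW j ψ g (res G hV w) :=
  fun W hW l hl => by rw [res_res, h W (hW.trans hV) l hl]

theorem IsW.congr {w : sec G U} (h : IsW j ψ g w) (e : ∀ x ∈ U, g x = g' x) : IsW j ψ g' w :=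
  fun W hW l hl => h W hW l (hl.congr fun x hx => (e x (hW hx)).symm)

theorem Fn.isW_of_loc (h : Fn j o) (hψ : app ψ ⊤ o = 0) {w : sec G U}
    (hw : ∀ x ∈ U, ∃ W, ∃ hW : W ≤ U, x ∈ W ∧ ∃ l : sec S W, IsLog j g l ∧
      res G hW w = app ψ W l) : IsW j ψ g w := by
  intro W hW l hl
  refine loc_ext _ _ _ fun x hx => ?_
  obtain ⟨W', hW', xW', l', a, b⟩ := hw x (hW hx)
  refine ⟨W ⊓ W', inf_le_left, ⟨hx, xW'⟩, ?_⟩
  rw [res_res, ← res_res _ hW' inf_le_right, b, ← app_res, ← app_res]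
  exact h.app_eq hψ (a.res _) (hl.res _)

theorem Fn.exists_isW (h : Fn j o) (hψ : app ψ ⊤ o = 0) (hg : HasLog j g U) :
    ∃ w : sec G U, IsW j ψ g w := by
  choose W a b l c using hg
  obtain ⟨w, hw⟩ := glue G (fun x : U => W x.1 x.2) U (fun x => a x.1 x.2)
    (fun x hx => Opens.mem_iSup.2 ⟨⟨x, hx⟩, b x hx⟩) (fun x => app ψ _ (l x.1 x.2)) fun x y => by
      rw [← app_res, ← app_res]
      exact h.app_eq hψ ((c _ _).res _) ((c _ _).res _)
  exact ⟨w, h.isW_of_loc hψ fun x hx => ⟨_, a x hx, b x hx, l x hx, c x hx, hw ⟨x, hx⟩⟩⟩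

theorem IsW.unique {w w' : sec G U} (h : IsW j ψ g w) (h' : IsW j ψ g w') (hg : HasLog j g U) :
    w = w' := by
  refine loc_ext _ _ _ fun x hx => ?_
  obtain ⟨W, a, b, l, c⟩ := hg x hx
  exact ⟨W, a, b, by rw [h W a l c, h' W a l c]⟩

theorem HasLog.two (hg : HasLog j g U) (hg' : HasLog j g' U) {x : X} (hx : x ∈ U) :
    ∃ W, W ≤ U ∧ x ∈ W ∧ ∃ l l' : sec S W, IsLog j g l ∧ IsLog j g' l' :=
  let ⟨W, a, b, _, c⟩ := hg x hx
  let ⟨W', _, b', _, c'⟩ := hg' x hx
  ⟨W ⊓ W', inf_le_left.trans a, ⟨b, b'⟩, _, _, c.res inf_le_left, c'.res inf_le_right⟩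

theorem HasLog.mul (hg : HasLog j g U) (hg' : HasLog j g' U) :
    HasLog j (fun x => g x * g' x) U := fun _ hx =>
  let ⟨W, a, b, _, _, c, c'⟩ := hg.two hg' hx
  ⟨W, a, b, _, c.add c'⟩

theorem Fn.isW_add (h : Fn j o) (hψ : app ψ ⊤ o = 0) (hg : HasLog j g U) (hg' : HasLog j g' U)
    {w w' : sec G U} (hw : IsW j ψ g w) (hw' : IsW j ψ g' w') :
    IsW j ψ (fun x => g x * g' x) (w + w') := by
  refine h.isW_of_loc hψ fun x hx => ?_
  obtain ⟨W, a, b, l, l', c, c'⟩ := hg.two hg' hx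
  exact ⟨W, a, b, _, c.add c', by rw [map_add, map_add, hw W a l c, hw' W a l' c']⟩

theorem Fn.isW_sub (h : Fn j o) (hψ : app ψ ⊤ o = 0) (hg : HasLog j g U) (hg' : HasLog j g' U)
    {w w' : sec G U} (hw : IsW j ψ g w) (hw' : IsW j ψ g' w') :
    IsW j ψ (fun x => g x / g' x) (w - w') := by
  refine h.isW_of_loc hψ fun x hx => ?_
  obtain ⟨W, a, b, l, l', c, c'⟩ := hg.two hg' hx
  exact ⟨W, a, b, _, c.sub c', by rw [map_sub, map_sub, hw W a l c, hw' W a l' c']⟩

theorem IsW.comp {w : sec G U} (h : IsW j ψ g w) {G' : Sh ℂ X} (χ : G ⟶ G') :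
    IsW j (ψ ≫ χ) g (app χ U w) := fun W hW l hl => by
  rw [← app_res, h W hW l hl, app_comp]

theorem IsW.sub_hom {ψ' : S ⟶ G} {w w' : sec G U} (h : IsW j ψ g w) (h' : IsW j ψ' g w') :
    IsW j (ψ - ψ') g (w - w') := fun W hW l hl => by
  rw [map_sub, h W hW l hl, h' W hW l hl, app_sub]

theorem IsW.add_hom {ψ' : S ⟶ G} {w w' : sec G U} (h : IsW j ψ g w) (h' : IsW j ψ' g w') :
    IsW j (ψ + ψ') g (w + w') := fun W hW l hl => by
  rw [map_add, h W hW l hl, h' W hW l hl, app_add]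

/-- Restriction to a smaller sheaf of functions. -/
theorem IsW.pre {ψ : C0 X ⟶ G} {w : sec G U} (h : IsW (𝟙 _) ψ g w) (j : S ⟶ C0 X) :
    IsW j (j ≫ ψ) g w := fun W hW l hl => h W hW (app j W l) hl

theorem IsW.push {f : Y ⟶ X} {G : Sh ℂ Y} {ψ : C0 Y ⟶ G} {w : sec G ((Opens.map f).obj U)}
    (h : IsW (𝟙 _) ψ (fun y => g (f y)) w) :
    IsW (G := (push ℂ f).obj G) (𝟙 _) (c0pb f ≫ (push ℂ f).map ψ) g (U := U) w :=
  fun W hW l hl => h ((Opens.map f).obj W) (fun _ a => hW a) (app (c0pb f) W l) fun y hy =>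
    (congrArg Complex.exp (cv_c0pb f l y)).trans (hl (f y) hy)

end P275S
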