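import Vale.Agent.P275S.Arc
import Mathlib.Analysis.Normed.Module.FiniteDimension
import Mathlib.Analysis.InnerProductSpace.PiL2

/-!
# Soft resolutions of the constants: balls relative to spheres, cells
-/

namespace P275S.Ab

open Set Topology Vale.Agent.P275SO

variable {k : Type*} [Field k] {X : Type*} [TopologicalSpace X]
  {M : ℤ → Type*} [∀ i, AddCommGroup (M i)] [∀ i, Module k (M i)]

/-- Relative cocycles of `(C, A ∩ C)`. -/
def Cc (d : ∀ i j, M i →ₗ[k] M j) (G : ∀ i, X → Submodule k (M i)) (A C : Set X) (j : ℤ)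
    (s : M j) : Prop := s ∈ N (G j) (A ∩ C) ∧ d j (j + 1) s ∈ N (G (j + 1)) C

/-- The relative cohomology of `(C, A ∩ C)` in degree `j` has dimension at most one. -/
def Le1 (d : ∀ i j, M i →ₗ[k] M j) (G : ∀ i, X → Submodule k (M i)) (A C : Set X) (j : ℤ) :
    Prop := ∀ s s' : M j, Cc d G A C j s → Cc d G A C j s' →
  ∃ a b : k, (a ≠ 0 ∨ b ≠ 0) ∧ Bd d G A C (j - 1) (a • s + b • s')

/-- The cohomology of `(C, A ∩ C)` is that of an `m`-cell at most. -/
def Cel (d : ∀ i j, M i →ₗ[k] M j) (G : ∀ i, X → Submodule k (M i)) (A C : Set X) (m : ℤ) :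
    Prop := (∀ j, j ≠ m → Vn d G A C j) ∧ Le1 d G A C m

variable {d : ∀ i j, M i →ₗ[k] M j} {G : ∀ i, X → Submodule k (M i)} {e : M 0}
  {A B B' C : Set X} {i j l m : ℤ}

omit [TopologicalSpace X] in
theorem vn_iff : Vn d G A C j ↔ ∀ s, Cc d G A C j s → Bd d G A C (j - 1) s :=
  ⟨fun h s hs => h _ _ (by omega) rfl s hs.1 hs.2, fun h i l hi hl s h1 h2 => by
    obtain rfl : i = j - 1 := by omega
    subst hl
    exact h s ⟨h1, h2⟩⟩

omit [TopologicalSpace X] in
theorem Cel.congr {A' : Set X} (h : Cel d G A C m) (hA : A ∩ C = A' ∩ C) : Cel d G A' C m := by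
  unfold Cel Vn Van Le1 Cc Bd at *
  rw [← hA]
  exact h

/-- The triple `(C, B ∪ B', B')` with `(C, B')` acyclic, and excision. -/
theorem Res.cel_step (h : Res d G e) (hB : IsCompact B) (hB' : IsCompact B')
    (hA : A ∩ C = B ∪ B') (hv : ∀ j, Vn d G B' C j) (hc : Cel d G B' B m) :
    Cel d G A C (m + 1) := by
  have s1 : B ⊆ C := fun x hx => (hA.symm.subset (Or.inl hx)).2
  have s2 : B' ⊆ C := fun x hx => (hA.symm.subset (Or.inr hx)).2
  have up : ∀ j (s : M (j + 1)), Cc d G A C (j + 1) s → ∃ t : M j, t ∈ N (G j) B' ∧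
      s - d j (j + 1) t ∈ N (G (j + 1)) C ∧ Cc d G B' B j t := by
    intro j s hs
    have a1 := hs.1
    rw [hA, mem_N_union] at a1
    obtain ⟨t, t1, t2⟩ := hv (j + 1) j _ rfl rfl s (N_anti inter_subset_left a1.2) hs.2
    rw [inter_eq_left.2 s2] at t1
    refine ⟨t, t1, t2, N_anti inter_subset_left t1, ?_⟩
    simpa using sub_mem a1.1 (N_anti s1 t2)
  have dn : ∀ j (s : M (j + 1)) (t : M j), t ∈ N (G j) B' →
      s - d j (j + 1) t ∈ N (G (j + 1)) C → Bd d G B' B (j - 1) t → Bd d G A C j s := by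
    rintro j s t t1 t2 ⟨u, u1, u2⟩
    obtain ⟨v, v1, w, w1, rfl⟩ := h.dat.spl _ B' B hB' hB u u1
    refine ⟨t - d (j - 1) j v, ?_, by simpa [h.dat.dd] using t2⟩
    rw [hA, mem_N_union]
    refine ⟨?_, sub_mem t1 (h.dat.dN v1)⟩
    have := add_mem u2 (h.dat.dN (j := j) w1)
    rwa [show t - d (j - 1) j (v + w) + d (j - 1) j w = t - d (j - 1) j v by
      rw [map_add]; abel] at this
  refine ⟨fun j hj => ?_, fun s s' hs hs' => ?_⟩
  · obtain ⟨j, rfl⟩ : ∃ i, j = i + 1 := ⟨j - 1, by omega⟩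
    intro i l hi hl s h1 h2
    obtain rfl : i = j := by omega
    subst hl
    obtain ⟨t, t1, t2, t3⟩ := up i s ⟨h1, h2⟩
    exact dn i s t t1 t2 (vn_iff.1 (hc.1 i (by omega)) t t3)
  · obtain ⟨t, t1, t2, t3⟩ := up m s hs
    obtain ⟨t', t1', t2', t3'⟩ := up m s' hs'
    obtain ⟨a, b, hab, h1⟩ := hc.2 t t' t3 t3'
    refine ⟨a, b, hab, ?_⟩
    rw [show m + 1 - 1 = m by omega]
    refine dn m _ _ (add_mem (Submodule.smul_mem _ _ t1) (Submodule.smul_mem _ _ t1')) ?_ h1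
    have := add_mem (Submodule.smul_mem _ a t2) (Submodule.smul_mem _ b t2')
    rwa [show a • (s - d m (m + 1) t) + b • (s' - d m (m + 1) t') =
      a • s + b • s' - d m (m + 1) (a • t + b • t') by
        simp only [map_add, map_smul, smul_sub]; abel] at this

theorem Res.cel_pt (h : Res d G e) (hC : C.Subsingleton) (hA : A ∩ C = ∅) : Cel d G A C 0 := by
  refine Cel.congr (A := ∅) ⟨fun j hj => ?_, fun s s' hs hs' => ?_⟩ (by rw [hA, empty_inter])
  · rcases lt_or_gt_of_ne hj with hj | hj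
    · exact h.vn_neg hj
    · exact (h.acy_sub hC).2 j hj
  · obtain ⟨a, ha⟩ := h.zero_conn hC.isPreconnected hs.2
    obtain ⟨b, hb⟩ := h.zero_conn hC.isPreconnected hs'.2
    by_cases h0 : a = 0
    · exact ⟨1, 0, Or.inl one_ne_zero, 0, zero_mem _, by simpa [h0] using ha⟩
    · refine ⟨-b, a, Or.inr h0, 0, zero_mem _, ?_⟩
      have := add_mem (Submodule.smul_mem _ (-b) ha) (Submodule.smul_mem _ a hb)
      rwa [show -b • (s - a • e) + a • (s' - b • e) = -b • s + a • s' - d (0 - 1) 0 0 by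
        simp only [map_zero, smul_sub, smul_smul, neg_smul, neg_mul, mul_comm a b]; abel] at this

/-- The sum of the squares of the coordinates. -/
def nq {n : ℕ} (y : Fin n → ℝ) : ℝ := ∑ i, y i ^ 2

theorem nq_nonneg {n : ℕ} (y : Fin n → ℝ) : 0 ≤ nq y := Finset.sum_nonneg fun _ _ => sq_nonneg _

theorem nq_succ {n : ℕ} (y : Fin (n + 1) → ℝ) : nq y = y 0 ^ 2 + nq (Fin.tail y) :=
  Fin.sum_univ_succ _

theorem continuous_nq {n : ℕ} : Continuous (nq : (Fin n → ℝ) → ℝ) := by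
  unfold nq; fun_prop

theorem convex_nq {n : ℕ} (ρ : ℝ) : Convex ℝ {y : Fin n → ℝ | nq y ≤ ρ} := by
  intro x hx y hy a b ha hb hab
  have : nq (a • x + b • y) ≤ a * nq x + b * nq y := by
    unfold nq
    rw [Finset.mul_sum, Finset.mul_sum, ← Finset.sum_add_distrib]
    refine Finset.sum_le_sum fun i _ => ?_
    obtain rfl : b = 1 - a := by linarith
    have := mul_nonneg (mul_nonneg ha hb) (sq_nonneg (x i - y i))
    simp only [Pi.add_apply, Pi.smul_apply, smul_eq_mul]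
    nlinarith
  have h1 : nq x ≤ ρ := hx
  have h2 : nq y ≤ ρ := hy
  calc nq (a • x + b • y) ≤ a * ρ + b * ρ := this.trans (by gcongr)
    _ = ρ := by rw [← add_mul, hab, one_mul]

theorem isCompact_nq {n : ℕ} (ρ : ℝ) : IsCompact {y : Fin n → ℝ | nq y ≤ ρ} := by
  refine Metric.isCompact_of_isClosed_isBounded (isClosed_le continuous_nq continuous_const)
    ((Metric.isBounded_closedBall (x := 0) (r := √ρ)).subset fun y hy => ?_)
  rw [mem_closedBall_zero_iff, pi_norm_le_iff_of_nonneg (Real.sqrt_nonneg _)]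
  intro i
  exact Real.abs_le_sqrt ((Finset.single_le_sum (f := fun i => y i ^ 2)
    (fun _ _ => sq_nonneg _) (Finset.mem_univ i)).trans hy)

/-- A closed ball relative to its boundary sphere. -/
theorem Res.cel_ball [T2Space X] (h : Res d G e) {ρ : ℝ} (hρ : 0 < ρ) : ∀ (n : ℕ) {A C : Set X},
    IsCompact C → ∀ g : X → Fin n → ℝ, ContinuousOn g C → InjOn g C →
    g '' C = {y | nq y ≤ ρ} → A ∩ C = C ∩ g ⁻¹' {y | nq y = ρ} → Cel d G A C n := by
  intro n
  induction n with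
  | zero =>
    intro A C _ g _ hi _ hA
    refine h.cel_pt (fun x hx y hy => hi hx hy (Subsingleton.elim _ _)) ?_
    rw [hA]
    exact eq_empty_of_forall_notMem fun x hx => hρ.ne (by simpa [nq] using hx.2)
  | succ n ih =>
    intro A C hC g hg hi him hA
    have hem : ∀ σ : ℝ, σ ^ 2 = 1 → let B := C ∩ g ⁻¹' {y | nq y = ρ ∧ 0 ≤ σ * y 0}
        IsCompact B ∧ ContinuousOn (fun x => Fin.tail (g x)) B ∧
        InjOn (fun x => Fin.tail (g x)) B ∧ (fun x => Fin.tail (g x)) '' B = {y | nq y ≤ ρ} := by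
      intro σ hσ B
      refine ⟨hC.of_isClosed_subset (hg.preimage_isClosed_of_isClosed hC.isClosed
        ((isClosed_eq continuous_nq continuous_const).inter
          (isClosed_le continuous_const (continuous_const.mul (continuous_apply 0)))))
          inter_subset_left,
        continuousOn_pi.2 fun a => continuousOn_pi.1 (hg.mono inter_subset_left) a.succ,
        fun x hx y hy hxy => hi hx.1 hy.1 ?_, ?_⟩
      · have e1 : Fin.tail (g x) = Fin.tail (g y) := hxy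
        have e2 := hx.2.1.trans hy.2.1.symm
        rw [nq_succ, nq_succ, e1, add_left_inj] at e2
        have e3 : σ * g x 0 = σ * g y 0 :=
          (pow_left_inj₀ hx.2.2 hy.2.2 two_ne_zero).1 (by rw [mul_pow, mul_pow, e2])
        have e4 : σ ≠ 0 := by
          rintro rfl
          simp at hσ
        rw [← Fin.cons_self_tail (g x), ← Fin.cons_self_tail (g y), e1, mul_left_cancel₀ e4 e3]
      · refine Subset.antisymm ?_ fun y hy => ?_
        · rintro _ ⟨x, hx, rfl⟩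
          have := hx.2.1
          rw [nq_succ] at this
          change nq _ ≤ ρ
          linarith [sq_nonneg (g x 0)]
        · have hy' : 0 ≤ ρ - nq y := sub_nonneg.2 hy
          have e1 : nq (Fin.cons (σ * √(ρ - nq y)) y : Fin (n + 1) → ℝ) = ρ := by
            rw [nq_succ, Fin.cons_zero, Fin.tail_cons, mul_pow, hσ, Real.sq_sqrt hy']
            ring
          obtain ⟨x, hx, e2⟩ := him.symm.subset (show _ ∈ {y | nq y ≤ ρ} from e1.le)
          refine ⟨x, ⟨hx, ?_⟩, by simp only [e2, Fin.tail_cons]⟩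
          rw [mem_preimage, e2]
          refine ⟨e1, ?_⟩
          rw [Fin.cons_zero, ← mul_assoc, ← sq, hσ, one_mul]
          exact Real.sqrt_nonneg _
    obtain ⟨p1, p2, p3, p4⟩ := hem 1 (by norm_num)
    obtain ⟨q1, q2, q3, q4⟩ := hem (-1) (by norm_num)
    push_cast
    refine h.cel_step p1 q1 ?_ (h.vn_pair (h.acy_convex _ hC g hg hi (him ▸ convex_nq ρ)) ?_ ?_)
      (ih p1 _ p2 p3 p4 ?_)
    · rw [hA]
      ext x
      refine ⟨fun hx => ?_, fun hx => hx.elim (fun a => ⟨a.1, a.2.1⟩) fun a => ⟨a.1, a.2.1⟩⟩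
      rcases le_total 0 (g x 0) with c | c
      · exact Or.inl ⟨hx.1, hx.2, by linarith⟩
      · exact Or.inr ⟨hx.1, hx.2, by linarith⟩
    · rw [inter_eq_left.2 inter_subset_left]
      exact h.acy_convex _ q1 _ q2 q3 (q4 ▸ convex_nq ρ)
    · rw [inter_eq_left.2 inter_subset_left]
      refine Nonempty.of_image (f := fun x => Fin.tail (g x)) ?_
      rw [q4]
      exact ⟨0, by simpa [nq] using hρ.le⟩
    · ext x
      constructor
      · rintro ⟨a, b⟩
        have c : g x 0 = 0 := by linarith [a.2.2, b.2.2]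
        have := b.2.1
        rw [nq_succ, c] at this
        exact ⟨b, by simpa using this⟩
      · rintro ⟨b, c⟩
        have := b.2.1
        rw [nq_succ, show nq (Fin.tail (g x)) = ρ from c] at this
        have c' : g x 0 = 0 := pow_eq_zero_iff two_ne_zero |>.1 (by linarith)
        exact ⟨⟨b.1, b.2.1, by simp [c']⟩, b⟩

/-- A compact set `C` such that `C \ A` is an open cell `ℝ ^ n`. -/
theorem Res.cel_cell [T2Space X] (h : Res d G e) (hA : IsClosed A) (hC : IsCompact C) {n : ℕ}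
    {g : X → Fin n → ℝ} {φ : (Fin n → ℝ) → X} (hg : ContinuousOn g (C \ A)) (hφ : Continuous φ)
    (h1 : ∀ y, φ y ∈ C \ A) (h2 : ∀ y, g (φ y) = y) (h3 : ∀ x ∈ C \ A, φ (g x) = x) :
    Cel d G A C n := by
  have big : ∀ {j : ℤ} (s : M j), s ∈ N (G j) (A ∩ C) →
      ∃ ρ > 0, ∀ x ∈ C, s ∉ G j x → x ∉ A ∧ nq (g x) < ρ := by
    intro j s hs
    have k1 : IsCompact (C \ {x | s ∈ G j x}) := hC.diff (h.dat.op j s)
    have k2 : C \ {x | s ∈ G j x} ⊆ C \ A := fun x hx =>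
      ⟨hx.1, fun a => hx.2 (mem_N.1 hs x ⟨a, hx.1⟩)⟩
    obtain ⟨R, hR⟩ := (k1.image_of_continuousOn
      (continuous_nq.comp_continuousOn (hg.mono k2))).bddAbove
    refine ⟨max R 0 + 1, by positivity, fun x hx hs => ⟨(k2 ⟨hx, hs⟩).2, ?_⟩⟩
    have : nq (g x) ≤ R := hR ⟨x, ⟨hx, hs⟩, rfl⟩
    linarith [le_max_left R 0]
  have key : ∀ ρ > 0, ∃ D O : Set X, IsCompact D ∧ IsCompact O ∧ C = O ∪ D ∧ A ∩ C ⊆ O ∧
      (∀ x ∈ O, x ∈ C ∧ (x ∉ A → ρ ≤ nq (g x))) ∧ Cel d G O D n := by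
    intro ρ hρ
    have d1 : IsCompact (φ '' {y | nq y ≤ ρ}) := (isCompact_nq ρ).image hφ
    have d2 : φ '' {y | nq y ≤ ρ} ⊆ C \ A := by
      rintro _ ⟨y, -, rfl⟩
      exact h1 y
    obtain ⟨W, w1, w2⟩ := continuousOn_iff'.1 (continuous_nq.comp_continuousOn hg) (Iio ρ)
      isOpen_Iio
    have w3 : ∀ x ∈ C, x ∉ A → (x ∈ W ↔ nq (g x) < ρ) := fun x a b =>
      ⟨fun c => (w2.symm.subset ⟨c, a, b⟩).1, fun c => (w2.subset ⟨c, a, b⟩).1⟩
    refine ⟨_, C \ (W ∩ Aᶜ), d1, hC.diff (w1.inter hA.isOpen_compl), ?_,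
      fun x hx => ⟨hx.2, fun a => a.2 hx.1⟩,
      fun x hx => ⟨hx.1, fun a => not_lt.1 fun b => hx.2 ⟨(w3 x hx.1 a).2 b, a⟩⟩,
      h.cel_ball hρ n d1 g (hg.mono d2) (fun x hx y hy e => ?_) ?_ ?_⟩
    · refine Subset.antisymm (fun x hx => ?_) (union_subset sdiff_subset (d2.trans sdiff_subset))
      by_cases a : x ∈ W ∩ Aᶜ
      · exact Or.inr ⟨g x, ((w3 x hx a.2).1 a.1).le, h3 x ⟨hx, a.2⟩⟩
      · exact Or.inl ⟨hx, a⟩
    · rw [← h3 x (d2 hx), e, h3 y (d2 hy)]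
    · rw [image_image]
      simp [h2]
    · ext x
      constructor
      · rintro ⟨a, y, hy, rfl⟩
        refine ⟨⟨y, hy, rfl⟩, ?_⟩
        rw [mem_preimage, h2]
        refine le_antisymm hy (not_lt.1 fun b => a.2 ⟨(w3 _ a.1 (h1 y).2).2 ?_, (h1 y).2⟩)
        rwa [h2]
      · rintro ⟨a, b⟩
        exact ⟨⟨(d2 a).1, fun c => ((w3 x (d2 a).1 c.2).1 c.1).ne b⟩, a⟩
  have exc : ∀ {D O : Set X} {j : ℤ} (s : M j), IsCompact D → IsCompact O → C = O ∪ D →
      A ∩ C ⊆ O → s ∈ N (G j) O → Bd d G O D (j - 1) s → Bd d G A C (j - 1) s := by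
    rintro D O j s hD hO hC' hAO hs ⟨t, t1, t2⟩
    obtain ⟨u, u1, v, v1, rfl⟩ := h.dat.spl _ O D hO hD t t1
    refine ⟨u, N_anti hAO u1, ?_⟩
    rw [hC', mem_N_union]
    refine ⟨sub_mem hs (h.dat.dN u1), ?_⟩
    have := add_mem t2 (h.dat.dN (j := j) v1)
    rwa [show s - d (j - 1) j (u + v) + d (j - 1) j v = s - d (j - 1) j u by
      rw [map_add]; abel] at this
  have van : ∀ {O : Set X} {j : ℤ} {s : M j} {ρ ρ' : ℝ}, ρ ≤ ρ' →
      (∀ x ∈ C, s ∉ G j x → x ∉ A ∧ nq (g x) < ρ) →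
      (∀ x ∈ O, x ∈ C ∧ (x ∉ A → ρ' ≤ nq (g x))) → s ∈ N (G j) O := by
    intro O j s ρ ρ' hρ a b
    refine mem_N.2 fun x hx => by_contra fun c => ?_
    have := a x (b x hx).1 c
    linarith [(b x hx).2 this.1, this.2]
  refine ⟨fun j hj => vn_iff.2 fun s hs => ?_, fun s s' hs hs' => ?_⟩
  · obtain ⟨ρ, hρ, a⟩ := big s hs.1
    obtain ⟨D, O, k1, k2, k3, k4, k5, k6⟩ := key ρ hρ
    have b := van le_rfl a k5
    exact exc s k1 k2 k3 k4 b (vn_iff.1 (k6.1 j hj) s
      ⟨N_anti inter_subset_left b, N_anti (k3 ▸ subset_union_right) hs.2⟩)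
  · obtain ⟨ρ, hρ, a⟩ := big s hs.1
    obtain ⟨ρ', -, a'⟩ := big s' hs'.1
    obtain ⟨D, O, k1, k2, k3, k4, k5, k6⟩ := key (max ρ ρ') (lt_max_of_lt_left hρ)
    have b := van (le_max_left _ _) a k5
    have b' := van (le_max_right _ _) a' k5
    obtain ⟨u, v, huv, c⟩ := k6.2 s s'
      ⟨N_anti inter_subset_left b, N_anti (k3 ▸ subset_union_right) hs.2⟩
      ⟨N_anti inter_subset_left b', N_anti (k3 ▸ subset_union_right) hs'.2⟩
    exact ⟨u, v, huv, exc _ k1 k2 k3 k4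
      (add_mem (Submodule.smul_mem _ _ b) (Submodule.smul_mem _ _ b')) c⟩

/-- The same for a cell modelled on a real normed space of dimension `n`. -/
theorem Res.cel_cell' [T2Space X] (h : Res d G e) (hA : IsClosed A) (hC : IsCompact C)
    {E : Type*} [NormedAddCommGroup E] [NormedSpace ℝ E] [FiniteDimensional ℝ E]
    {g : X → E} {φ : E → X} (hg : ContinuousOn g (C \ A)) (hφ : Continuous φ)
    (h1 : ∀ y, φ y ∈ C \ A) (h2 : ∀ y, g (φ y) = y) (h3 : ∀ x ∈ C \ A, φ (g x) = x) :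
    Cel d G A C (Module.finrank ℝ E) := by
  let T : E ≃L[ℝ] (Fin (Module.finrank ℝ E) → ℝ) := ContinuousLinearEquiv.ofFinrankEq (by simp)
  exact h.cel_cell hA hC (g := fun x => T (g x)) (φ := fun y => φ (T.symm y))
    (T.continuous.comp_continuousOn hg) (hφ.comp T.symm.continuous) (fun y => h1 _)
    (fun y => by simp [h2]) fun x hx => by simp [h3 x hx]

/-- Restriction to `A ∩ C` is injective when the relative group vanishes. -/
theorem Res.bd_of_vn (h : Res d G e) (hv : Vn d G A C j) {s : M j}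
    (hs : d j (j + 1) s ∈ N (G (j + 1)) C) (hb : Bd d G ∅ (A ∩ C) (j - 1) s) :
    Bd d G ∅ C (j - 1) s := by
  obtain ⟨t, -, t2⟩ := hb
  obtain ⟨u, -, u2⟩ := vn_iff.1 hv _ ⟨t2, by simpa [h.dat.dd] using hs⟩
  exact ⟨t + u, by simp, by simpa [sub_sub] using u2⟩

theorem Res.vn_of_vn (h : Res d G e) (hv : Vn d G A C j) (hv' : Vn d G ∅ (A ∩ C) j) :
    Vn d G ∅ C j := vn_iff.2 fun s hs =>
  h.bd_of_vn hv hs.2 (vn_iff.1 hv' s ⟨by simp, N_anti inter_subset_right hs.2⟩)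

theorem Res.le1_of_vn (h : Res d G e) (hv : Vn d G A C j) (hv' : Le1 d G ∅ (A ∩ C) j) :
    Le1 d G ∅ C j := fun s s' hs hs' => by
  obtain ⟨a, b, hab, c⟩ := hv' s s' ⟨by simp, N_anti inter_subset_right hs.2⟩
    ⟨by simp, N_anti inter_subset_right hs'.2⟩
  refine ⟨a, b, hab, h.bd_of_vn hv ?_ c⟩
  rw [map_add, map_smul, map_smul]
  exact add_mem (Submodule.smul_mem _ _ hs.2) (Submodule.smul_mem _ _ hs'.2)

theorem Res.le1_of_le1 (h : Res d G e) (hv : Le1 d G A C j) (hv' : Vn d G ∅ (A ∩ C) j) :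
    Le1 d G ∅ C j := fun s s' hs hs' => by
  obtain ⟨t, -, t2⟩ := vn_iff.1 hv' s ⟨by simp, N_anti inter_subset_right hs.2⟩
  obtain ⟨t', -, t2'⟩ := vn_iff.1 hv' s' ⟨by simp, N_anti inter_subset_right hs'.2⟩
  obtain ⟨a, b, hab, u, -, u2⟩ := hv _ _ ⟨t2, by simpa [h.dat.dd] using hs.2⟩
    ⟨t2', by simpa [h.dat.dd] using hs'.2⟩
  refine ⟨a, b, hab, a • t + b • t' + u, by simp, ?_⟩
  rwa [show a • s + b • s' - d (j - 1) j (a • t + b • t' + u) =
    a • (s - d (j - 1) j t) + b • (s' - d (j - 1) j t') - d (j - 1) j u by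
      simp only [map_add, map_smul, smul_sub]; abel]

omit [TopologicalSpace X] in
theorem Vn.le1 (hv : Vn d G A C j) : Le1 d G A C j := fun s _ hs _ =>
  ⟨1, 0, Or.inl one_ne_zero, by simpa using vn_iff.1 hv s hs⟩

omit [TopologicalSpace X] in
/-- In dimension at most one every class is a multiple of a nonzero class. -/
theorem Le1.span (hv : Le1 d G A C j) {w : M j} (hw : Cc d G A C j w)
    (hn : ¬ Bd d G A C (j - 1) w) {s : M j} (hs : Cc d G A C j s) :
    ∃ a : k, Bd d G A C (j - 1) (s - a • w) := by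
  obtain ⟨a, b, hab, t, t1, t2⟩ := hv s w hs hw
  have sm : ∀ c : k, Bd d G A C (j - 1) (c • (a • s + b • w)) := fun c =>
    ⟨c • t, Submodule.smul_mem _ _ t1, by
      rw [map_smul, ← smul_sub]; exact Submodule.smul_mem _ _ t2⟩
  by_cases ha : a = 0
  · have hb : b ≠ 0 := hab.resolve_left fun a => a ha
    exact absurd (by simpa [ha, smul_smul, hb] using sm b⁻¹) hn
  · refine ⟨-(a⁻¹ * b), ?_⟩
    simpa [smul_smul, ha] using sm a⁻¹

end P275S.Ab
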