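import Vale.Agent.P275S.C1

/-! The first Chern class of a line bundle: existence, uniqueness, naturality, additivity. -/

open CategoryTheory TopologicalSpace Opposite Limits Filter Topology
open P275CC (LB Co Cov)

noncomputable section

namespace P275S

variable {X Y : TopCat.{0}}

section cech

variable {k : Type} [Field k]

/-- The product of the restrictions of `G` to the members of a family of open sets. -/
def cechP (G : Sh k X) {ι : Type} (U : ι → Opens X) : Sh k X :=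
  Data.sh
    { M := fun W => ModuleCat.of k (∀ i, sec G (W ⊓ U i))
      r := fun {W V} h => LinearMap.pi fun i =>
        res G (inf_le_inf_right (U i) h) ∘ₗ LinearMap.proj i
      r_self := fun W s => funext fun i => res_self G _ (s i)
      r_r := fun _ _ s => funext fun i => res_res G _ _ (s i)
      loc := fun W s hs => funext fun i => loc_zero G (s i) fun x hx => by
        obtain ⟨V, hV, xV, h⟩ := hs x hx.1
        exact ⟨V ⊓ U i, inf_le_inf_right _ hV, ⟨xV, hx.2⟩, congrFun h i⟩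
      gl := fun {ι'} V s hs => by
        have : ∀ i, ∃ t : sec G (iSup V ⊓ U i),
            ∀ a, res G (inf_le_inf_right _ (le_iSup V a)) t = s a i := fun i =>
          glue G (fun a => V a ⊓ U i) _ (fun a => inf_le_inf_right _ (le_iSup V a))
            (fun x hx => by
              obtain ⟨a, ha⟩ := Opens.mem_iSup.1 hx.1
              exact Opens.mem_iSup.2 ⟨a, ha, hx.2⟩) (fun a => s a i) fun a b => by
            have := congrArg (res G (show V a ⊓ U i ⊓ (V b ⊓ U i) ≤ V a ⊓ V b ⊓ U i from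
              fun x hx => ⟨⟨hx.1.1, hx.2.1⟩, hx.1.2⟩)) (congrFun (hs a b) i)
            exact (res_res G _ _ _).symm.trans (this.trans (res_res G _ _ _))
        choose t ht using this
        exact ⟨t, fun a => funext fun i => ht i a⟩ }

/-- The diagonal map to the product of the restrictions. -/
def toCech (G : Sh k X) {ι : Type} (U : ι → Opens X) : G ⟶ cechP G U :=
  mkHom (fun W => (LinearMap.pi fun _ => res G inf_le_left :
    sec G W →ₗ[k] ∀ i, sec G (W ⊓ U i))) fun _ _ _ s => funext fun _ =>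
      (res_res G _ _ s).trans (res_res G _ _ s).symm

/-- A Čech one-cocycle of an injective sheaf is a coboundary. -/
theorem cech_split {G : Sh k X} [Injective G] {ι : Type} (U : ι → Opens X)
    (hU : ∀ x, ∃ i, x ∈ U i) (w : ∀ i l, sec G (U i ⊓ U l))
    (hw : ∀ i l m, res G (show U i ⊓ U l ⊓ U m ≤ U i ⊓ U m from fun _ h => ⟨h.1.1, h.2⟩) (w i m) =
      res G inf_le_left (w i l) +
        res G (show U i ⊓ U l ⊓ U m ≤ U l ⊓ U m from fun _ h => ⟨h.1.2, h.2⟩) (w l m)) :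
    ∃ b : ∀ i, sec G (U i), ∀ i l,
      res G inf_le_left (b i) - res G inf_le_right (b l) = w i l := by
  have : Mono (toCech G U) := (mono_iff _).2 fun W => (injective_iff_map_eq_zero _).2 fun s hs =>
    loc_zero G s fun x hx => by
      obtain ⟨i, hi⟩ := hU x
      exact ⟨W ⊓ U i, inf_le_left, ⟨hx, hi⟩, congrFun hs i⟩
  let r := Injective.factorThru (𝟙 G) (toCech G U)
  have hr : toCech G U ≫ r = 𝟙 G := Injective.comp_factorThru _ _
  let E : ∀ m, sec (cechP G U) (U m) := fun m => (fun i => w m i : ∀ i, sec G (U m ⊓ U i))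
  refine ⟨fun m => app r (U m) (E m), fun i l => ?_⟩
  rw [← app_res, ← app_res, ← map_sub, ← app_id G _ (w i l), ← hr, app_comp]
  refine congrArg _ (funext fun m => ?_)
  exact sub_eq_of_eq_add (hw i l m)

end cech

/-- The members of a cover as open sets. -/
def covU (P : Cov X) (i : P.ι) : Opens X := ⟨P.U i, P.op i⟩

variable {S : Sh ℂ X} {j : S ⟶ C0 X} {o : sec S ⊤} {G : Sh ℂ X} {ψ : S ⟶ G}

/-- The transition functions have local logarithms in `S`. -/
def LogsIn (j : S ⟶ C0 X) (L : LB X) : Prop :=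
  ∀ i l, HasLog j (L.g i l) (covU L.toCov i ⊓ covU L.toCov l)

theorem logsIn_id (L : LB X) : LogsIn (𝟙 _) L := fun i l =>
  hasLog_id (L.ct i l) fun _ h => L.ne h.1 h.2

/-- `b i - b l = ψ (log g i l)`. -/
def IsB (j : S ⟶ C0 X) (ψ : S ⟶ G) (L : LB X) (b : ∀ i, sec G (covU L.toCov i)) : Prop :=
  ∀ i l, IsW j ψ (L.g i l) (res G inf_le_left (b i) - res G inf_le_right (b l) :
    sec G (covU L.toCov i ⊓ covU L.toCov l))

theorem Fn.exists_isB [Injective G] (h : Fn j o) (hψ : app ψ ⊤ o = 0) {L : LB X}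
    (hL : LogsIn j L) : ∃ b, IsB j ψ L b := by
  choose w hw using fun i l => h.exists_isW hψ (hL i l)
  obtain ⟨b, hb⟩ := cech_split (covU L.toCov) L.cov w fun i l m => by
    have a1 := (hL i l).mono (inf_le_left : _ ⊓ covU L.toCov m ≤ _)
    have a2 := (hL l m).mono (show covU L.toCov i ⊓ covU L.toCov l ⊓ covU L.toCov m ≤ _ from
      fun _ h => ⟨h.1.2, h.2⟩)
    refine (((hw i m).res _).congr fun x hx => ?_).unique
      (h.isW_add hψ a1 a2 ((hw i l).res _) ((hw l m).res _)) (a1.mul a2)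
    exact (L.cc i l m x hx.1.1 hx.1.2 hx.2).symm
  exact ⟨b, fun i l => hb i l ▸ hw i l⟩

theorem glue_cov (P : Cov X) (s : ∀ i, sec G (covU P i))
    (h : ∀ i l, res G (inf_le_left : covU P i ⊓ covU P l ≤ _) (s i) = res G inf_le_right (s l)) :
    ∃ t : sec G ⊤, ∀ i, res G le_top t = s i :=
  glue G (covU P) ⊤ (fun _ => le_top) (fun x _ => Opens.mem_iSup.2 (P.cov x)) s h

theorem ext_cov (P : Cov X) {s t : sec G ⊤}
    (h : ∀ i, res G (le_top : covU P i ≤ ⊤) s = res G le_top t) : s = t :=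
  loc_ext G s t fun x _ => let ⟨i, hi⟩ := P.cov x; ⟨_, le_top, hi, h i⟩

theorem IsB.diff {L : LB X} {b b' : ∀ i, sec G (covU L.toCov i)} (h : IsB j ψ L b)
    (h' : IsB j ψ L b') (hL : LogsIn j L) : ∃ t : sec G ⊤, ∀ i, res G le_top t = b i - b' i :=
  glue_cov _ _ fun i l => by
    rw [map_sub, map_sub, sub_eq_sub_iff_sub_eq_sub]
    exact (h i l).unique (h' i l) (hL i l)

theorem IsB.comp {L : LB X} {b : ∀ i, sec G (covU L.toCov i)} (h : IsB j ψ L b) {G' : Sh ℂ X}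
    (χ : G ⟶ G') : IsB j (ψ ≫ χ) L fun i => app χ _ (b i) := fun i l => by
  have := (h i l).comp χ
  rwa [map_sub, app_res, app_res] at this

theorem IsB.add_hom {ψ' : S ⟶ G} {L : LB X} {b b' : ∀ i, sec G (covU L.toCov i)} (h : IsB j ψ L b)
    (h' : IsB j ψ' L b') : IsB j (ψ + ψ') L fun i => b i + b' i := fun i l => by
  have := (h i l).add_hom (h' i l)
  rwa [sub_add_sub_comm, ← map_add, ← map_add] at this

variable {F : Cx ℂ X} {φ φ' : S ⟶ F.X 0} {L L' : LB X} {c c' : sec (F.X 2) ⊤}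

/-- `c` is a cocycle that represents the first Chern class of `L` (without the factor `2πi`). -/
def IsC1 (j : S ⟶ C0 X) (φ : S ⟶ F.X 0) (L : LB X) (c : sec (F.X 2) ⊤) : Prop :=
  ∃ b, IsB j (φ ≫ F.d 0 1) L b ∧ ∀ i, app (F.d 1 2) _ (b i) = res _ le_top c

theorem Fn.exists_isC1 [Injective (F.X 1)] (h : Fn j o) (hφ : app (φ ≫ F.d 0 1) ⊤ o = 0)
    (hL : LogsIn j L) : ∃ c, IsC1 j φ L c := by
  obtain ⟨b, hb⟩ := h.exists_isB hφ hL
  obtain ⟨c, hc⟩ := glue_cov L.toCov (fun i => app (F.d 1 2) _ (b i)) fun i l => by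
    rw [← sub_eq_zero, ← app_res, ← app_res, ← map_sub]
    refine ((hb i l).comp (F.d 1 2)).unique (fun W hW l _ => ?_) (hL i l)
    rw [map_zero, app_comp, app_comp, app_d_d]
  exact ⟨c, b, hb, fun i => (hc i).symm⟩

theorem IsC1.d (h : IsC1 j φ L c) (n : ℤ) : app (F.d 2 n) ⊤ c = 0 := by
  obtain ⟨b, -, hb⟩ := h
  refine ext_cov L.toCov fun i => ?_
  rw [← app_res, ← hb, app_d_d, map_zero]

theorem IsC1.unique (h : IsC1 j φ L c) (h' : IsC1 j φ L c') (hL : LogsIn j L) :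
    ∃ t, app (F.d 1 2) ⊤ t = c - c' := by
  obtain ⟨b, a1, a2⟩ := h
  obtain ⟨b', a1', a2'⟩ := h'
  obtain ⟨t, ht⟩ := a1.diff a1' hL
  refine ⟨t, ext_cov L.toCov fun i => ?_⟩
  rw [← app_res, ht, map_sub, map_sub, a2, a2']

/-- The class does not depend on the map `φ`. -/
theorem IsC1.change [Injective (F.X 0)] (h : IsC1 j φ L c) (hj : Fn j o)
    (hφ : app φ' ⊤ o = app φ ⊤ o) (hL : LogsIn j L) : IsC1 j φ' L c := by
  obtain ⟨b, a1, a2⟩ := h
  obtain ⟨η, hη⟩ := hj.exists_isB (ψ := φ' - φ) (by rw [app_sub, hφ, sub_self]) hL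
  have := a1.add_hom (hη.comp (F.d 0 1))
  rw [← Preadditive.add_comp, add_sub_cancel] at this
  exact ⟨_, this, fun i => by rw [map_add, app_d_d, add_zero, a2]⟩

theorem IsC1.map (h : IsC1 j φ L c) {F' : Cx ℂ X} (ρ : F ⟶ F') :
    IsC1 j (φ ≫ ρ.f 0) L (app (ρ.f 2) ⊤ c) := by
  obtain ⟨b, a1, a2⟩ := h
  have := a1.comp (ρ.f 1)
  rw [Category.assoc, ← ρ.comm, ← Category.assoc] at this
  exact ⟨_, this, fun i => by rw [← app_f_d, a2, app_res]⟩

theorem IsC1.add_d (h : IsC1 j φ L c) (t : sec (F.X 1) ⊤) :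
    IsC1 j φ L (c + app (F.d 1 2) ⊤ t) := by
  obtain ⟨b, a1, a2⟩ := h
  refine ⟨fun i => b i + res _ le_top t, fun i l => ?_, fun i => by
    rw [map_add, map_add, a2, app_res]⟩
  rw [map_add, map_add, res_res, res_res, add_sub_add_right_eq_sub]
  exact a1 i l

/-- Restriction to a smaller sheaf of functions. -/
theorem IsC1.pre {φ : C0 X ⟶ F.X 0} (h : IsC1 (𝟙 _) φ L c) (j : S ⟶ C0 X) :
    IsC1 j (j ≫ φ) L c := by
  obtain ⟨b, a1, a2⟩ := h
  exact ⟨b, fun i l => by simpa only [Category.assoc] using (a1 i l).pre j, a2⟩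

theorem IsC1.push {f : Y ⟶ X} {F : Cx ℂ Y} {φ : C0 Y ⟶ F.X 0} {c : sec (F.X 2) ⊤}
    (h : IsC1 (𝟙 _) φ (Co.pb f.hom L) c) :
    IsC1 (F := (pushC ℂ f).obj F) (𝟙 _) (c0pb f ≫ (push ℂ f).map φ) L c := by
  obtain ⟨b, a1, a2⟩ := h
  refine ⟨b, fun i l => ?_, a2⟩
  have := IsW.push (f := f) (g := L.g i l) (U := covU L.toCov i ⊓ covU L.toCov l) (a1 i l)
  exact fun W hW u hu => this W hW u hu

theorem IsC1.mul (h : IsC1 j φ L c) (h' : IsC1 j φ L' c') (hj : Fn j o)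
    (hφ : app (φ ≫ F.d 0 1) ⊤ o = 0) (hL : LogsIn j L) (hL' : LogsIn j L') :
    IsC1 j φ (L.mul L') (c + c') := by
  obtain ⟨b, a1, a2⟩ := h
  obtain ⟨b', a1', a2'⟩ := h'
  have l1 : ∀ i : (L.mul L').ι, covU (L.mul L').toCov i ≤ covU L.toCov i.1 := fun _ _ h => h.1
  have l2 : ∀ i : (L.mul L').ι, covU (L.mul L').toCov i ≤ covU L'.toCov i.2 := fun _ _ h => h.2
  refine ⟨fun i => res _ (l1 i) (b i.1) + res _ (l2 i) (b' i.2), fun i l => ?_, fun i => ?_⟩
  · have := hj.isW_add hφ ((hL i.1 l.1).mono (inf_le_inf (l1 i) (l1 l)))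
      ((hL' i.2 l.2).mono (inf_le_inf (l2 i) (l2 l)))
      ((a1 i.1 l.1).res (inf_le_inf (l1 i) (l1 l))) ((a1' i.2 l.2).res (inf_le_inf (l2 i) (l2 l)))
    simp only [map_sub, map_add, res_res] at this ⊢
    rw [add_sub_add_comm]
    exact this
  · rw [map_add, map_add, app_res, app_res, a2, a2', res_res, res_res]

/-- Trivialisation of the class by a nowhere vanishing section over `V`. -/
theorem IsB.sec {b : ∀ i, sec G (covU L.toCov i)} (h : IsB j ψ L b) (hj : Fn j o)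
    (hψ : app ψ ⊤ o = 0) (hL : LogsIn j L) {V : Opens X} {s : L.ι → X → ℂ} (hs : L.Sec V s)
    (hl : ∀ i, HasLog j (s i) (covU L.toCov i ⊓ V)) :
    ∃ β : P275S.sec G V, ∀ i, IsW j ψ (s i)
      (res G inf_le_left (b i) - res G inf_le_right β : P275S.sec G (covU L.toCov i ⊓ V)) := by
  choose w hw using fun i => hj.exists_isW hψ (hl i)
  obtain ⟨β, hβ⟩ := glue G (fun i => covU L.toCov i ⊓ V) V (fun _ => inf_le_right)
    (fun x hx => let ⟨i, hi⟩ := L.cov x; Opens.mem_iSup.2 ⟨i, hi, hx⟩)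
    (fun i => res G inf_le_left (b i) - w i) fun i l => by
      have e : covU L.toCov i ⊓ V ⊓ (covU L.toCov l ⊓ V) ≤ covU L.toCov i ⊓ covU L.toCov l :=
        inf_le_inf inf_le_left inf_le_left
      have a1 := (hL i l).mono e
      have a2 := (hl l).mono (inf_le_right : covU L.toCov i ⊓ V ⊓ (covU L.toCov l ⊓ V) ≤ _)
      have := (((hw i).res (inf_le_left : _ ⊓ (covU L.toCov l ⊓ V) ≤ _)).congr fun x hx =>
        hs.2 i l x hx.1.1 hx.2.1 hx.1.2).unique
        (hj.isW_add hψ a1 a2 ((h i l).res e) ((hw l).res inf_le_right)) (a1.mul a2)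
      simp only [map_sub, res_res] at this ⊢
      rw [this]
      abel
  exact ⟨β, fun i => by rw [hβ i, sub_sub_cancel]; exact hw i⟩

theorem IsW.d_zero {g : X → ℂ} {U : Opens X} {w : sec (F.X 1) U} (h : IsW j (φ ≫ F.d 0 1) g w)
    (hg : HasLog j g U) (n : ℤ) : app (F.d 1 n) U w = 0 :=
  (h.comp (F.d 1 n)).unique (fun W hW l _ => by rw [map_zero, app_comp, app_comp, app_d_d]) hg

theorem IsC1.res_eq (h : IsC1 j φ L c) (hj : Fn j o) (hφ : app (φ ≫ F.d 0 1) ⊤ o = 0)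
    (hL : LogsIn j L) {V : Opens X} {s : L.ι → X → ℂ} (hs : L.Sec V s)
    (hl : ∀ i, HasLog j (s i) (covU L.toCov i ⊓ V)) :
    ∃ β : sec (F.X 1) V, app (F.d 1 2) V β = res _ le_top c := by
  obtain ⟨b, a1, a2⟩ := h
  obtain ⟨β, hβ⟩ := a1.sec hj hφ hL hs hl
  refine ⟨β, loc_ext _ _ _ fun x hx => ?_⟩
  obtain ⟨i, hi⟩ := L.cov x
  refine ⟨covU L.toCov i ⊓ V, inf_le_right, ⟨hi, hx⟩, ?_⟩
  have := (hβ i).d_zero (hl i) 2
  rw [map_sub, app_res, app_res, a2, res_res, sub_eq_zero] at this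
  rw [res_res, this]

theorem IsC1.triv {φ : C0 X ⟶ F.X 0} (h : IsC1 (𝟙 _) φ L c)
    (hφ : app (φ ≫ F.d 0 1) ⊤ (cOne ⊤) = 0) (hL : L.Triv) : ∃ t, app (F.d 1 2) ⊤ t = c := by
  obtain ⟨s, a, b⟩ := hL
  obtain ⟨t, ht⟩ := h.res_eq fn_id hφ (logsIn_id L) (V := ⊤) a fun i =>
    hasLog_id (a.1 i) fun x hx => b i x hx.1
  exact ⟨t, by simpa using ht⟩

/-! ### The chosen representatives -/

/-- A map from the continuous functions to the chosen resolution that extends the unit. -/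
def phi (X : TopCat.{0}) : C0 X ⟶ (I ℂ X).X 0 := (exists_phi (eI ℂ X)).choose

theorem phi_one (X : TopCat.{0}) : app (phi X) ⊤ (cOne ⊤) = eI ℂ X :=
  (exists_phi (eI ℂ X)).choose_spec

theorem d_phi_one (X : TopCat.{0}) : app (phi X ≫ (I ℂ X).d 0 1) ⊤ (cOne ⊤) = 0 := by
  rw [app_comp, phi_one, (rs_I ℂ X).de]

/-- The chosen cocycle of the first Chern class. -/
def c1z (L : LB X) : sec ((I ℂ X).X 2) ⊤ :=
  (fn_id.exists_isC1 (d_phi_one X) (logsIn_id L)).choose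

theorem isC1_c1z (L : LB X) : IsC1 (𝟙 _) (phi X) L (c1z L) :=
  (fn_id.exists_isC1 (d_phi_one X) (logsIn_id L)).choose_spec

theorem d_c1z (L : LB X) (n : ℤ) : app ((I ℂ X).d 2 n) ⊤ (c1z L) = 0 := (isC1_c1z L).d n

theorem c1z_mul (L L' : LB X) :
    ∃ t, app ((I ℂ X).d 1 2) ⊤ t = c1z (L.mul L') - (c1z L + c1z L') :=
  (isC1_c1z _).unique ((isC1_c1z L).mul (isC1_c1z L') fn_id (d_phi_one X) (logsIn_id _)
    (logsIn_id _)) (logsIn_id _)

theorem c1z_triv {L : LB X} (h : L.Triv) : ∃ t, app ((I ℂ X).d 1 2) ⊤ t = c1z L :=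
  (isC1_c1z L).triv (d_phi_one X) h

/-- A map to a direct image, on global sections. -/
def pz {k : Type} [Field k] {f : Y ⟶ X} {F : Cx k X} {G : Cx k Y} (ρ : F ⟶ (pushC k f).obj G)
    (n : ℤ) : sec (F.X n) ⊤ →ₗ[k] sec (G.X n) ⊤ := app (ρ.f n) ⊤

/-- Naturality for any chain map that preserves the units. -/
theorem c1z_pb (f : Y ⟶ X) (ρ : I ℂ X ⟶ (pushC ℂ f).obj (I ℂ Y))
    (hρ : pz ρ 0 (eI ℂ X) = eI ℂ Y) (L : LB X) :
    ∃ t, app ((I ℂ Y).d 1 2) ⊤ t = c1z (Co.pb f.hom L) - pz ρ 2 (c1z L) := by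
  have : Injective (((pushC ℂ f).obj (I ℂ Y)).X 0) := injective_push f ((I ℂ Y).X 0)
  exact (isC1_c1z (Co.pb f.hom L)).push.unique (((isC1_c1z L).map ρ).change fn_id
    ((phi_one Y).trans (by rw [app_comp, phi_one]; exact hρ.symm)) (logsIn_id L)) (logsIn_id L)

/-- Comparison with another resolution `A` (forms): a cocycle `c` of `A` with local primitives
`b i`, `b i - b l = d log g i l`, represents the first Chern class. -/
theorem c1z_cmp {A : Cx ℂ X} (ρ : A ⟶ I ℂ X) (hj : Fn j o) {a : S ⟶ A.X 0}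
    (ha : app (ρ.f 0) ⊤ (app a ⊤ o) = eI ℂ X) (hL : LogsIn j L) {c : sec (A.X 2) ⊤}
    (hc : IsC1 j a L c) : ∃ t, app ((I ℂ X).d 1 2) ⊤ t = c1z L - app (ρ.f 2) ⊤ c :=
  ((isC1_c1z L).pre j).unique ((hc.map ρ).change hj
    (by rw [app_comp, app_comp, hj.one, phi_one, ha]) hL) hL

end P275S
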