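import Vale.Agent.P275S.Rsc
import Vale.Agent.P275PV.Lit

/-! Descent of perverse truncations along restriction of scalars and to direct summands. -/

open CategoryTheory TopologicalSpace Opposite Limits DerivedCategory Pretriangulated P275PV

noncomputable section

namespace P275S

variable {k : Type} [Field k] {X Y : TopCat.{0}} {𝒵 : ℤ → Set X → Prop} {c : ℤ}

theorem sgt_of_iso {B B' : Der k X} (h : SGT 𝒵 c B) (e : B ≅ B') : SGT 𝒵 c B' :=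
  fun i Z hZ G hG φ => by
    rw [← cancel_mono e.inv, zero_comp]
    exact h i Z hZ G hG _

theorem ble_retract {A A' : Der k X} (h : BLE 𝒵 c A') {i : A ⟶ A'} {r : A' ⟶ A}
    (e : i ≫ r = 𝟙 A) : BLE 𝒵 c A := by
  obtain ⟨⟨b, hb⟩, h⟩ := h
  refine ⟨⟨b, P275JM.isGE_of_retract e b⟩, fun m => ?_⟩
  obtain ⟨Z, hZ, h0⟩ := h m
  refine ⟨Z, hZ, fun x hx => ?_⟩
  rw [IsZero.iff_id_eq_zero, ← (Stk k x).map_id, ← (homologyFunctor _ m).map_id, ← e,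
    Functor.map_comp, Functor.map_comp, (h0 x hx).eq_of_src
      ((Stk k x).map ((homologyFunctor _ m).map r)) 0, comp_zero]

theorem ble_shift (hmono : ∀ d d' Z, d ≤ d' → 𝒵 d Z → 𝒵 d' Z) {A : Der k X} (h : BLE 𝒵 c A) :
    BLE 𝒵 c (A⟦(1 : ℤ)⟧) := by
  obtain ⟨⟨b, hb⟩, h⟩ := h
  refine ⟨⟨b - 1, TStructure.t.isGE_shift A b 1 (b - 1) (by omega)⟩, fun m => ?_⟩
  obtain ⟨Z, hZ, h0⟩ := h (1 + m)
  exact ⟨Z, hmono _ _ Z (by omega) hZ, fun x hx => (h0 x hx).of_iso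
    ((Stk k x).mapIso (((homologyFunctor _ 0).shiftIso 1 m (1 + m) rfl).app A))⟩

/-- The cosupport condition gives the vanishing of local cohomology. -/
theorem exAt_of_sgt (hmono : ∀ d d' Z, d ≤ d' → 𝒵 d Z → 𝒵 d' Z) {L : Cx k X} (hL : InjC L)
    (h : SGT 𝒵 c (Q.obj L)) {d : ℤ} {Z : Set X} (hZ : 𝒵 d Z) {j : ℤ}
    (hj : j ≤ c - d) (x : X) : ExAt ((mapC (GamS k Z)).obj L) j x := by
  let S : SubData (L.X j) :=
    { P := fun U => suppIn (L.X j) Z U ⊓ LinearMap.ker (app (L.d j (j + 1)) U)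
      res_mem := fun hV s hs => ⟨(suppData Z (L.X j)).res_mem hV hs.1, by
        rw [SetLike.mem_coe, LinearMap.mem_ker, app_res, LinearMap.mem_ker.1 hs.2, map_zero]⟩
      loc := fun U s hs => ⟨(suppData Z (L.X j)).loc U s fun y hy => by
        obtain ⟨V, hV, hyV, e⟩ := hs y hy
        exact ⟨V, hV, hyV, e.1⟩, loc_zero _ _ fun y hy => by
        obtain ⟨V, hV, hyV, e⟩ := hs y hy
        exact ⟨V, hV, hyV, by rw [← app_res]; exact e.2⟩⟩ }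
  have hG : ∀ y ∉ Z, IsZero ((Stk k y).obj S.sh) := fun y hy => by
    refine ModuleCat.isZero_iff_subsingleton.2 (subsingleton_of_forall_eq 0 fun z => ?_)
    obtain ⟨U, -, hyU, s, rfl⟩ := exists_gm S.sh z (W := ⊤) trivial
    by_contra hn
    refine hy ((S.ι_mem U s).1 ?_)
    rw [supp_app_of_injective]
    exact (gm_ne_zero _ hyU s).1 hn
  let f : (CochainComplex.singleFunctor (Sh k X) j).obj S.sh ⟶ L :=
    HomologicalComplex.mkHomFromSingle S.ι fun i hi => by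
      obtain rfl : j + 1 = i := hi
      exact hom_ext fun U s => (S.ι_mem U s).2
  obtain ⟨H⟩ := P275JM.Q_inj hL (f := f) (g := 0)
    ((h j Z (hmono _ _ Z (by omega) hZ) S.sh hG _).trans (Q.map_zero _ _).symm)
  let E := HomologicalComplex.singleObjXSelf (ComplexShape.up ℤ) j S.sh
  intro U hx s hs
  obtain ⟨t, ht⟩ := S.exists_ι (U := U) (s := s.1) ⟨s.2, congrArg Subtype.val hs⟩
  let t' : sec (((CochainComplex.singleFunctor (Sh k X) j).obj S.sh).X j) U := app E.inv U t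
  have h1 := app_homotopy H (sub_add_cancel j 1) rfl U t'
  have h2 : app (((CochainComplex.singleFunctor (Sh k X) j).obj S.sh).d j (j + 1)) U t' = 0 := rfl
  have h3 : E.inv ≫ f.f j = S.ι := by
    have h4 : f.f j = _ := HomologicalComplex.mkHomFromSingle_f _ _
    rw [h4, Iso.inv_hom_id_assoc]
  have h4 : app (f.f j) U t' = s.1 := (congrArg (fun g => app g U t) h3).trans ht
  rw [h2, map_zero, zero_add, HomologicalComplex.zero_f, app_zero, add_zero, h4] at h1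
  refine ⟨U, le_rfl, hx, ⟨app (H.hom j (j - 1)) U t', ?_⟩, ?_⟩
  · refine ((supp_app _ _).trans (supp_app _ _)).trans ?_
    rw [← supp_app_of_injective S.ι, ht]
    exact s.2
  · rw [res_self]
    exact Subtype.ext h1.symm

/-- A direct summand of an object with a perverse truncation has a perverse truncation. -/
theorem isPT_retract (hneg : ∀ d Z, d < 0 → 𝒵 d Z → Z = ∅)
    (hmono : ∀ d d' Z, d ≤ d' → 𝒵 d Z → 𝒵 d' Z) {A' K K' : Der k X} {a : A' ⟶ K'}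
    (h : IsPT 𝒵 c a) {ι : K ⟶ K'} {π : K' ⟶ K} (e : ι ≫ π = 𝟙 K) :
    ∃ (A : Der k X) (u : A ⟶ K), IsPT 𝒵 c u ∧
      ∀ (T : Der k X) (y : T ⟶ K), ThruH u y ↔ ThruH a (y ≫ ι) := by
  obtain ⟨B', b, w, hT, hA, hB⟩ := h
  have h1 : ∀ {T : Der k X} (φ : T ⟶ A'⟦(1 : ℤ)⟧), (∀ ψ : T ⟶ B', ψ = 0) →
      φ ≫ a⟦(1 : ℤ)⟧' = 0 → φ = 0 := fun φ h0 hφ => by
    obtain ⟨ψ, hψ⟩ : ∃ ψ, φ = ψ ≫ w := Triangle.coyoneda_exact₁ _ hT φ hφ
    rw [hψ, h0 ψ, zero_comp]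
  have h2 : ∀ f : A' ⟶ A', f ≫ a = 0 → f = 0 := fun f hf =>
    (shiftFunctor _ (1 : ℤ)).map_injective ((h1 (f⟦(1 : ℤ)⟧') (hB.zero hneg (ble_shift hmono hA))
      (by rw [← Functor.map_comp, hf, Functor.map_zero])).trans (Functor.map_zero _ _ _).symm)
  obtain ⟨p, hp⟩ : ∃ p : A' ⟶ A', a ≫ π ≫ ι = p ≫ a :=
    Triangle.coyoneda_exact₂ _ hT _ (hB.zero hneg hA _)
  have hpp : p ≫ p = p := by
    rw [← sub_eq_zero]
    refine h2 _ ?_
    rw [Preadditive.sub_comp, Category.assoc, ← hp, ← reassoc_of% hp, reassoc_of% e, sub_self]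
  obtain ⟨⟨n, hn⟩, hA2⟩ := id hA
  have := hA2.isLE hneg
  obtain ⟨A, A2, i, r, -, -, e1, -, e2, -, -⟩ := P275JM.exists_split A' n c p hpp
  have e3 : (i ≫ a ≫ π) ≫ ι = i ≫ a := by
    rw [Category.assoc, Category.assoc, hp, ← e2, Category.assoc, reassoc_of% e1]
  have e4 : r ≫ i ≫ a ≫ π = a ≫ π := by
    rw [reassoc_of% e2, ← reassoc_of% hp, e, Category.comp_id]
  have key : ∀ (T : Der k X) (y : T ⟶ K), ThruH (i ≫ a ≫ π) y ↔ ThruH a (y ≫ ι) := fun T y =>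
    ⟨fun ⟨φ, hφ⟩ => ⟨φ ≫ i, by rw [← hφ, Category.assoc, Category.assoc φ, e3]⟩, fun ⟨φ, hφ⟩ =>
      ⟨φ ≫ r, by rw [Category.assoc, e4, reassoc_of% hφ, e, Category.comp_id]⟩⟩
  obtain ⟨B, v, w', hT'⟩ := distinguished_cocone_triangle (i ≫ a ≫ π)
  refine ⟨A, i ≫ a ≫ π, ⟨B, v, w', hT', ble_retract hA e1, fun m Z hZ G hG φ => ?_⟩, key⟩
  have h3 : (φ ≫ w') ≫ i⟦(1 : ℤ)⟧' = 0 := by
    refine h1 _ (hB m Z hZ G hG) ?_
    have h4 : w' ≫ (i ≫ a ≫ π)⟦(1 : ℤ)⟧' = 0 := comp_distTriang_mor_zero₃₁ _ hT'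
    rw [Category.assoc, ← Functor.map_comp, ← e3, Functor.map_comp, Category.assoc,
      reassoc_of% h4, zero_comp, comp_zero]
  have h4 : φ ≫ w' = 0 := by
    rw [← Category.comp_id (φ ≫ w'), ← (shiftFunctor _ (1 : ℤ)).map_id, ← e1, Functor.map_comp,
      ← Category.assoc, h3, zero_comp]
  obtain ⟨χ, hχ⟩ : ∃ χ : sgl G m ⟶ K, φ = χ ≫ v := Triangle.coyoneda_exact₃ _ hT' φ h4
  obtain ⟨ξ, hξ⟩ : ∃ ξ : sgl G m ⟶ A', χ ≫ ι = ξ ≫ a :=
    Triangle.coyoneda_exact₂ _ hT _ (hB m Z hZ G hG _)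
  obtain ⟨η, hη⟩ := (key _ χ).2 ⟨ξ, hξ.symm⟩
  have h5 : (i ≫ a ≫ π) ≫ v = 0 := comp_distTriang_mor_zero₁₂ _ hT'
  rw [hχ, ← hη, Category.assoc, h5, comp_zero]

/-- A perverse truncation is represented by a chain map. -/
theorem isPT_chain {J : Cx k X} (hJ : InjC J) {A : Der k X} {u : A ⟶ Q.obj J} (h : IsPT 𝒵 c u) :
    ∃ (W : Cx k X) (i : W ⟶ J), InjC W ∧ BLE 𝒵 c (Q.obj W) ∧
      SGT 𝒵 c (Q.obj (CochainComplex.mappingCone i)) ∧
      ∀ (T : Der k X) (y : T ⟶ Q.obj J), ThruH u y ↔ ThruH (Q.map i) y := by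
  obtain ⟨B, v, w, hT, hA, hB⟩ := h
  obtain ⟨n, hn⟩ := hA.1
  obtain ⟨W, hW, ⟨e⟩⟩ := P275JM.exists_injC A n
  obtain ⟨i, hi⟩ := P275JM.Q_surj hJ (e.inv ≫ u)
  obtain ⟨e', -⟩ := exists_iso_of_arrow_iso _ _ hT (mappingCone_triangle_distinguished i)
    (Arrow.isoMk e (Iso.refl _) (by
      change e.hom ≫ Q.map i = u ≫ 𝟙 _
      rw [hi]
      simp))
  refine ⟨W, i, hW, ble_retract hA e.inv_hom_id, sgt_of_iso hB (Triangle.π₃.mapIso e'),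
    fun T y => ⟨fun h => h.of_fac ⟨e.hom, by rw [hi]; simp⟩, fun h => h.of_fac ⟨e.inv, hi.symm⟩⟩⟩

variable (k) {K : Type} [Field K] [Algebra k K]

theorem ble_rs {W : Cx K X} (h : BLE 𝒵 c (Q.obj W)) : BLE 𝒵 c (Q.obj ((rsC k).obj W)) := by
  obtain ⟨⟨b, hb⟩, h⟩ := h
  refine ⟨⟨b, (isGE_rs k).2 hb⟩, fun m => ?_⟩
  obtain ⟨Z, hZ, h0⟩ := h m
  refine ⟨Z, hZ, fun x hx => ?_⟩
  have h1 : ExAt W m x := (isZero_stk_iff W m x).1
    ((h0 x hx).of_iso ((Stk K x).mapIso ((homologyFunctorFactors _ m).app W).symm))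
  exact ((isZero_stk_iff _ m x).2 ((exAt_rs k).2 h1)).of_iso
    ((Stk k x).mapIso ((homologyFunctorFactors _ m).app _))

theorem sgt_rs (hcl : ∀ d Z, 𝒵 d Z → IsClosed Z) (hemp : ∀ d, 𝒵 d ∅)
    (hmono : ∀ d d' Z, d ≤ d' → 𝒵 d Z → 𝒵 d' Z) {L : Cx K X} (hL : InjC L)
    (h : SGT 𝒵 c (Q.obj L)) : SGT 𝒵 c (Q.obj ((rsC k).obj L)) :=
  Orth.sgt hemp (GT.orth hcl ⟨_, hL.rs k, ⟨Iso.refl _⟩, fun _ Z hZ _ hj =>
    (exactAt_iff _ _).2 fun x =>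
      (exAt_gamS_rs k Z).2 (exAt_of_sgt hmono hL h hZ hj x)⟩)

/-- Restriction of scalars of a perverse truncation. -/
theorem isPT_rs (hcl : ∀ d Z, 𝒵 d Z → IsClosed Z) (hemp : ∀ d, 𝒵 d ∅)
    (hmono : ∀ d d' Z, d ≤ d' → 𝒵 d Z → 𝒵 d' Z) {J : Cx K X} (hJ : InjC J) {A : Der K X}
    {u : A ⟶ Q.obj J} (h : IsPT 𝒵 c u) :
    ∃ (A' : Der k X) (a : A' ⟶ Q.obj ((rsC k).obj J)), IsPT 𝒵 c a ∧
      ∀ (m : ℤ) (s : sec (J.X m) ⊤) (hs : app (J.d m (m + 1)) ⊤ s = 0),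
        ThruH a (clsR k s hs) ↔ ThruH u (cls s hs) := by
  obtain ⟨W, i, hW, h1, h2, h3⟩ := isPT_chain hJ h
  refine ⟨_, Q.map ((rsC k).map i), ⟨_, _, _, mappingCone_triangle_distinguished ((rsC k).map i),
    ble_rs k h1, sgt_of_iso (sgt_rs k hcl hemp hmono (hW.cone hJ i) h2)
      (Q.mapIso (CochainComplex.mappingCone.mapHomologicalComplexIso i (rsc k)))⟩,
    fun m s hs => (thru_rs k hW hJ i s hs).trans (h3 _ _).symm⟩

/-- Comparison of the direct images of the resolutions over `k` and over `K`. -/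
theorem exists_desc (K : Type) [Field K] [Algebra k K] (X : TopCat.{0}) :
    ∃ (τ : ∀ m, sec ((I k X).X m) ⊤ → sec ((I K X).X m) ⊤)
      (hτ : ∀ m s, app ((I k X).d m (m + 1)) ⊤ s = 0 → app ((I K X).d m (m + 1)) ⊤ (τ m s) = 0),
      ∀ (Y : TopCat.{0}) (f : X ⟶ Y),
        ∃ (ι : (Q.obj ((pushC k f).obj (I k X)) : Der k Y) ⟶
            Q.obj ((rsC k).obj ((pushC K f).obj (I K X))))
          (π : (Q.obj ((rsC k).obj ((pushC K f).obj (I K X))) : Der k Y) ⟶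
            Q.obj ((pushC k f).obj (I k X))), ι ≫ π = 𝟙 _ ∧
          ∀ m (s : sec ((I k X).X m) ⊤) (hs : app ((I k X).d m (m + 1)) ⊤ s = 0),
            cls (F := (pushC k f).obj (I k X)) s hs ≫ ι =
              clsR k (F := (pushC K f).obj (I K X)) (τ m s) (hτ m s hs) := by
  obtain ⟨i, p, ⟨H⟩, -⟩ := exists_rs_retract k K X
  refine ⟨fun m s => app (i.f m) ⊤ s, fun m s hs => cocy_map i hs, fun Y f => ?_⟩
  let i' : (pushC k f).obj (I k X) ⟶ (rsC k).obj ((pushC K f).obj (I K X)) := (pushC k f).map i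
  let p' : (rsC k).obj ((pushC K f).obj (I K X)) ⟶ (pushC k f).obj (I k X) := (pushC k f).map p
  refine ⟨Q.map i', Q.map p', ?_, fun m s hs => cls_comp _ _ i'⟩
  have H' : Homotopy (i' ≫ p') (𝟙 _) := (push k f).mapHomotopy H
  rw [← Q.map_comp, Q_map_eq_of_homotopy _ H', Q.map_id]

end P275S
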