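import Vale.Agent.P275S.Kun
import Vale.Agent.P275S.Fib

/-! Comparison of the two names of the pull-back over a base. -/

open CategoryTheory

noncomputable section

set_option backward.isDefEq.respectTransparency false

namespace P275S

variable {k : Type} [Field k] {X X' Y : TopCat.{0}}

theorem pullE_eq_pullo (f : X' ⟶ X) (h : X ⟶ Y) (h' : X' ⟶ Y) (e : f ≫ h = h') :
    pullE k f h h' e = pullo k f e := rfl

theorem pullo_homotopy [Nice X'] {f₀ f₁ : X' ⟶ X} (G : f₀.hom.Homotopy f₁.hom) {h : X ⟶ Y}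
    {h' : X' ⟶ Y} (e : ∀ t x, h (G (t, x)) = h' x) (e₀ : f₀ ≫ h = h') (e₁ : f₁ ≫ h = h') :
    pullo k f₀ e₀ = pullo k f₁ e₁ := pullE_homotopy G h h' e e₀ e₁

end P275S
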