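import Vale.Agent.P275S.HC
import Vale.Agent.P275RS.Res

/-! Cohomology of open subsets by sections; Mayer-Vietoris gluing of classes. -/

open CategoryTheory Limits TopologicalSpace Topology Set

noncomputable section

set_option backward.isDefEq.respectTransparency false

namespace P275S

variable {k : Type} [Field k] {W W' Z Z₁ Z₂ : TopCat.{0}}

/-- Pull back of a section over an open set that contains the image. -/
def pzU (k : Type) [Field k] (f : W ⟶ Z) {U : Opens Z} (h : ∀ w, f w ∈ U) (n : ℤ) :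
    sec ((I k Z).X n) U →ₗ[k] sec ((I k W).X n) ⊤ :=
  res ((I k W).X n) (U := (Opens.map f).obj U) (fun w _ => h w) ∘ₗ app ((pullC k f).f n) U

theorem d_pzU (f : W ⟶ Z) {U : Opens Z} (h : ∀ w, f w ∈ U) (i j : ℤ) (s : sec ((I k Z).X i) U) :
    app ((I k W).d i j) ⊤ (pzU k f h i s) = pzU k f h j (app ((I k Z).d i j) U s) :=
  (app_res _ _ _).trans (congrArg _ (app_f_d (pullC k f) i j U s).symm)

theorem pzU_res (f : W ⟶ Z) {U V : Opens Z} (h : ∀ w, f w ∈ V) (e : V ≤ U) (n : ℤ)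
    (s : sec ((I k Z).X n) U) : pzU k f h n (res _ e s) = pzU k f (fun w => e (h w)) n s :=
  (congrArg _ (app_res ((pullC k f).f n) e s)).trans (res_res ((I k W).X n) _ _ _)

/-- The class defined by a cocycle over an open set that contains the image. -/
def hcU (f : W ⟶ Z) {U : Opens Z} (h : ∀ w, f w ∈ U) {n : ℤ} (s : sec ((I k Z).X n) U)
    (hs : app ((I k Z).d n (n + 1)) U s = 0) : H k W :=
  hc (pzU k f h n s) (by rw [d_pzU, hs, map_zero])

variable {f : W ⟶ Z} {U V : Opens Z} {n : ℤ}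

theorem hcU_mem (h : ∀ w, f w ∈ U) (s : sec ((I k Z).X n) U)
    (hs : app ((I k Z).d n (n + 1)) U s = 0) : hcU f h s hs ∈ Hd k W n := hc_mem _ _

theorem hcU_congr (h : ∀ w, f w ∈ U) {s s' : sec ((I k Z).X n) U} (e : s = s')
    (hs : app ((I k Z).d n (n + 1)) U s = 0) : hcU f h s hs = hcU f h s' (e ▸ hs) := by
  subst e
  rfl

theorem hcU_res (h : ∀ w, f w ∈ V) (e : V ≤ U) (s : sec ((I k Z).X n) U)
    (hs : app ((I k Z).d n (n + 1)) U s = 0) :
    hcU f h (res _ e s) (by rw [app_res, hs, map_zero]) = hcU f (fun w => e (h w)) s hs :=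
  hc_congr (pzU_res f h e n s) _

theorem hcU_top (c : sec ((I k Z).X n) ⊤) (hs : app ((I k Z).d n (n + 1)) ⊤ c = 0) :
    hcU f (U := ⊤) (fun _ => trivial) c hs = pb f (hc c hs) :=
  (hc_congr (res_self _ _ _) _).trans (pb_hc f c hs).symm

theorem hcU_glob (h : ∀ w, f w ∈ U) (c : sec ((I k Z).X n) ⊤)
    (hs : app ((I k Z).d n (n + 1)) ⊤ c = 0) :
    hcU f h (res _ le_top c) (by rw [app_res, hs, map_zero]) = pb f (hc c hs) :=
  (hcU_res h le_top c hs).trans (hcU_top c hs)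

theorem hcU_add (h : ∀ w, f w ∈ U) (s s' : sec ((I k Z).X n) U)
    (hs : app ((I k Z).d n (n + 1)) U s = 0) (hs' : app ((I k Z).d n (n + 1)) U s' = 0) :
    hcU f h (s + s') (by rw [map_add, hs, hs', add_zero]) = hcU f h s hs + hcU f h s' hs' :=
  (hc_congr (map_add _ _ _) _).trans (hc_add _ _ _ _)

theorem hcU_sub (h : ∀ w, f w ∈ U) (s s' : sec ((I k Z).X n) U)
    (hs : app ((I k Z).d n (n + 1)) U s = 0) (hs' : app ((I k Z).d n (n + 1)) U s' = 0) :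
    hcU f h (s - s') (by rw [map_sub, hs, hs', sub_zero]) = hcU f h s hs - hcU f h s' hs' :=
  (hc_congr (map_sub _ _ _) _).trans (hc_sub _ _ _ _)

theorem hcU_d (h : ∀ w, f w ∈ U) {m : ℤ} (e : m + 1 = n) (t : sec ((I k Z).X m) U) :
    hcU f h (app ((I k Z).d m n) U t) (app_d_d _ _ _ _ _ _) = 0 :=
  (hc_eq_zero_iff _ _ m e).2 ⟨_, d_pzU f h m n t⟩

theorem pb_hcU (g : W' ⟶ W) (h : ∀ w, f w ∈ U) (s : sec ((I k Z).X n) U)
    (hs : app ((I k Z).d n (n + 1)) U s = 0) :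
    pb g (hcU f h s hs) = hcU (g ≫ f) (fun w => h (g w)) s hs := by
  obtain ⟨G⟩ := (KG.hom_eq_iff k (pullC k f ≫ (pushC k f).map (pullC k g)) (pullC k (g ≫ f))).1
    ((KG.hom_comp k _ _).trans ((congrArg _ (pull_eq_hom g f).symm).trans (pullI_comp g f)))
  have a := app_homotopy G (show n - 1 + 1 = n by omega) rfl U s
  rw [hs, map_zero, zero_add] at a
  rw [hcU, hcU, pb_hc, hc_eq_iff _ _ _ _ (n - 1) (by omega)]
  refine ⟨res ((I k W').X (n - 1)) (U := (Opens.map (g ≫ f)).obj U) (fun w _ => h (g w))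
    (app (G.hom n (n - 1)) U s), ?_⟩
  have b := congrArg (res ((I k W').X n) (U := (Opens.map (g ≫ f)).obj U) (V := ⊤)
    fun w _ => h (g w)) a
  rw [map_add] at b
  rw [app_res, eq_sub_iff_add_eq]
  exact b.symm.trans (app_res ((pullC k g).f n) (U := (Opens.map f).obj U) (V := ⊤)
    (fun w _ => h w) _).symm

theorem res_bij (F : Sh k W) {V : Opens W} (h : ⊤ ≤ V) : Function.Bijective (res F h) := by
  obtain rfl : V = ⊤ := top_le_iff.1 h
  exact ⟨fun a b e => by simpa using e, fun a => ⟨a, res_self _ _ _⟩⟩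

theorem qis_pullC_gam [Nice Z] (hf : IsInducing f) (hr : (U : Set Z) ⊆ range f) :
    QuasiIso ((mapC (Gam k U)).map (pullC k f)) :=
  qis_gam_loc (softC_I k Z) (injC_K f).softC _ U fun x hx => by
    obtain ⟨y, rfl⟩ := hr hx
    exact P275RS.qisAt_pullC hf y

theorem hcU_eq_zero [Nice Z] (hf : IsInducing f) (hr : (U : Set Z) ⊆ range f) (h : ∀ w, f w ∈ U)
    (s : sec ((I k Z).X n) U) (hs : app ((I k Z).d n (n + 1)) U s = 0) (h0 : hcU f h s hs = 0) :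
    ∃ t : sec ((I k Z).X (n - 1)) U, app ((I k Z).d (n - 1) n) U t = s := by
  have := qis_pullC_gam (k := k) hf hr
  obtain ⟨b, hb⟩ := (hc_eq_zero_iff _ _ (n - 1) (by omega)).1 h0
  obtain ⟨b, rfl⟩ := (res_bij _ (V := (Opens.map f).obj U) fun w _ => h w).2 b
  rw [app_res] at hb
  exact (mod_mono_hm_iff ((mapC (Gam k U)).map (pullC k f)) n).1 inferInstance s hs b
    ((res_bij _ _).1 hb)

theorem hcU_surj [Nice Z] (hf : IsInducing f) (hr : (U : Set Z) ⊆ range f) (h : ∀ w, f w ∈ U)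
    {a : H k W} (ha : a ∈ Hd k W n) : ∃ (s : sec ((I k Z).X n) U)
      (hs : app ((I k Z).d n (n + 1)) U s = 0), hcU f h s hs = a := by
  have := qis_pullC_gam (k := k) hf hr
  obtain ⟨c, hc', rfl⟩ := exists_hc ha
  obtain ⟨c, rfl⟩ := (res_bij _ (V := (Opens.map f).obj U) fun w _ => h w).2 c
  have h1 := hc'
  rw [app_res] at h1
  obtain ⟨s, hs, b, hb⟩ := (mod_epi_hm_iff ((mapC (Gam k U)).map (pullC k f)) n).1
    inferInstance c ((res_bij _ _).1 (h1.trans (map_zero _).symm))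
  refine ⟨s, hs, ((hc_eq_iff _ _ _ _ (n - 1) (by omega)).2
    ⟨res ((I k W).X (n - 1)) (U := (Opens.map f).obj U) (fun w _ => h w) b, ?_⟩).symm⟩
  rw [app_res, eq_sub_iff_add_eq', ← hb]
  exact (map_add (res ((I k W).X n) (U := (Opens.map f).obj U) (V := ⊤) fun w _ => h w) _ _).symm

/-- Mayer-Vietoris: classes that agree on the intersection come from the union. -/
theorem exists_mv_glue [Nice Z] {j₁ : Z₁ ⟶ Z} {j₂ : Z₂ ⟶ Z} (h₁ : IsOpenEmbedding j₁)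
    (h₂ : IsOpenEmbedding j₂) (hc' : range j₁ ∪ range j₂ = univ) {i₁ : W ⟶ Z₁} {i₂ : W ⟶ Z₂}
    (e : i₁ ≫ j₁ = i₂ ≫ j₂) (hi : IsInducing (i₁ ≫ j₁))
    (hr : range j₁ ∩ range j₂ ⊆ range (i₁ ≫ j₁)) {a₁ : H k Z₁} {a₂ : H k Z₂}
    (h : pb i₁ a₁ = pb i₂ a₂) : ∃ a : H k Z, pb j₁ a = a₁ ∧ pb j₂ a = a₂ := by
  classical
  let U₁ : Opens Z := ⟨_, h₁.isOpen_range⟩
  let U₂ : Opens Z := ⟨_, h₂.isOpen_range⟩
  have m₁ : ∀ w, j₁ w ∈ U₁ := fun w => ⟨w, rfl⟩
  have m₂ : ∀ w, j₂ w ∈ U₂ := fun w => ⟨w, rfl⟩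
  have m : ∀ w, (i₁ ≫ j₁) w ∈ U₁ ⊓ U₂ := fun w => ⟨m₁ _, e ▸ m₂ _⟩
  have key : ∀ n, ∃ a : H k Z, pb j₁ a = KG.pr n a₁ ∧ pb j₂ a = KG.pr n a₂ := by
    intro n
    obtain ⟨s₁, d₁, e₁⟩ := hcU_surj h₁.isInducing Subset.rfl m₁ (KG.pr_mem_deg n a₁)
    obtain ⟨s₂, d₂, e₂⟩ := hcU_surj h₂.isInducing Subset.rfl m₂ (KG.pr_mem_deg n a₂)
    have a : hcU (i₁ ≫ j₁) (fun w => m₁ _) s₁ d₁ = hcU (i₁ ≫ j₁) (fun w => (m w).2) s₂ d₂ := by
      rw [← pb_hcU i₁ m₁, e₁, pb_pr, h, ← pb_pr, ← e₂, pb_hcU]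
      congr 1
      exact e.symm
    obtain ⟨t, ht⟩ := hcU_eq_zero hi hr m (res _ inf_le_left s₁ - res _ inf_le_right s₂)
      (by rw [map_sub, app_res, app_res, d₁, d₂, map_zero, map_zero, sub_zero]) (by
        rw [hcU_sub m _ _ (by rw [app_res, d₁, map_zero]) (by rw [app_res, d₂, map_zero]),
          hcU_res m _ _ d₁, hcU_res m _ _ d₂, a, sub_self])
    obtain ⟨t, rfl⟩ := (flqC_I k Z).2 _ U₂ _ inf_le_right t
    obtain ⟨c, c₁, c₂⟩ := glue₂ _ (le_top : U₁ ≤ ⊤) (le_top : U₂ ≤ ⊤)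
      (fun x _ => hc'.symm.subset (mem_univ x)) s₁ (s₂ + app ((I k Z).d (n - 1) n) U₂ t)
      (by rw [map_add, ← app_res, ht, add_sub_cancel])
    have dc : app ((I k Z).d n (n + 1)) ⊤ c = 0 := loc_zero _ _ fun x _ => by
      rcases hc'.symm.subset (mem_univ x) with b | b
      · exact ⟨U₁, le_top, b, by rw [← app_res, c₁, d₁]⟩
      · exact ⟨U₂, le_top, b, by rw [← app_res, c₂, map_add, d₂, app_d_d, add_zero]⟩
    refine ⟨hc c dc, ?_, ?_⟩
    · rw [← hcU_glob m₁, hcU_congr m₁ c₁, e₁]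
    · rw [← hcU_glob m₂, hcU_congr m₂ c₂, hcU_add m₂ _ _ d₂ (app_d_d _ _ _ _ _ _),
        hcU_d m₂ (by omega), add_zero, e₂]
  choose a b₁ b₂ using key
  obtain ⟨s₁, p₁, q₁⟩ := KG.exists_sum_pr a₁
  obtain ⟨s₂, p₂, q₂⟩ := KG.exists_sum_pr a₂
  refine ⟨∑ n ∈ s₁ ∪ s₂, a n, ?_, ?_⟩
  · simp only [map_sum, b₁]
    exact (Finset.sum_subset Finset.subset_union_left fun n _ h => p₁ n h).symm.trans q₁
  · simp only [map_sum, b₂]
    exact (Finset.sum_subset Finset.subset_union_right fun n _ h => p₂ n h).symm.trans q₂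

/-- A class that vanishes on the members of a cover by disjoint open sets is zero. -/
theorem eq_zero_of_disj [Nice Z] {ι : Type} {Y : ι → TopCat.{0}} (j : ∀ i, Y i ⟶ Z)
    (hj : ∀ i, IsOpenEmbedding (j i)) (hc' : ∀ x, ∃ i, x ∈ range (j i))
    (hd : ∀ i l, i ≠ l → Disjoint (range (j i)) (range (j l))) {a : H k Z}
    (h : ∀ i, pb (j i) a = 0) : a = 0 := by
  refine KG.ext_pr fun n => ?_
  obtain ⟨c, dc, e⟩ := exists_hc (KG.pr_mem_deg n a)
  let U : ι → Opens Z := fun i => ⟨_, (hj i).isOpen_range⟩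
  choose t ht using fun i => hcU_eq_zero (U := U i) (hj i).isInducing Subset.rfl
    (fun w => ⟨w, rfl⟩) (res _ le_top c) (by rw [app_res, dc, map_zero])
    (by rw [hcU_glob _ c dc, e, pb_pr, h, map_zero])
  obtain ⟨u, hu⟩ := glue _ U ⊤ (fun _ => le_top) (fun x _ => Opens.mem_iSup.2 (hc' x)) t
    fun i l => by
      by_cases hil : i = l
      · subst hil
        rfl
      · exact loc_ext _ _ _ fun x hx => (disjoint_left.1 (hd i l hil) hx.1 hx.2).elim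
  rw [map_zero, ← e, hc_eq_zero_iff _ _ (n - 1) (by omega)]
  refine ⟨u, loc_ext _ _ _ fun x _ => ?_⟩
  obtain ⟨i, hi⟩ := hc' x
  exact ⟨U i, le_top, hi, by rw [← app_res, hu, ht]⟩

theorem eq_zero_of_disj₂ [Nice Z] {j₁ : Z₁ ⟶ Z} {j₂ : Z₂ ⟶ Z} (h₁ : IsOpenEmbedding j₁)
    (h₂ : IsOpenEmbedding j₂) (hc' : range j₁ ∪ range j₂ = univ)
    (hd : Disjoint (range j₁) (range j₂)) {a : H k Z} (e₁ : pb j₁ a = 0) (e₂ : pb j₂ a = 0) :
    a = 0 := by
  refine eq_zero_of_disj (ι := Bool) (Y := fun b => Bool.rec Z₁ Z₂ b)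
    (fun b => Bool.rec j₁ j₂ b) (fun b => by cases b <;> assumption) (fun x => ?_) ?_
    fun b => by cases b <;> assumption
  · rcases hc'.symm.subset (mem_univ x) with b | b
    · exact ⟨false, b⟩
    · exact ⟨true, b⟩
  · rintro (_ | _) (_ | _) h
    · exact absurd rfl h
    · exact hd
    · exact hd.symm
    · exact absurd rfl h

end P275S
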