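import Vale.Agent.P275S.PNa
import Vale.Agent.P275CC.Defs

/-! Projective spaces with a power of the tautological bundle: subspaces and products. -/

open Set Topology
open P275CC (LB Co PFib inc)

noncomputable section

namespace P275S

variable {Z A B : Type} [TopologicalSpace Z] [TopologicalSpace A] [TopologicalSpace B]

theorem contOn_of_closed {Q Y : Type*} [TopologicalSpace Q] [TopologicalSpace Y] [CompactSpace Q]
    [T2Space Z] {p : Q → Z} (hp : Continuous p) (hs : Function.Surjective p) {W : Set Z}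
    (hW : IsOpen W) {f : Z → Y} (hf : ContinuousOn (fun v => f (p v)) (p ⁻¹' W)) :
    ContinuousOn f W := by
  rw [continuousOn_iff_isClosed]
  intro T hT
  refine ⟨_, hp.isClosedMap _
    (hf.isOpen_inter_preimage (hW.preimage hp) hT.isOpen_compl).isClosed_compl, ?_⟩
  ext x
  constructor
  · rintro ⟨a, b⟩
    obtain ⟨v, rfl⟩ := hs x
    exact ⟨⟨v, fun u => u.2 a, rfl⟩, b⟩
  · rintro ⟨⟨v, a, rfl⟩, b⟩
    exact ⟨by_contra fun u => a ⟨b, u⟩, b⟩

/-- the unit sphere -/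
abbrev Sp (n : ℕ) : Type := Metric.sphere (0 : Fin (n + 1) → ℂ) 1

theorem Sp.ne {n : ℕ} (v : Sp n) : v.1 ≠ 0 := sphere_sub v.2

variable {n r m e : ℕ}

theorem IsPN.sp_cont {C : Set Z} {q : (Fin (n + 1) → ℂ) → Z} (h : IsPN n C q) :
    Continuous fun v : Sp n => q v.1 :=
  h.cont.comp_continuous continuous_subtype_val fun v => v.ne

theorem IsPN.sp_surj {q : (Fin (n + 1) → ℂ) → Z} (h : IsPN n univ q) :
    Function.Surjective fun v : Sp n => q v.1 := fun z => by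
  obtain ⟨v, hv, rfl⟩ := h.img.symm.subset (mem_univ z)
  obtain ⟨c, hc, hs⟩ := exists_unit_smul hv
  exact ⟨⟨_, hs⟩, h.smul hv hc⟩

theorem IsPN.exists_rep {q : (Fin (n + 1) → ℂ) → Z} (h : IsPN n univ q) :
    ∃ ρ : Z → Fin (n + 1) → ℂ, (∀ z, ρ z ≠ 0) ∧ (∀ z, q (ρ z) = z) ∧
      ∀ v ≠ 0, ∃ c : ℂ, c ≠ 0 ∧ ρ (q v) = c • v := by
  choose ρ a b using fun z => h.img.symm.subset (mem_univ z)
  refine ⟨ρ, a, b, fun v hv => ?_⟩
  obtain ⟨c, hc⟩ := (h.eq_iff v hv _ (a (q v))).1 (b _).symm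
  exact ⟨c, fun e => a (q v) (by rw [hc, e, zero_smul]; rfl), hc⟩

/-- The data of `PFib`. -/
structure PF (L : LB Z) (F : Set Z) (r e : ℕ) (q : (Fin (r + 1) → ℂ) → Z)
    (s : L.ι → (Fin (r + 1) → ℂ) → ℂ) : Prop where
  pn : IsPN r F q
  ct : ∀ i, ContinuousOn (s i) ({0}ᶜ ∩ q ⁻¹' L.U i)
  ne : ∀ i v, v ≠ 0 → q v ∈ L.U i → s i v ≠ 0
  hom : ∀ i v (c : ℂ), v ≠ 0 → c ≠ 0 → q v ∈ L.U i → s i (c • v) = c ^ e * s i v
  law : ∀ i j v, v ≠ 0 → q v ∈ L.U i → q v ∈ L.U j → s i v = L.g i j (q v) * s j v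

theorem exists_pf {L : LB Z} {F : Set Z} (h : PFib L F r e) : ∃ q s, PF L F r e q s := by
  obtain ⟨q, s, a1, a2, a3, a4, a5, a6, a7⟩ := h
  exact ⟨q, s, ⟨a1, a2, fun v hv w hw => eq_comm.trans (a3 w v hw hv)⟩, a4, a5, a6, a7⟩

variable {L : LB Z} {F : Set Z} {q : (Fin (r + 1) → ℂ) → Z} {s : L.ι → (Fin (r + 1) → ℂ) → ℂ}

/-- A projective subspace as a space. -/
theorem PF.sub (h : PF L F r e q s) (T : (Fin (m + 1) → ℂ) →ₗ[ℂ] (Fin (r + 1) → ℂ))
    (hT : Function.Injective T) : ∃ q', PF (Co.pb (inc (q '' (T '' {0}ᶜ))) L) univ m e q'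
      fun i v => s i (T v) := by
  classical
  have ne : ∀ v ≠ 0, T v ≠ 0 := fun v hv => (map_ne_zero_iff T hT).2 hv
  have tc : Continuous T := T.continuous_of_finiteDimensional
  let q' : (Fin (m + 1) → ℂ) → q '' (T '' {0}ᶜ) := fun v =>
    if h : v = 0 then ⟨_, _, ⟨1, one_ne_zero, rfl⟩, rfl⟩ else ⟨q (T v), _, ⟨v, h, rfl⟩, rfl⟩
  have hq : ∀ v ≠ 0, (q' v).1 = q (T v) := fun v hv => by simp only [q', dif_neg hv]
  have mem : ∀ i, ∀ v ≠ 0, q' v ∈ (Co.pb (inc (q '' (T '' {0}ᶜ))) L).U i → q (T v) ∈ L.U i :=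
    fun i v hv a => hq v hv ▸ a
  refine ⟨q', ⟨?_, eq_univ_of_forall ?_, fun v hv w hw => ?_⟩, fun i => ?_,
    fun i v hv a => h.ne i _ (ne v hv) (mem i v hv a), fun i v c hv hc a => ?_,
    fun i j v hv a b => ?_⟩
  · rw [IsInducing.subtypeVal.continuousOn_iff]
    exact (h.pn.cont.comp tc.continuousOn ne).congr hq
  · rintro ⟨_, _, ⟨v, hv, rfl⟩, rfl⟩
    exact ⟨v, hv, Subtype.ext (hq v hv)⟩
  · rw [Subtype.ext_iff, hq v hv, hq w hw, h.pn.eq_iff _ (ne v hv) _ (ne w hw)]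
    exact exists_congr fun c => by rw [← map_smul, hT.eq_iff]
  · exact (h.ct i).comp tc.continuousOn fun v hv => ⟨ne v hv.1, mem i v hv.1 hv.2⟩
  · rw [map_smul, h.hom i _ c (ne v hv) hc (mem i v hv a)]
  · rw [h.law i j _ (ne v hv) (mem i v hv a) (mem j v hv b), ← hq v hv]
    rfl

/-- The fibres of a product with a projective space. -/
theorem PF.fib (h : PF L univ r e q s) (a : A) :
    PF (Co.pb (ContinuousMap.snd : C(A × Z, Z)) L) (Prod.fst ⁻¹' {a}) r e (fun v => (a, q v)) s := by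
  refine ⟨⟨continuousOn_const.prodMk h.pn.cont, ?_, fun v hv w hw => ?_⟩, h.ct, h.ne, h.hom, h.law⟩
  · refine Subset.antisymm ?_ ?_
    · rintro _ ⟨v, -, rfl⟩
      rfl
    · rintro ⟨_, z⟩ rfl
      obtain ⟨v, hv, rfl⟩ := h.pn.img.symm.subset (mem_univ z)
      exact ⟨v, hv, rfl⟩
  · rw [← h.pn.eq_iff v hv w hw, Prod.mk.injEq, and_iff_right rfl]

/-- Multiplication of a polynomial by a linear form. -/
def pmul (n : ℕ) : (Fin (n + 1) → ℂ) →ₗ[ℂ] (Fin 2 → ℂ) →ₗ[ℂ] (Fin (n + 2) → ℂ) :=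
  let S₀ : (Fin (n + 1) → ℂ) →ₗ[ℂ] (Fin (n + 2) → ℂ) :=
    LinearMap.pi fun i => Fin.lastCases 0 (fun j => LinearMap.proj j) i
  let S₁ : (Fin (n + 1) → ℂ) →ₗ[ℂ] (Fin (n + 2) → ℂ) :=
    LinearMap.pi fun i => Fin.cases 0 (fun j => LinearMap.proj j) i
  LinearMap.mk₂ ℂ (fun v w => w 0 • S₀ v + w 1 • S₁ v)
    (fun _ _ _ => by simp only [map_add, smul_add]; abel)
    (fun _ _ _ => by simp only [map_smul, smul_add, smul_smul, mul_comm])
    (fun _ _ _ => by simp only [Pi.add_apply, add_smul]; abel)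
    fun _ _ _ => by simp only [Pi.smul_apply, smul_eq_mul, smul_add, smul_smul]

theorem pmul_ne {v : Fin (n + 1) → ℂ} {w : Fin 2 → ℂ} (hv : v ≠ 0) (hw : w ≠ 0) :
    pmul n v w ≠ 0 := by
  intro h
  refine hv (funext fun i => ?_)
  by_cases h0 : w 0 = 0
  · have h1 : w 1 ≠ 0 := fun h1 => hw (funext (Fin.forall_fin_two.2 ⟨h0, h1⟩))
    simpa [pmul, h0, h1] using congrFun h i.succ
  · induction i using Fin.induction with
    | zero =>
      have := congrFun h (Fin.castSucc 0)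
      simp only [pmul, LinearMap.mk₂_apply, Pi.add_apply, Pi.smul_apply, LinearMap.pi_apply,
        Fin.lastCases_castSucc] at this
      simpa [h0] using this
    | succ j ih =>
      have := congrFun h (Fin.castSucc j.succ)
      simp only [pmul, LinearMap.mk₂_apply, Pi.add_apply, Pi.smul_apply, LinearMap.pi_apply,
        Fin.lastCases_castSucc] at this
      rw [← Fin.succ_castSucc, Fin.cases_succ] at this
      simpa [h0, show v j.castSucc = 0 from ih] using this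

theorem continuous_pmul : Continuous fun p : Sp n × Sp 1 => pmul n p.1.1 p.2.1 := by
  refine continuous_pi fun i => ?_
  simp only [pmul, LinearMap.mk₂_apply, Pi.add_apply, Pi.smul_apply]
  have c : ∀ t, Continuous fun p : Sp n × Sp 1 => p.2.1 t := fun t =>
    (continuous_apply t).comp (continuous_subtype_val.comp continuous_snd)
  refine Continuous.add ((c 0).smul ?_) ((c 1).smul ?_) <;>
    exact (continuous_apply i).comp ((LinearMap.continuous_of_finiteDimensional _).comp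
      (continuous_subtype_val.comp continuous_fst))

/-- The multiplication map `Pⁿ × P¹ → Pⁿ⁺¹`. -/
theorem PF.exists_mu [T2Space A] [T2Space B] {L : LB Z} {q s} (h : PF L univ (n + 1) e q s)
    {LA : LB A} {qA sA} (hA : PF LA univ n e qA sA) {LB' : LB B} {qB sB}
    (hB : PF LB' univ 1 e qB sB) : ∃ μ : C(A × B, Z),
      LB.Iso (LB.mul (Co.pb ContinuousMap.fst LA) (Co.pb ContinuousMap.snd LB')) (Co.pb μ L) := by
  obtain ⟨ρ, a1, a2, a3⟩ := hA.pn.exists_rep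
  obtain ⟨σ, b1, b2, b3⟩ := hB.pn.exists_rep
  have pc : Continuous fun p : Sp n × Sp 1 => (qA p.1.1, qB p.2.1) :=
    hA.pn.sp_cont.prodMap hB.pn.sp_cont
  have ps : Function.Surjective fun p : Sp n × Sp 1 => (qA p.1.1, qB p.2.1) :=
    hA.pn.sp_surj.prodMap hB.pn.sp_surj
  have mq : ∀ p : Sp n × Sp 1,
      q (pmul n (ρ (qA p.1.1)) (σ (qB p.2.1))) = q (pmul n p.1.1 p.2.1) := fun p => by
    obtain ⟨c, hc, e1⟩ := a3 _ p.1.ne
    obtain ⟨c', hc', e2⟩ := b3 _ p.2.ne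
    rw [e1, e2, map_smul, map_smul, LinearMap.smul_apply, smul_smul,
      h.pn.smul (pmul_ne p.1.ne p.2.ne) (mul_ne_zero hc' hc)]
  have mc : Continuous fun z : A × B => q (pmul n (ρ z.1) (σ z.2)) :=
    continuousOn_univ.1 (contOn_of_closed pc ps isOpen_univ
      ((h.pn.cont.comp_continuous continuous_pmul fun p => pmul_ne p.1.ne p.2.ne).congr
        fun p => (mq p).symm).continuousOn)
  refine ⟨⟨_, mc⟩, fun i z => s i.1 (pmul n (ρ z.1) (σ z.2)) / (sA i.2.1 (ρ z.1) * sB i.2.2 (σ z.2)),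
    ⟨fun i => ?_, fun i j z hi hj _ => ?_⟩, fun i z hz => div_ne_zero
      (h.ne _ _ (pmul_ne (a1 _) (b1 _)) hz.1) (mul_ne_zero (hA.ne _ _ (a1 _) ((a2 _).symm ▸ hz.2.1))
        (hB.ne _ _ (b1 _) ((b2 _).symm ▸ hz.2.2)))⟩
  · rw [inter_univ]
    refine contOn_of_closed pc ps (P275CC.Cov.op _ i) (ContinuousOn.congr
      (f := fun p : Sp n × Sp 1 => s i.1 (pmul n p.1.1 p.2.1) / (sA i.2.1 p.1.1 * sB i.2.2 p.2.1))
      (ContinuousOn.div ?_ (ContinuousOn.mul ?_ ?_) fun p hp => mul_ne_zero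
        (hA.ne _ _ p.1.ne hp.2.1) (hB.ne _ _ p.2.ne hp.2.2)) fun p hp => ?_)
    · exact (h.ct i.1).comp continuous_pmul.continuousOn fun p hp =>
        ⟨pmul_ne p.1.ne p.2.ne, by rw [mem_preimage, ← mq]; exact hp.1⟩
    · exact (hA.ct _).comp (by fun_prop) fun p hp => ⟨p.1.ne, hp.2.1⟩
    · exact (hB.ct _).comp (by fun_prop) fun p hp => ⟨p.2.ne, hp.2.2⟩
    · obtain ⟨c, hc, e1⟩ := a3 _ p.1.ne
      obtain ⟨c', hc', e2⟩ := b3 _ p.2.ne
      have := hA.ne _ _ p.1.ne hp.2.1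
      have := hB.ne _ _ p.2.ne hp.2.2
      have f1 := h.hom i.1 _ _ (pmul_ne p.1.ne p.2.ne) (mul_ne_zero hc' hc)
        (by rw [← mq]; exact hp.1)
      have f2 := hA.hom i.2.1 _ _ p.1.ne hc hp.2.1
      have f3 := hB.hom i.2.2 _ _ p.2.ne hc' hp.2.2
      simp only [e1, e2, map_smul, LinearMap.smul_apply, smul_smul]
      refine (congrArg₂ (· / ·) f1 (congrArg₂ (· * ·) f2 f3)).trans ?_
      field_simp
      ring
  · have u1 : qA (ρ z.1) ∈ LA.U i.2.1 := (a2 _).symm ▸ hi.2.1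
    have u2 : qA (ρ z.1) ∈ LA.U j.2.1 := (a2 _).symm ▸ hj.2.1
    have v1 : qB (σ z.2) ∈ LB'.U i.2.2 := (b2 _).symm ▸ hi.2.2
    have v2 : qB (σ z.2) ∈ LB'.U j.2.2 := (b2 _).symm ▸ hj.2.2
    have := hA.ne _ _ (a1 _) u1
    have := hB.ne _ _ (b1 _) v1
    have := LA.ne u2 u1
    have := LB'.ne v2 v1
    change _ = L.g i.1 j.1 (q (pmul n (ρ z.1) (σ z.2))) *
      (LA.g j.2.1 i.2.1 z.1 * LB'.g j.2.2 i.2.2 z.2) * _
    simp only
    rw [h.law i.1 j.1 _ (pmul_ne (a1 _) (b1 _)) hi.1 hj.1, hA.law j.2.1 i.2.1 _ (a1 _) u2 u1,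
      hB.law j.2.2 i.2.2 _ (b1 _) v2 v1]
    simp only [a2, b2] at *
    field_simp

end P275S
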