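import Vale.Agent.P275S.Wind
import Vale.Agent.P275S.PFb
import Vale.Agent.P275S.Taut
import Vale.Agent.P275OP.Sup

/-! The cohomology ring of projective space; products of classes vanishing on an open cover. -/

open CategoryTheory Limits TopologicalSpace Topology Set
open P275CC (LB Co PFib inc)

noncomputable section

set_option backward.isDefEq.respectTransparency false

namespace P275S

variable {X Y Z : TopCat.{0}}

/-- The product of two classes that vanish on the members of an open cover is zero. -/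
theorem mul_eq_zero_of_cover {k : Type} [Field k] [Nice X] {i : Y ⟶ X} {j : Z ⟶ X}
    (hi : IsInducing i) (hj : IsInducing j) (ho : IsOpen (range i))
    (hc : range i ∪ range j = univ) {a b : H k X} (ha : pb i a = 0) (hb : pb j b = 0) :
    a * b = 0 := by
  obtain ⟨s, -, e⟩ := KG.exists_sum_pr a
  rw [← e, Finset.sum_mul]
  refine Finset.sum_eq_zero fun n _ => ?_
  obtain ⟨τ, -, h⟩ := P275OP.exists_sup ho.isClosed_compl hi (compl_compl _).symm
    (KG.pr_mem_deg n a) (by rw [pb_pr, ha, map_zero])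
  obtain ⟨τ', h'⟩ := ((P275OP.on_gK ho.isClosed_compl (A := IK k X) (injC_I k X)).bij
    (φ := pullC k j) fun x hx => by
      obtain ⟨y, rfl⟩ := (hc.symm.subset (mem_univ x)).resolve_left hx
      exact P275RS.qisAt_pullC hj y).2 τ
  have h2 : pullI k j ≫ τ' = τ := h'
  rw [End.mul_def, ← h, ← h2, Category.assoc, ← Category.assoc, ← pullI_mul, hb, map_zero]
  exact (congrArg (· ≫ _) comp_zero).trans zero_comp

theorem acy_of_convex {k : Type} [Field k] [Nice X] {E : Type*} [NormedAddCommGroup E]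
    [NormedSpace ℝ E] [FiniteDimensional ℝ E] {C : Set X} (hC : IsCompact C) {g : X → E}
    (hg : ContinuousOn g C) (hi : InjOn g C) (hc : Convex ℝ (g '' C)) :
    Ab.Acy (dG (I k X)) (gG (I k X)) C := by
  let T : E ≃L[ℝ] (Fin (Module.finrank ℝ E) → ℝ) := ContinuousLinearEquiv.ofFinrankEq (by simp)
  refine (res_I k X).acy_convex _ hC (fun x => T (g x)) (T.continuous.comp_continuousOn hg)
    (T.injective.comp_injOn hi) ?_
  rw [← image_image]
  exact hc.linear_image T.toLinearEquiv.toLinearMap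

variable {e : ℕ}

/-- The tautological class of the projective line is not zero. -/
theorem PF.c1_ne [Nice Z] {L : LB Z} {q s} (h : PF L univ 1 e q s) (he : e ≠ 0) : c1 L ≠ 0 := by
  intro h0
  obtain ⟨ρ, a1, a2, a3⟩ := h.pn.exists_rep
  have cont : ∀ {W : Set Z}, IsOpen W → ∀ {f : (Fin 2 → ℂ) → ℂ},
      ContinuousOn f ({0}ᶜ ∩ q ⁻¹' W) → (∀ v ≠ 0, q v ∈ W → ∀ c : ℂ, c ≠ 0 → f (c • v) = f v) →
      ContinuousOn (fun z => f (ρ z)) W := fun hW f hf hs =>
    contOn_of_closed h.pn.sp_cont h.pn.sp_surj hW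
      ((hf.comp continuous_subtype_val.continuousOn fun v hv => ⟨Sp.ne v, hv⟩).congr fun v hv => by
        obtain ⟨c, hc, e1⟩ := a3 _ (Sp.ne v)
        exact (congrArg f e1).trans (hs _ (Sp.ne v) hv c hc))
  have rq : ∀ v ≠ 0, ∀ t, ρ (q v) t ≠ 0 → v t ≠ 0 := fun v hv t a b => by
    obtain ⟨c, -, e1⟩ := a3 v hv
    exact a (by simp [e1, b])
  have op : ∀ t, IsOpen {z | ρ z t ≠ 0} := fun t => by
    have := continuousOn_univ.1 (cont isOpen_univ (f := fun v => v t * star (v t) / ‖v‖ ^ 2)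
      (ContinuousOn.div (by fun_prop) (by fun_prop) fun v hv => by simpa using hv.1)
      fun v hv _ c hc => by
        have : (‖c‖ : ℂ) ^ 2 = c * star c := by
          rw [← Complex.ofReal_pow, Complex.sq_norm, Complex.star_def, Complex.mul_conj]
        have h1 : (‖v‖ : ℂ) ≠ 0 := by simpa using hv
        have h2 : star c ≠ 0 := star_ne_zero.2 hc
        simp only [Pi.smul_apply, smul_eq_mul, star_mul', norm_smul, Complex.ofReal_mul, mul_pow,
          this]
        field_simp)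
    convert isOpen_ne_fun this (continuous_const (y := 0)) using 1
    ext z
    simp [a1 z]
  have sec : ∀ t, L.Sec {z | ρ z t ≠ 0} fun i z => s i (ρ z) / ρ z t ^ e := fun t =>
    ⟨fun i => cont ((L.op i).inter (op t)) (f := fun v => s i v / v t ^ e)
      (((h.ct i).mono fun v hv => ⟨hv.1, hv.2.1⟩).div (by fun_prop) fun v hv =>
        pow_ne_zero _ (rq v hv.1 t hv.2.2)) fun v hv a c hc => by
        rw [h.hom i v c hv hc a.1, Pi.smul_apply, smul_eq_mul, mul_pow,
          mul_div_mul_left _ _ (pow_ne_zero _ hc)],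
      fun i j z hi hj _ => by
        simp only
        rw [h.law i j _ (a1 z) ((a2 z).symm ▸ hi) ((a2 z).symm ▸ hj), a2, mul_div_assoc]⟩
  have nz : ∀ t i, ∀ z ∈ L.U i, ρ z t ≠ 0 → s i (ρ z) / ρ z t ^ e ≠ 0 := fun t i z hz a =>
    div_ne_zero (h.ne i _ (a1 z) ((a2 z).symm ▸ hz)) (pow_ne_zero _ a)
  have disc : ∀ (t t' : Fin 2) (ι : ℂ → Fin 2 → ℂ), Continuous ι → (∀ y, ι y t = 1) →
      (∀ y, ι y t' = y) → q '' (ι '' Metric.closedBall 0 1) ⊆ {z | ρ z t ≠ 0} ∧
      Ab.Vn (dG (I ℂ Z)) (gG (I ℂ Z)) ∅ (q '' (ι '' Metric.closedBall 0 1)) 1 := by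
    intro t t' ι c i1 i2
    have ne : ∀ y, ι y ≠ 0 := fun y e => one_ne_zero ((i1 y).symm.trans (congrFun e t))
    have val : ∀ y, ρ (q (ι y)) t ≠ 0 ∧ ρ (q (ι y)) t' / ρ (q (ι y)) t = y := fun y => by
      obtain ⟨c, hc, e1⟩ := a3 _ (ne y)
      simp [e1, i1, i2, hc]
    have sub : q '' (ι '' Metric.closedBall 0 1) ⊆ {z | ρ z t ≠ 0} := by
      rintro _ ⟨_, ⟨y, -, rfl⟩, rfl⟩
      exact (val y).1
    refine ⟨sub, (acy_of_convex (((isCompact_closedBall _ _).image c).image_of_continuousOn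
      (h.pn.cont.mono ?_)) (g := fun z => ρ z t' / ρ z t) ((cont (op t) (f := fun v => v t' / v t)
      (ContinuousOn.div (by fun_prop) (by fun_prop) fun v hv => rq v hv.1 t hv.2)
      fun v _ _ c hc => ?_).mono sub) ?_ ?_).2 1 one_pos⟩
    · rintro _ ⟨y, -, rfl⟩
      exact ne y
    · simp only [Pi.smul_apply, smul_eq_mul, mul_div_mul_left _ _ hc]
    · rintro _ ⟨_, ⟨y, -, rfl⟩, rfl⟩ _ ⟨_, ⟨y', -, rfl⟩, rfl⟩ e
      rw [show y = y' from (val y).2.symm.trans (e.trans (val y').2)]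
    · rw [image_image, image_image]
      simp only [(val _).2, image_id']
      exact convex_closedBall _ _
  obtain ⟨d0, v0⟩ := disc 0 1 (fun y => ![1, y]) (by fun_prop) (fun _ => rfl) fun _ => rfl
  obtain ⟨d1, v1⟩ := disc 1 0 (fun y => ![y, 1]) (by fun_prop) (fun _ => rfl) fun _ => rfl
  have ne : ∀ y : ℂ, (![1, y] : Fin 2 → ℂ) ≠ 0 := fun y e => one_ne_zero (congrFun e 0)
  have := eq_of_c1_eq_zero h0 (U₀ := ⟨_, op 0⟩) (U₁ := ⟨_, op 1⟩) (sec 0) (sec 1) (nz 0) (nz 1)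
    (g := fun z => (ρ z 1 / ρ z 0) ^ e) (fun i z hz b0 b1 => by
      have := h.ne i _ (a1 z) ((a2 z).symm ▸ hz)
      have b0 : ρ z 0 ≠ 0 := b0
      have b1 : ρ z 1 ≠ 0 := b1
      rw [div_pow]
      field_simp) d0 d1 v0 v1 (γ := fun t : ℝ => q ![1, Complex.exp (t * Complex.I)])
    (h.pn.cont.comp_continuous (by fun_prop) fun t => ne _)
    (fun t => ⟨_, ⟨_, by simp, rfl⟩, rfl⟩)
    (fun t => ⟨_, ⟨Complex.exp (-(t * Complex.I)), by
        rw [mem_closedBall_zero_iff, Complex.exp_neg, norm_inv, Complex.norm_exp_ofReal_mul_I,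
          inv_one], rfl⟩, by
      rw [← h.pn.smul (ne _) (Complex.exp_ne_zero (-(t * Complex.I)))]
      congr 1
      simp [← Complex.exp_add]⟩)
    (lam := fun t : ℝ => e * (t * Complex.I)) (by fun_prop) (fun t => by
      obtain ⟨c, hc, e1⟩ := a3 _ (ne (Complex.exp (t * Complex.I)))
      simp [e1, hc, Complex.exp_nat_mul]) (s := 2 * Real.pi) (t := 0) (by simp)
  simp [he, Real.pi_ne_zero] at this

theorem PF.basis [Nice Z] {r : ℕ} {L : LB Z} {q s} (h : PF L univ r e q s) (h0 : c1 L ^ r ≠ 0) :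
    Function.Bijective fun a : Fin (r + 1) → ℂ => ∑ i, a i • c1 L ^ (i : ℕ) := by
  obtain ⟨u, v⟩ := (res_I ℂ Z).pn r h.pn
  have ne : ∀ i : Fin (r + 1), c1 L ^ (i : ℕ) ≠ 0 := fun i e => h0 (by
    rw [← Nat.add_sub_cancel' (Nat.lt_succ_iff.1 i.2), pow_add, e, zero_mul])
  refine bij_of_deg (d := fun i => 2 * (i : ℕ)) (fun i j e => Fin.ext (by
      simp only at e; omega)) (fun i => pow_mem_Hd (c1_mem L) i) ne
    (fun i a ha => exists_smul_of_le1 (v _) (pow_mem_Hd (c1_mem L) i) (ne i) ha) fun n hn a ha => ?_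
  rcases lt_or_ge n 0 with h1 | h1
  · exact eq_zero_of_neg h1 ha
  refine eq_zero_of_vn (u n ?_) ha
  rcases Int.even_or_odd' n with ⟨m, rfl | rfl⟩
  · refine Or.inr (not_le.1 fun b => hn ⟨m.toNat, by omega⟩ ?_)
    simp only
    omega
  · exact Or.inl ⟨m, rfl⟩

theorem PF.pow_succ [Nice Z] {r : ℕ} {L : LB Z} {q s} (h : PF L univ r e q s) :
    c1 L ^ (r + 1) = 0 :=
  eq_zero_of_vn (((res_I ℂ Z).pn r h.pn).1 _ (Or.inr (by push_cast; omega)))
    (pow_mem_Hd (c1_mem L) (r + 1))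

theorem nice_of_compact [Nice X] {C : Set X} (h : IsCompact C) : Nice (TopCat.of C) :=
  ⟨h.isClosed.locallyCompactSpace, inferInstance, inferInstance⟩

theorem PF.compact_sub {r m : ℕ} {L : LB Z} {F q s} (h : PF L F r e q s)
    (T : (Fin (m + 1) → ℂ) →ₗ[ℂ] (Fin (r + 1) → ℂ)) (hT : Function.Injective T) :
    IsCompact (q '' (T '' {0}ᶜ)) := by
  obtain ⟨q', h'⟩ := h.sub T hT
  exact isCompact_iff_isCompact_univ.2 h'.pn.compact

theorem add_pow_nil {R : Type*} [Ring R] {u x : R} (h : Commute u x) (hx : x * x = 0) (n : ℕ) :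
    (u + x) ^ (n + 1) = u ^ (n + 1) + (n + 1) • (u ^ n * x) := by
  induction n with
  | zero => simp
  | succ n ih =>
    rw [pow_succ, ih, add_mul, mul_add, mul_add, smul_mul_assoc, smul_mul_assoc, mul_assoc,
      mul_assoc, hx, ← h.eq, ← mul_assoc, ← pow_succ, ← pow_succ, mul_zero, smul_zero, add_zero,
      succ_nsmul _ (n + 1)]
    abel

/-- The Leray-Hirsch theorem on the level of cohomology. -/
def LHP : Prop := ∀ {Z X : TopCat.{0}} [Nice Z] [Nice X] (p : Z ⟶ X), IsProperMap p →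
  ∀ {ι : Type} [Fintype ι] (c : ι → H ℂ Z) (d : ι → ℤ), (∀ i, c i ∈ Hd ℂ Z (d i)) →
  (∀ x, ∃ (F : TopCat.{0}) (j : F ⟶ Z), IsInducing j ∧ range j = p ⁻¹' {x} ∧
    Function.Bijective fun r : ι → ℂ => ∑ i, r i • pb j (c i)) →
  Function.Bijective fun a : ι → H ℂ X => ∑ i, c i * pb p (a i)

theorem lh_of_ne (LH : LHP) {r : ℕ} (hr : ∀ (Z : TopCat.{0}) [Nice Z] (L : LB Z) q s,
    PF L univ r e q s → c1 L ^ r ≠ 0) [Nice Z] [Nice X] (p : Z ⟶ X) (hp : IsProperMap p)
    (L : LB Z) (h : ∀ x, ∃ q s, PF L (p ⁻¹' {x}) r e q s) :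
    Function.Bijective fun a : Fin (r + 1) → H ℂ X => ∑ i, pb p (a i) * c1 L ^ (i : ℕ) := by
  have := LH p hp (fun i : Fin (r + 1) => c1 L ^ (i : ℕ)) (fun i => 2 * (i : ℕ))
    (fun i => pow_mem_Hd (c1_mem L) i) fun x => by
      obtain ⟨q, s, h⟩ := h x
      obtain ⟨q', h'⟩ := h.sub LinearMap.id Function.injective_id
      have := nice_of_compact (h.compact_sub LinearMap.id Function.injective_id)
      refine ⟨_, sub (q '' (LinearMap.id (R := ℂ) '' {0}ᶜ)), sub_inducing _,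
        by rw [range_sub, LinearMap.id_coe, image_id, h.pn.img], ?_⟩
      simp only [map_pow, ← c1_pb]
      exact PF.basis (Z := TopCat.of _) h' (hr (TopCat.of _) _ _ _ h')
  simpa only [fun (i : ℕ) a =>
    ((commute_of_even (c1_mem L) even_two a).pow_left i).eq] using this

theorem PF.pow_step (LH : LHP) (he : e ≠ 0) {n : ℕ} {A B : TopCat.{0}} [Nice A] [Nice B]
    [CompactSpace B] {L : LB Z} {q s} (h : PF L univ (n + 1) e q s) {LA : LB A} {qA sA}
    (hA : PF LA univ n e qA sA) {LB' : LB B} {qB sB} (hB : PF LB' univ 1 e qB sB)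
    (h1 : c1 LA ^ n ≠ 0) : c1 L ^ (n + 1) ≠ 0 := by
  intro h0
  obtain ⟨μ, hμ⟩ := h.exists_mu hA hB
  have : Nice (TopCat.of (A × B)) := ⟨inferInstance, inferInstance, inferInstance⟩
  let f : TopCat.of (A × B) ⟶ A := TopCat.ofHom ContinuousMap.fst
  let g : TopCat.of (A × B) ⟶ B := TopCat.ofHom ContinuousMap.snd
  have inj := (lh_of_ne LH (r := 1) (fun Z _ L q s h => by rw [pow_one]; exact h.c1_ne he) f
    isProperMap_fst_of_compactSpace (Co.pb g.hom LB') fun a => ⟨_, _, hB.fib a⟩).1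
  have e1 : pb (TopCat.ofHom μ : TopCat.of (A × B) ⟶ Z) (c1 L) = pb f (c1 LA) + pb g (c1 LB') := by
    rw [← c1_pb, ← c1_pb, ← c1_pb, ← c1_mul]
    exact (c1_iso (X := TopCat.of (A × B)) hμ).symm
  have e2 := congrArg (pb (TopCat.ofHom μ : TopCat.of (A × B) ⟶ Z)) h0
  rw [map_pow, map_zero, e1, add_pow_nil (commute_of_even (pb_mem f (c1_mem LA)) even_two _)
    (by rw [← map_mul, ← sq, hB.pow_succ, map_zero]), ← map_pow, hA.pow_succ, map_zero,
    zero_add, ← map_pow, ← smul_mul_assoc, ← map_nsmul] at e2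
  have := congrFun (inj (a₁ := ![0, (n + 1) • c1 LA ^ n]) (a₂ := 0) (by
    rw [← c1_pb g] at e2
    simpa [Fin.sum_univ_two] using e2)) 1
  rw [← Nat.cast_smul_eq_nsmul ℂ] at this
  exact h1 ((smul_eq_zero.1 this).resolve_left (Nat.cast_ne_zero.2 n.succ_ne_zero))

theorem PF.pow_ne (LH : LHP) (he : e ≠ 0) : ∀ (r : ℕ) (Z : TopCat.{0}) [Nice Z] (L : LB Z) q s,
    PF L univ r e q s → c1 L ^ r ≠ 0 := by
  intro r
  induction r with
  | zero =>
    intro Z _ L q s _
    have : Nonempty Z := ⟨q 0⟩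
    rw [pow_zero]
    exact H_one_ne_zero
  | succ n ih =>
    intro Z _ L q s h
    have i1 : Function.Injective ((pmul n).flip 1) :=
      (injective_iff_map_eq_zero _).2 fun v hv => by_contra fun a => pmul_ne a one_ne_zero hv
    have i2 : Function.Injective (pmul n 1) :=
      (injective_iff_map_eq_zero _).2 fun v hv => by_contra fun a => pmul_ne one_ne_zero a hv
    obtain ⟨qA, hA⟩ := h.sub _ i1
    obtain ⟨qB, hB⟩ := PF.sub (m := 1) h _ i2
    have nA := nice_of_compact (h.compact_sub _ i1)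
    have nB := nice_of_compact (PF.compact_sub (m := 1) h _ i2)
    have cB := isCompact_iff_compactSpace.1 (PF.compact_sub (m := 1) h _ i2)
    exact PF.pow_step LH he (A := TopCat.of _) (B := TopCat.of _) h hA hB
      (ih (TopCat.of _) _ _ _ hA)

/-- Leray-Hirsch for projective bundles. -/
theorem lh_pf (LH : LHP) (he : e ≠ 0) {r : ℕ} [Nice Z] [Nice X] (p : Z ⟶ X) (hp : IsProperMap p)
    (L : LB Z) (h : ∀ x, PFib L (p ⁻¹' {x}) r e) :
    Function.Bijective fun a : Fin (r + 1) → H ℂ X => ∑ i, pb p (a i) * c1 L ^ (i : ℕ) :=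
  lh_of_ne LH (PF.pow_ne LH he r) p hp L fun x => exists_pf (h x)

end P275S
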