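import Vale.Agent.P275S.Desc
import Vale.Agent.P275Z.Top
import Vale.Agent.P275ZA.Zar

/-! Descent of the last clause of the statement from `ℂ` to `ℚ`. -/

open CategoryTheory DerivedCategory P275PV
open Vale.Agent.P275ST Vale.Agent.P275Z Vale.Agent.P275ZA

noncomputable section

namespace P275S

theorem qc : QC := by
  intro g n d V _ _ _ _ _ _ _ h _ _ hC i
  let 𝒵 : ℤ → Set (TopCat.of V) → Prop := fun e Z => ZarLE (V := V) Z e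
  have hcl : ∀ e Z, 𝒵 e Z → IsClosed Z := fun _ _ hZ => isZar_closed hZ.1
  have hemp : ∀ e, 𝒵 e ∅ := zarLE_empty
  have hneg : ∀ e Z, e < 0 → 𝒵 e Z → Z = ∅ := fun _ _ he hZ => zarLE_neg he hZ
  have hmono : ∀ e e' Z, e ≤ e' → 𝒵 e Z → 𝒵 e' Z := fun _ _ _ he hZ => zarLE_le hZ he
  obtain ⟨⟨A0, u0, h0⟩, hall⟩ := hC i
  obtain ⟨τ, hτ, hd⟩ := exists_desc ℚ ℂ (TX g n d)
  obtain ⟨ι, π, e, hι⟩ := hd _ (TopCat.ofHom h)
  obtain ⟨A1, u1, h1, t1⟩ := isPT_rs ℚ hcl hemp hmono ((injC_I ℂ _).push (TopCat.ofHom h))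
    (c := i + dimR g n) (u := u0) h0
  obtain ⟨A2, u2, h2, t2⟩ := isPT_retract hneg hmono h1 e
  refine ⟨⟨A2, u2, h2⟩, fun A u hu K m c => ?_⟩
  have hW : ∀ w : ℤ, InWK K.hom w c ↔
      InWK K.hom w (⟨τ m c.1, hτ m c.1 c.2⟩ : CocyK ℂ (TX g n d) m) := fun w => by
    obtain ⟨ι', π', e', hι'⟩ := hd _ K.hom
    refine (trLE_retract (j := w - m) _ e').symm.trans ?_
    refine (Eq.to_iff (congrArg (TrLE (w - m)) (hι' m c.1 c.2))).trans ?_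
    exact trLE_rs ℚ ((injC_I ℂ _).push K.hom) _ _
  obtain ⟨a1, a2⟩ := hall A0 u0 h0 K m ⟨τ m c.1, hτ m c.1 c.2⟩
  refine ⟨?_, by rw [hW, hW]; exact a2⟩
  rw [hW, ← a1]
  refine (IsPT.thru_iff hneg (show IsPT 𝒵 _ u from hu) h2 _).trans ((t2 _ _).trans ?_)
  exact (Eq.to_iff (congrArg (ThruH u1) (hι m c.1 c.2))).trans (t1 m _ _)

end P275S
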