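import Vale.Agent.P275S.Trunc

/-! Restriction of scalars for sheaves of vector spaces. -/

open CategoryTheory TopologicalSpace Opposite Limits DerivedCategory Pretriangulated

noncomputable section

namespace P275S

section Prod

variable {k : Type} [Field k] {X : TopCat.{0}}

/-- The value at `x` of a germ of discontinuous sections. -/
def evx (E : X → ModuleCat.{0} k) (x : X) : (Stk k x).obj (prodSh E) ⟶ E x :=
  colimit.desc ((OpenNhds.inclusion x).op ⋙ (prodSh E).1)
    { pt := E x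
      ι :=
        { app := fun U => ModuleCat.ofHom
            (LinearMap.proj (φ := fun y : U.unop.1 => E y.1) ⟨x, U.unop.2⟩)
          naturality := fun _ _ _ => rfl } }

theorem evx_gm (E : X → ModuleCat.{0} k) {U : Opens X} {x : X} (hx : x ∈ U)
    (s : sec (prodSh E) U) :
    (evx E x).hom (gm _ hx s) = (show ∀ y : U, E y.1 from s) ⟨x, hx⟩ :=
  congrArg (fun f => ModuleCat.Hom.hom f s)
    (colimit.ι_desc (F := (OpenNhds.inclusion x).op ⋙ (prodSh E).1) _ (op ⟨U, hx⟩))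

theorem injective_prodSh (E : X → ModuleCat.{0} k) : Injective (prodSh E) := by
  refine ⟨fun {A B} g i hi => ?_⟩
  have h : ∀ x, ∃ φ : (Stk k x).obj B ⟶ E x,
      (Stk k x).map i ≫ φ = (Stk k x).map g ≫ evx E x := fun x => by
    have := (mono_iff_stk i).1 hi x
    obtain ⟨φ, hφ⟩ := LinearMap.exists_leftInverse_of_injective ((Stk k x).map i).hom
      (LinearMap.ker_eq_bot.2 ((ModuleCat.mono_iff_injective _).1 this))
    obtain ⟨ψ, e⟩ : ∃ ψ : (Stk k x).obj B ⟶ (Stk k x).obj A, (Stk k x).map i ≫ ψ = 𝟙 _ :=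
      ⟨ModuleCat.ofHom φ, ModuleCat.hom_ext hφ⟩
    exact ⟨ψ ≫ (Stk k x).map g ≫ evx E x, by rw [← Category.assoc, e, Category.id_comp]⟩
  choose φ hφ using h
  refine ⟨toProd φ, hom_ext fun U s => funext fun x : U => ?_⟩
  have h1 := congrArg (fun f => ModuleCat.Hom.hom f (gm A x.2 s)) (hφ x.1)
  simp only [ModuleCat.hom_comp, LinearMap.comp_apply, stk_map_gm, evx_gm] at h1
  exact h1

end Prod

variable (k : Type) [Field k] {K : Type} [Field K] [Algebra k K] {X Y : TopCat.{0}}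

/-- Restriction of scalars for vector spaces. -/
abbrev rsM : ModuleCat.{0} K ⥤ ModuleCat.{0} k := ModuleCat.restrictScalars (algebraMap k K)

/-- Restriction of scalars of a sheaf. -/
def rsObj (F : Sh K X) : Sh k X :=
  Data.sh
    { M := fun U => (rsM k).obj (F.1.obj (op U))
      r := fun h => ((rsM k).map (F.1.map (homOfLE h).op)).hom
      r_self := fun _ s => res_self F _ s
      r_r := fun h h' s => res_res F h h' s
      loc := fun _ s hs => loc_zero F s hs
      gl := fun V s hs => glue F V (iSup V) (le_iSup V) le_rfl s hs }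

/-- Restriction of scalars for sheaves. -/
def rsc : Sh K X ⥤ Sh k X where
  obj F := rsObj k F
  map φ := mkHom (fun U => ((rsM k).map (φ.1.app (op U))).hom) fun _ _ h s => app_res φ h s
  map_id _ := hom_ext fun _ _ => rfl
  map_comp _ _ := hom_ext fun _ _ => rfl

instance : (rsc k : Sh K X ⥤ Sh k X).Additive where
  map_add := hom_ext fun _ _ => rfl

/-- Restriction of scalars for complexes. -/
abbrev rsC : Cx K X ⥤ Cx k X := mapC (rsc k)

theorem res_rsc (F : Sh K X) {U V : Opens X} (h : V ≤ U) (s : sec F U) :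
    res ((rsc k).obj F) h s = res F h s := rfl

theorem app_rsc {F G : Sh K X} (φ : F ⟶ G) (U : Opens X) (s : sec F U) :
    app ((rsc k).map φ) U s = app φ U s := rfl

theorem smul_rsc (F : Sh K X) (U : Opens X) (a : k) (s : sec ((rsc k).obj F) U) :
    a • s = (algebraMap k K a • (show sec F U from s) : sec F U) := rfl

theorem supp_rsc (F : Sh K X) {U : Opens X} (s : sec F U) :
    supp (F := (rsc k).obj F) s = supp s := rfl

theorem injective_rsc (F : Sh K X) [Injective F] : Injective ((rsc k).obj F) := by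
  let E : X → ModuleCat.{0} k := fun x => (rsM k).obj ((Stk K x).obj F)
  have := injective_prodSh E
  let a : (rsc k).obj (god F) ⟶ prodSh E :=
    mkHom (fun U => { toFun := fun s => s, map_add' := fun _ _ => rfl, map_smul' := fun _ _ => rfl })
      fun _ _ _ _ => rfl
  let b : prodSh E ⟶ (rsc k).obj (god F) :=
    mkHom (fun U => { toFun := fun s => s, map_add' := fun _ _ => rfl, map_smul' := fun _ _ => rfl })
      fun _ _ _ _ => rfl
  refine Retract.injective (Y := prodSh E) ⟨(rsc k).map (toGod F) ≫ a,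
    b ≫ (rsc k).map (Injective.factorThru (𝟙 F) (toGod F)), hom_ext fun U s => ?_⟩
  exact congrArg (fun f : F ⟶ F => app f U s) (Injective.comp_factorThru (𝟙 F) (toGod F))

variable {F G W : Cx K X} {n m j : ℤ} {x : X}

theorem InjC.rs (h : InjC F) : InjC ((rsC k).obj F) :=
  ⟨mapC_bdd _ h.1, fun n => have := h.2 n; injective_rsc k (F.X n)⟩

theorem FlqC.rs (h : FlqC F) : FlqC ((rsC k).obj F) := ⟨mapC_bdd _ h.1, h.2⟩

theorem SoftC.rs (h : SoftC F) : SoftC ((rsC k).obj F) := ⟨mapC_bdd _ h.1, h.2⟩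

theorem exAt_rs : ExAt ((rsC k).obj F) n x ↔ ExAt F n x := Iff.rfl

theorem zeroAt_rs (f : F ⟶ G) : ZeroAt ((rsC k).map f) n x ↔ ZeroAt f n x := Iff.rfl

theorem surjAt_rs (f : F ⟶ G) : SurjAt ((rsC k).map f) n x ↔ SurjAt f n x := Iff.rfl

theorem injAt_rs (f : F ⟶ G) : InjAt ((rsC k).map f) n x ↔ InjAt f n x := Iff.rfl

theorem qisAt_rs (f : F ⟶ G) : QisAt ((rsC k).map f) x ↔ QisAt f x := Iff.rfl

theorem quasiIso_rs (f : F ⟶ G) : QuasiIso ((rsC k).map f) ↔ QuasiIso f := by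
  rw [quasiIso_iff, quasiIso_iff]
  rfl

instance (f : F ⟶ G) [h : QuasiIso f] : QuasiIso ((rsC k).map f) := (quasiIso_rs k f).2 h

theorem isLE_rs : (Q.obj ((rsC k).obj F) : Der k X).IsLE n ↔ (Q.obj F : Der K X).IsLE n := by
  rw [isLE_iff, isLE_iff]
  rfl

theorem isGE_rs : (Q.obj ((rsC k).obj F) : Der k X).IsGE n ↔ (Q.obj F : Der K X).IsGE n := by
  rw [isGE_iff, isGE_iff]
  rfl

theorem exAt_gamS_rs (Z : Set X) : ExAt ((mapC (GamS k Z)).obj ((rsC k).obj F)) n x ↔
    ExAt ((mapC (GamS K Z)).obj F) n x := by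
  constructor
  · intro h U hx s hs
    obtain ⟨V, hV, hxV, t, ht⟩ := h U hx ⟨s.1, s.2⟩ (Subtype.ext (congrArg Subtype.val hs))
    exact ⟨V, hV, hxV, ⟨t.1, t.2⟩, Subtype.ext (congrArg Subtype.val ht)⟩
  · intro h U hx s hs
    obtain ⟨V, hV, hxV, t, ht⟩ := h U hx ⟨s.1, s.2⟩ (Subtype.ext (congrArg Subtype.val hs))
    exact ⟨V, hV, hxV, ⟨t.1, t.2⟩, Subtype.ext (congrArg Subtype.val ht)⟩

/-- The class of a cocycle after restriction of scalars. -/
abbrev clsR (c : sec (F.X m) ⊤) (hc : app (F.d m (m + 1)) ⊤ c = 0) :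
    (Q.obj (cstAt k X m) : Der k X) ⟶ Q.obj ((rsC k).obj F) :=
  cls (F := (rsC k).obj F) c hc

theorem clsR_comp (c : sec (F.X m) ⊤) (hc : app (F.d m (m + 1)) ⊤ c = 0) (g : F ⟶ G) :
    clsR k c hc ≫ Q.map ((rsC k).map g) = clsR k (app (g.f m) ⊤ c) (cocy_map g hc) :=
  cls_comp (F := (rsC k).obj F) c hc ((rsC k).map g)

theorem thru_rs (hW : InjC W) (hF : InjC F) (i : W ⟶ F) (c : sec (F.X m) ⊤)
    (hc : app (F.d m (m + 1)) ⊤ c = 0) :
    ThruH (Q.map ((rsC k).map i)) (clsR k c hc) ↔ ThruH (Q.map i) (cls c hc) :=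
  (thru_map_iff (hW.rs k).clsOK (hF.rs k).clsOK ((rsC k).map i) c hc).trans
    (thru_map_iff hW.clsOK hF.clsOK i c hc).symm

theorem clsR_eq_zero (hF : InjC F) (c : sec (F.X m) ⊤) (hc : app (F.d m (m + 1)) ⊤ c = 0) :
    clsR k c hc = 0 ↔ cls c hc = 0 :=
  ((hF.rs k).clsOK.eq_zero_iff hc).trans (hF.clsOK.eq_zero_iff hc).symm

/-- Factoring through the truncation does not depend on the field of scalars. -/
theorem trLE_rs (hF : InjC F) (c : sec (F.X m) ⊤) (hc : app (F.d m (m + 1)) ⊤ c = 0) :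
    TrLE j (clsR k c hc) ↔ TrLE j (cls c hc) := by
  obtain ⟨a, ha⟩ := hF.1
  constructor
  · intro h
    obtain ⟨L, hL, ⟨e⟩⟩ :=
      P275JM.exists_injC ((TStructure.t.truncGT j).obj (Q.obj F : Der K X)) (j + 1)
    obtain ⟨g, hg⟩ := P275JM.Q_surj hL ((TStructure.t.truncGTπ j).app (Q.obj F) ≫ e.hom)
    have : (Q.obj ((rsC k).obj L) : Der k X).IsGE (j + 1) :=
      (isGE_rs k).2 (TStructure.t.isGE_of_iso e _)
    have h1 := h.zero (Q.map ((rsC k).map g))
    rw [clsR_comp] at h1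
    have h2 := (clsR_eq_zero k hL _ (cocy_map g hc)).1 h1
    rw [← cls_comp c hc, hg, ← Category.assoc, Preadditive.IsIso.comp_right_eq_zero] at h2
    exact (trLE_iff_zero _).2 h2
  · rintro ⟨v, hv⟩
    obtain ⟨L, hL, ⟨e⟩⟩ :=
      P275JM.exists_injC ((TStructure.t.truncLE j).obj (Q.obj F : Der K X)) a
    obtain ⟨g, hg⟩ := P275JM.Q_surj hF (e.inv ≫ (TStructure.t.truncLEι j).app (Q.obj F))
    have : (Q.obj ((rsC k).obj L) : Der k X).IsLE j :=
      (isLE_rs k).2 (TStructure.t.isLE_of_iso e _)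
    exact TrLE.of_thru ((thru_rs k hL hF g c hc).2 ⟨v ≫ e.hom, by rw [hg, ← hv]; simp⟩)

variable (K X) in
/-- The resolution of `k` is a direct summand, up to homotopy, of the resolution of `K`. -/
theorem exists_rs_retract : ∃ (i : I k X ⟶ (rsC k).obj (I K X)) (p : (rsC k).obj (I K X) ⟶ I k X),
    Nonempty (Homotopy (i ≫ p) (𝟙 _)) ∧
      Nonempty (Homotopy (ιI k X ≫ i) (clsC (F := (rsC k).obj (I K X)) (ev (k := K) (ιI K X))
        (ev_d (k := K) (ιI K X)))) := by
  obtain ⟨ρ, hρ⟩ := LinearMap.exists_leftInverse_of_injective (Algebra.linearMap k K)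
    (LinearMap.ker_eq_bot.2 (algebraMap k K).injective)
  have hρ1 : ρ 1 = 1 := by simpa using LinearMap.congr_fun hρ 1
  let b0 : (rsc k).obj (cst K X) ⟶ cst k X := mkHom (fun U =>
    { toFun := fun s => LocallyConstant.map ρ (show LocallyConstant U K from s)
      map_add' := fun s t => LocallyConstant.ext fun y => ρ.map_add _ _
      map_smul' := fun c s => LocallyConstant.ext fun y => by
        change ρ (algebraMap k K c * (show LocallyConstant U K from s) y) =
          c • ρ ((show LocallyConstant U K from s) y)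
        rw [← Algebra.smul_def, map_smul] }) fun _ _ _ _ => rfl
  let E := HomologicalComplex.singleObjXSelf (ComplexShape.up ℤ) 0 (cst K X)
  let a : cstAt k X 0 ⟶ (rsC k).obj (cstAt K X 0) :=
    clsC (F := (rsC k).obj (cstAt K X 0)) (oneAt K X 0) (d_oneAt (k := K))
  let b : (rsC k).obj (cstAt K X 0) ⟶ cstAt k X 0 :=
    HomologicalComplex.mkHomToSingle ((rsc k).map E.hom ≫ b0) fun i _ => by
      have : ((rsC k).obj (cstAt K X 0)).d i 0 = 0 := (rsc k).map_zero _ _
      rw [this, zero_comp]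
  have hab : a ≫ b = 𝟙 _ := by
    refine ev_injective ?_
    have h0 : ev a = oneAt K X 0 := ev_clsC _ _
    have h1 : b.f 0 = _ := HomologicalComplex.mkHomToSingle_f _ _
    rw [ev_comp, h0, h1]
    have h2 : app E.hom ⊤ (oneAt K X 0) = cstOne K ⊤ :=
      congrArg (fun f => app f ⊤ (cstOne K ⊤)) E.inv_hom_id
    have h3 : app b0 ⊤ (cstOne K ⊤) = cstOne k ⊤ := LocallyConstant.ext fun _ => hρ1
    exact congrArg
      (app (HomologicalComplex.singleObjXSelf (ComplexShape.up ℤ) 0 (cst k X)).inv ⊤)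
      ((congrArg (app b0 ⊤) h2).trans h3)
  obtain ⟨i, hi⟩ := P275JM.Q_surj ((injC_I K X).rs k)
    (inv (Q.map (ιI k X)) ≫ Q.map a ≫ Q.map ((rsC k).map (ιI K X)))
  obtain ⟨p, hp⟩ := P275JM.Q_surj (injC_I k X)
    (inv (Q.map ((rsC k).map (ιI K X))) ≫ Q.map b ≫ Q.map (ιI k X))
  refine ⟨i, p, P275JM.Q_inj (injC_I k X) ?_, P275JM.Q_inj ((injC_I K X).rs k) ?_⟩
  · rw [Q.map_comp, hi, hp, Q.map_id]
    simp only [Category.assoc, IsIso.hom_inv_id_assoc]
    rw [← Q.map_comp_assoc, hab, Q.map_id, Category.id_comp, IsIso.inv_hom_id]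
  · rw [Q.map_comp, hi, IsIso.hom_inv_id_assoc, ← Q.map_comp]
    exact congrArg Q.map (clsC_comp (F := (rsC k).obj (cstAt K X 0)) _ _ _)

end P275S
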