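import Vale.Agent.P275S.Soft

/-! Natural maps between the functors of sections of soft sheaves. -/

open CategoryTheory TopologicalSpace Opposite Limits Set HomologicalComplex CochainComplex
open Vale.Agent

noncomputable section

namespace P275S

variable {k : Type} [Field k] {X Y : TopCat.{0}} {F G : Cx k X} {E : Sh k X} {A B A' B' : Set X}

/-- A natural transformation applied to a complex. -/
abbrev natC {C C' : Type*} [Category C] [Category C'] [Preadditive C] [Preadditive C']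
    {Φ Ψ : C ⥤ C'} [Φ.Additive] [Ψ.Additive] (α : Φ ⟶ Ψ) : mapC Φ ⟶ mapC Ψ :=
  NatTrans.mapHomologicalComplex α _

theorem isIso_natC {C C' : Type*} [Category C] [Category C'] [Preadditive C] [Preadditive C']
    {Φ Ψ : C ⥤ C'} [Φ.Additive] [Ψ.Additive] (α : Φ ⟶ Ψ) (K : CochainComplex C ℤ)
    (h : ∀ n, IsIso (α.app (K.X n))) : IsIso ((natC α).app K) :=
  have : ∀ n, IsIso (((natC α).app K).f n) := h
  Hom.isIso_of_components _

theorem isIso_mod {M N : ModuleCat.{0} k} (f : M ⟶ N) (h : Function.Bijective f.hom) : IsIso f :=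
  (ConcreteCategory.isIso_iff_bijective f).2 h

/-- The short complex of complexes defined by two natural transformations. -/
def scC {C C' : Type*} [Category C] [Category C'] [Preadditive C] [Preadditive C']
    {Φ Ψ Θ : C ⥤ C'} [Φ.Additive] [Ψ.Additive] [Θ.Additive] (α : Φ ⟶ Ψ) (β : Ψ ⟶ Θ)
    (w : α ≫ β = 0) (K : CochainComplex C ℤ) : ShortComplex (CochainComplex C' ℤ) :=
  ShortComplex.mk ((natC α).app K) ((natC β).app K) (by
    ext n
    exact congrArg (fun γ : Φ ⟶ Θ => γ.app (K.X n)) w)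

theorem scC_shortExact {C : Type*} [Category C] [Preadditive C] {Φ Ψ Θ : C ⥤ ModuleCat.{0} k}
    [Φ.Additive] [Ψ.Additive] [Θ.Additive] (α : Φ ⟶ Ψ) (β : Ψ ⟶ Θ) (w : α ≫ β = 0)
    (K : CochainComplex C ℤ) (h₁ : ∀ n, Function.Injective (α.app (K.X n)).hom)
    (h₂ : ∀ n s, (β.app (K.X n)).hom s = 0 → ∃ t, (α.app (K.X n)).hom t = s)
    (h₃ : ∀ n, Function.Surjective (β.app (K.X n)).hom) : (scC α β w K).ShortExact :=
  shortExact_of_degreewise_shortExact _ fun n =>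
    { exact := (ShortComplex.moduleCat_exact_iff _).2 (h₂ n)
      mono_f := (ModuleCat.mono_iff_injective _).2 (h₁ n)
      epi_g := (ModuleCat.epi_iff_surjective _).2 (h₃ n) }

/-- A natural transformation out of `T (A, B)`. -/
def tabDesc {Φ : Sh k X ⥤ ModuleCat.{0} k} (f : ∀ E, Nv E (A ∩ B) →ₗ[k] Φ.obj E)
    (h0 : ∀ E (s : Nv E (A ∩ B)), s.1 ∈ Nv E B → f E s = 0)
    (hn : ∀ E E' (φ : E ⟶ E') (s : Nv E (A ∩ B)),
      f E' ⟨app φ ⊤ s.1, app_mem_Nv φ s.2⟩ = (Φ.map φ).hom (f E s)) : TAB k A B ⟶ Φ where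
  app E := ModuleCat.ofHom (((Nv E B).comap (Nv E (A ∩ B)).subtype).liftQ (f E) (h0 E))
  naturality E E' φ := by
    refine ModuleCat.hom_ext (LinearMap.ext fun z => ?_)
    obtain ⟨s, rfl⟩ := tabMk_surj z
    exact hn E E' φ s

theorem tabDesc_mk {Φ : Sh k X ⥤ ModuleCat.{0} k} (f : ∀ E, Nv E (A ∩ B) →ₗ[k] Φ.obj E) (h0) (hn)
    (s : Nv E (A ∩ B)) : ((tabDesc f h0 hn).app E).hom (tabMk A B s) = f E s := rfl

/-- Change of the pair `(A, B)`. -/
def tabMap (k : Type) [Field k] (h₁ : A' ∩ B' ⊆ A ∩ B) (h₂ : B' ⊆ B) : TAB k A B ⟶ TAB k A' B' :=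
  tabDesc (fun _ => tabMk A' B' ∘ₗ Submodule.inclusion fun _ hs => Nv_anti h₁ hs)
    (fun _ _ hs => tabMk_eq_zero.2 (Nv_anti h₂ hs)) fun _ _ _ _ => rfl

theorem tabMap_mk (h₁ : A' ∩ B' ⊆ A ∩ B) (h₂ : B' ⊆ B) (s : Nv E (A ∩ B)) :
    ((tabMap k h₁ h₂).app E).hom (tabMk A B s) = tabMk A' B' ⟨s.1, Nv_anti h₁ s.2⟩ := rfl

theorem tab_hom_ext {Φ : Sh k X ⥤ ModuleCat.{0} k} {α β : TAB k A B ⟶ Φ}
    (h : ∀ E s, (α.app E).hom (tabMk A B s) = (β.app E).hom (tabMk A B s)) : α = β := by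
  ext E : 2
  refine ModuleCat.hom_ext (LinearMap.ext fun z => ?_)
  obtain ⟨s, rfl⟩ := tabMk_surj z
  exact h E s

theorem tabMap_comp {A'' B'' : Set X} (h₁ : A' ∩ B' ⊆ A ∩ B) (h₂ : B' ⊆ B)
    (h₃ : A'' ∩ B'' ⊆ A' ∩ B') (h₄ : B'' ⊆ B') :
    tabMap k h₁ h₂ ≫ tabMap k h₃ h₄ = tabMap k (h₃.trans h₁) (h₄.trans h₂) :=
  tab_hom_ext fun _ _ => rfl

theorem tab_fil_zero (hA : A ⊆ A') :
    tabMap k (inter_subset_inter_left B hA) Subset.rfl ≫
      tabMap k (A' := A) (B' := A' ∩ B) (inter_subset_inter_right _ inter_subset_right)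
        inter_subset_right = 0 :=
  tab_hom_ext fun _ s => tabMk_eq_zero.2 s.2

/-- The exact sequence `0 → T (A', B) → T (A, B) → T (A, A' ∩ B) → 0` for `A ⊆ A'`. -/
theorem tab_fil_shortExact (hA : A ⊆ A') (F : Cx k X) :
    (scC _ _ (tab_fil_zero (k := k) (B := B) hA) F).ShortExact := by
  refine scC_shortExact _ _ _ F (fun n => (injective_iff_map_eq_zero _).2 fun z hz => ?_)
    (fun n z hz => ?_) fun n z => ?_
  · obtain ⟨s, rfl⟩ := tabMk_surj z
    exact tabMk_eq_zero.2 (tabMk_eq_zero (A := A) (B := B).1 hz)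
  · obtain ⟨s, rfl⟩ := tabMk_surj z
    exact ⟨tabMk A' B ⟨s.1, tabMk_eq_zero (A := A) (B := A' ∩ B).1 hz⟩, rfl⟩
  · obtain ⟨s, rfl⟩ := tabMk_surj z
    have a : s.1 ∈ Nv (F.X n) (A ∩ B) :=
      Nv_anti (B := A ∩ B) (B' := A ∩ (A' ∩ B)) (fun x hx => ⟨hx.1, hA hx.1, hx.2⟩) s.2
    exact ⟨tabMk A B ⟨s.1, a⟩, rfl⟩

/-- Excision: `T (A, B) = T (A, B')` for `B - A ⊆ B' ⊆ B`. -/
theorem isIso_tabMap_exc [Nice X] (hE : CSoft E) (hA : IsClosed A) (hB : IsCompact B)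
    (hB' : IsCompact B') (h : B' ⊆ B) (h' : B ⊆ A ∪ B') :
    IsIso ((tabMap k (inter_subset_inter_right A h) h).app E) := by
  refine isIso_mod _ ⟨(injective_iff_map_eq_zero _).2 fun z hz => ?_, fun z => ?_⟩
  · obtain ⟨s, rfl⟩ := tabMk_surj z
    have := tabMk_eq_zero.1 ((tabMap_mk _ _ s).symm.trans hz)
    exact tabMk_eq_zero.2 (Nv_anti (fun x hx => (h' hx).imp (fun a => ⟨a, hx⟩) id)
      (mem_Nv_union.2 ⟨s.2, this⟩))
  · obtain ⟨s, rfl⟩ := tabMk_surj z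
    obtain ⟨t, -, a, b⟩ := hE.cut_top hB' s.1 (hB.inter_left hA).isClosed.isOpen_compl
      fun x hx e => mem_Nv.1 s.2 hx.2 ⟨e.1, hx.1⟩
    exact ⟨tabMk A B ⟨t, mem_Nv.2 a⟩, (tabMap_mk _ _ _).trans (tabMk_eq.2 b)⟩

/-- Global sections restricted to a neighbourhood of `B`. -/
def gamTab (k : Type) [Field k] (B : Set X) : Gam k ⊤ ⟶ TAB k ∅ B where
  app E := ModuleCat.ofHom (tabMk ∅ B ∘ₗ LinearMap.codRestrict _ LinearMap.id fun s => by
    rw [empty_inter]; exact mem_Nv_empty s)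
  naturality _ _ _ := rfl

theorem gamTab_apply (s : sec E ⊤) (hs : s ∈ Nv E (∅ ∩ B)) :
    ((gamTab k B).app E).hom s = tabMk ∅ B ⟨s, hs⟩ := rfl

theorem gamTab_surj (E : Sh k X) (B : Set X) : Function.Surjective ((gamTab k B).app E).hom :=
  fun z => by
    obtain ⟨s, rfl⟩ := tabMk_surj z
    exact ⟨s.1, rfl⟩

theorem gamTab_eq_zero {s : sec E ⊤} : ((gamTab k B).app E).hom s = 0 ↔ s ∈ Nv E B :=
  tabMk_eq_zero

instance (E : Sh k X) : IsIso ((gamTab k (univ : Set X)).app E) :=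
  isIso_mod _ ⟨(injective_iff_map_eq_zero _).2 fun _ hs => mem_Nv_univ.1 (gamTab_eq_zero.1 hs),
    gamTab_surj E _⟩

/-- Germs at a point. -/
def tabStk (k : Type) [Field k] (x : X) : TAB k ∅ {x} ⟶ Stk k x :=
  tabDesc (fun E => gm E (U := ⊤) trivial ∘ₗ Submodule.subtype _)
    (fun E s hs => by
      by_contra a
      exact mem_Nv.1 hs ((gm_ne_zero E _ s.1).1 a) rfl)
    fun _ _ φ s => (stk_map_gm φ _ s.1).symm

theorem isIso_tabStk (hE : CSoft E) (x : X) : IsIso ((tabStk k x).app E) := by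
  refine isIso_mod _ ⟨(injective_iff_map_eq_zero _).2 fun z hz => ?_, fun z => ?_⟩
  · obtain ⟨s, rfl⟩ := tabMk_surj z
    refine tabMk_eq_zero.2 (mem_Nv.2 fun y hy e => ?_)
    obtain rfl : y = x := e
    exact (gm_ne_zero E (U := ⊤) trivial s.1).2 hy hz
  · obtain ⟨U, -, hx, s, rfl⟩ := exists_gm E z (W := ⊤) trivial
    obtain ⟨t, V, hV, a, e⟩ := hE {x} isCompact_singleton U (singleton_subset_iff.2 hx) s
    refine ⟨tabMk ∅ {x} ⟨t, by rw [empty_inter]; exact mem_Nv_empty t⟩, ?_⟩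
    change gm E (U := ⊤) trivial t = _
    rw [← gm_res E hV (a rfl), ← e, gm_res]

/-- Direct image under a closed map. -/
def tabPush (k : Type) [Field k] {h : X ⟶ Y} (hh : IsClosedMap h) (A B : Set Y) :
    TAB k (h ⁻¹' A) (h ⁻¹' B) ⟶ push k h ⋙ TAB k A B :=
  tabDesc (fun E => tabMk (E := (push k h).obj E) A B ∘ₗ
      LinearMap.codRestrict _ (Submodule.subtype _) fun s => (mem_Nv_push hh _).2 s.2)
    (fun _ _ hs => tabMk_eq_zero.2 ((mem_Nv_push hh _).2 hs)) fun _ _ _ _ => rfl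

instance {h : X ⟶ Y} (hh : IsClosedMap h) (A B : Set Y) (E : Sh k X) :
    IsIso ((tabPush k hh A B).app E) := by
  refine isIso_mod _ ⟨(injective_iff_map_eq_zero _).2 fun z hz => ?_, fun z => ?_⟩
  · obtain ⟨s, rfl⟩ := tabMk_surj z
    exact tabMk_eq_zero.2 ((mem_Nv_push hh _).1 (tabMk_eq_zero (E := (push k h).obj E).1 hz))
  · obtain ⟨s, rfl⟩ := tabMk_surj (E := (push k h).obj E) z
    exact ⟨tabMk _ _ ⟨s.1, (mem_Nv_push hh _).1 s.2⟩, rfl⟩

/-- Sections near a fibre give germs of the direct image. -/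
def tabFib (k : Type) [Field k] {h : X ⟶ Y} (hh : IsClosedMap h) (a : Y) :
    TAB k ∅ (h ⁻¹' {a}) ⟶ push k h ⋙ Stk k a :=
  tabPush k hh ∅ {a} ≫ Functor.whiskerLeft (push k h) (tabStk k a)

theorem tabFib_mk {h : X ⟶ Y} (hh : IsClosedMap h) (a : Y) (s : Nv E (∅ ∩ h ⁻¹' {a})) :
    ((tabFib k hh a).app E).hom (tabMk _ _ s) =
      gm ((push k h).obj E) (U := ⊤) (x := a) trivial s.1 := rfl

theorem isIso_tabFib {h : X ⟶ Y} (hh : IsProperMap h) (hE : CSoft E) (a : Y) :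
    IsIso ((tabFib k hh.isClosedMap a).app E) :=
  have := isIso_tabStk (hE.push h hh) a
  inferInstanceAs (IsIso ((tabPush k hh.isClosedMap ∅ {a}).app E ≫
    (tabStk k a).app ((push k h).obj E)))

/-- **Proper base change**: the stalk of a proper direct image of a soft complex. -/
def stkPushIso {h : X ⟶ Y} (hh : IsProperMap h) (hF : SoftC F) (a : Y) :
    (mapC (TAB k ∅ (h ⁻¹' {a}))).obj F ≅ (mapC (Stk k a)).obj ((pushC k h).obj F) :=
  @asIso _ _ _ _ ((natC (tabFib k hh.isClosedMap a)).app F)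
    (isIso_natC (tabFib k hh.isClosedMap a) F fun n => isIso_tabFib hh (hF.2 n) a)

theorem stkPushIso_nat {h : X ⟶ Y} (hh : IsProperMap h) (hF : SoftC F) (hG : SoftC G) (a : Y)
    (f : F ⟶ G) : (mapC (TAB k ∅ (h ⁻¹' {a}))).map f ≫ (stkPushIso hh hG a).hom =
      (stkPushIso hh hF a).hom ≫ (mapC (Stk k a)).map ((pushC k h).map f) :=
  (natC (tabFib k hh.isClosedMap a)).naturality f

/-- Extension of compactly supported sections. -/
def gamcLE (k : Type) [Field k] {U V : Opens X} (h : V ≤ U) : Gamc k V ⟶ Gamc k U where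
  app E := ModuleCat.ofHom (Submodule.inclusion (cpt_mono E h))
  naturality _ _ _ := rfl

/-- Compactly supported sections as global sections. -/
def gamcGam (k : Type) [Field k] (U : Opens X) : Gamc k U ⟶ Gam k ⊤ where
  app E := ModuleCat.ofHom (cpt E U).subtype
  naturality _ _ _ := rfl

theorem mem_Nv_of_cpt {U : Opens X} (h : Disjoint B U) {s : sec E ⊤} (hs : s ∈ cpt E U) :
    s ∈ Nv E B := by
  obtain ⟨C, -, a, b⟩ := hs
  exact mem_Nv'.2 (h.mono_right (b.trans a))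

/-- Compactly supported sections near `B`. -/
def gamcTab (k : Type) [Field k] {U : Opens X} (h : Disjoint (A ∩ B) U) :
    Gamc k U ⟶ TAB k A B where
  app _ := ModuleCat.ofHom (tabMk A B ∘ₗ Submodule.inclusion fun _ hs => mem_Nv_of_cpt h hs)
  naturality _ _ _ := rfl

theorem gamc_tab_zero {U V : Opens X} (hV : V ≤ U) (h : Disjoint (A ∩ B) U) (h' : Disjoint B V) :
    gamcLE k hV ≫ gamcTab k h = 0 := by
  ext E s
  exact tabMk_eq_zero.2 (mem_Nv_of_cpt h' s.2)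

theorem gamcTab_surj [Nice X] (hE : CSoft E) {U : Opens X} (h : Disjoint (A ∩ B) U)
    (hB : IsCompact B) (hA : B ⊆ A ∪ U) : Function.Surjective ((gamcTab k h).app E).hom := by
  intro z
  obtain ⟨s, rfl⟩ := tabMk_surj z
  obtain ⟨t, a, b, c⟩ := hE.cut_top hB s.1 U.2 fun x hx =>
    (hA hx.1).resolve_left fun e => mem_Nv.1 s.2 hx.2 ⟨e, hx.1⟩
  exact ⟨⟨t, mem_cpt_iff.2 ⟨a, b⟩⟩, tabMk_eq.2 c⟩

/-- The exact sequence `0 → Γ_c (V) → Γ_c (U) → T (A, B) → 0` for `V = U - B`, `A ∩ B = B - U`. -/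
theorem gamc_tab_shortExact [Nice X] (hF : ∀ n, CSoft (F.X n)) {U V : Opens X} (hV : V ≤ U)
    (h : Disjoint (A ∩ B) U) (h' : Disjoint B V) (hB : IsCompact B) (hA : B ⊆ A ∪ U)
    (hU : (U : Set X) ⊆ B ∪ V) : (scC _ _ (gamc_tab_zero (k := k) hV h h') F).ShortExact := by
  refine scC_shortExact _ _ _ F (fun n => Submodule.inclusion_injective (cpt_mono _ hV))
    (fun n s hs => ?_) fun n => gamcTab_surj (hF n) h hB hA
  have a := mem_cpt_iff.1 s.2
  exact ⟨⟨s.1, mem_cpt_iff.2 ⟨a.1, fun x hx => (hU (a.2 hx)).resolve_left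
    (mem_Nv.1 (tabMk_eq_zero.1 hs) hx)⟩⟩, rfl⟩

/-- `Γ_c (U) = T (A, B)` for `U = B - A`. -/
theorem isIso_gamcTab [Nice X] (hE : CSoft E) {U : Opens X} (h : Disjoint (A ∩ B) U)
    (hB : IsCompact B) (hA : B ⊆ A ∪ U) (hU : (U : Set X) ⊆ B) : IsIso ((gamcTab k h).app E) :=
  isIso_mod _ ⟨(injective_iff_map_eq_zero _).2 fun s hs => Subtype.ext (supp_eq_empty.1
    (eq_empty_of_forall_notMem fun _ hx => mem_Nv.1 (tabMk_eq_zero.1 hs) hx
      (hU ((mem_cpt_iff.1 s.2).2 hx)))), gamcTab_surj hE h hB hA⟩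

instance [CompactSpace X] (E : Sh k X) : IsIso ((gamcGam k (⊤ : Opens X)).app E) :=
  isIso_mod _ ⟨Subtype.val_injective, fun s =>
    ⟨⟨s, univ, isCompact_univ, Subset.rfl, subset_univ _⟩, rfl⟩⟩

end P275S
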