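import Vale.Agent.P275S.Real

/-! Stalks; isomorphisms from finite sums of shifts detected on stalks. -/

open CategoryTheory Limits TopologicalSpace CochainComplex CochainComplex.HomComplex

noncomputable section

set_option backward.isDefEq.respectTransparency false

universe v u

namespace P275S

variable {k : Type} [Field k] {X X' Y : TopCat.{0}}

section shift

variable {C : Type u} [Category.{v} C] [Preadditive C] [Linear k C]

/-- The shift of an object. -/
def shK (A : KG k C) (d : ℤ) : KG k C := KG.of (A.c⟦d⟧)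

/-- The canonical morphism to the shift, of degree `-d`. -/
def toSh (A : KG k C) (d : ℤ) : A ⟶ shK A d :=
  KG.mk k ((Cocycle.ofHom (𝟙 A.c)).rightShift d (-d) (neg_add_cancel d))

/-- The canonical morphism from the shift, of degree `d`. -/
def frSh (A : KG k C) (d : ℤ) : shK A d ⟶ A :=
  KG.mk k ((Cocycle.ofHom (𝟙 (A.c⟦d⟧))).rightUnshift d (zero_add d))

theorem toSh_mem (A : KG k C) (d : ℤ) : toSh A d ∈ KG.deg k _ _ (-d) := ⟨_, rfl⟩

theorem frSh_mem (A : KG k C) (d : ℤ) : frSh A d ∈ KG.deg k _ _ d := ⟨_, rfl⟩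

theorem toSh_frSh (A : KG k C) (d : ℤ) : toSh A d ≫ frSh A d = 𝟙 A := by
  refine (KG.mk_comp k (neg_add_cancel d) _ _).trans (congrArg (KG.mk k) (Cocycle.ext ?_))
  ext p
  rw [zcomp_coe, Cochain.comp_v _ _ _ p (p - d) p (by omega) (by omega), Cocycle.rightShift_coe,
    Cocycle.rightUnshift_coe, Cochain.rightShift_v _ _ _ _ p (p - d) _ p (add_zero p),
    Cochain.rightUnshift_v _ _ _ (p - d) p _ (p - d) (add_zero _)]
  simp

theorem frSh_toSh (A : KG k C) (d : ℤ) : frSh A d ≫ toSh A d = 𝟙 (shK A d) := by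
  refine (KG.mk_comp k (add_neg_cancel d) _ _).trans (congrArg (KG.mk k) (Cocycle.ext ?_))
  ext p
  rw [zcomp_coe, Cochain.comp_v _ _ _ p (p + d) p rfl (by omega), Cocycle.rightShift_coe,
    Cocycle.rightUnshift_coe, Cochain.rightShift_v _ _ _ _ (p + d) p _ (p + d) (add_zero _),
    Cochain.rightUnshift_v _ _ _ p (p + d) _ p (add_zero _)]
  simp [shK]

theorem KG.hom_sum {F G : CochainComplex C ℤ} {ι : Type*} (s : Finset ι) (φ : ι → (F ⟶ G)) :
    KG.hom k (∑ i ∈ s, φ i) = ∑ i ∈ s, KG.hom k (φ i) := by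
  classical
  induction s using Finset.induction_on with
  | empty => simp [KG.hom_zero]
  | insert a s ha ih => rw [Finset.sum_insert ha, Finset.sum_insert ha, KG.hom_add, ih]

theorem injC_of_sum {S : CochainComplex C ℤ} {ι : Type} [Fintype ι]
    {F : ι → CochainComplex C ℤ} (p : ∀ i, S ⟶ F i) (j : ∀ i, F i ⟶ S)
    (h : ∑ i, p i ≫ j i = 𝟙 S) (hF : ∀ i, InjC (F i)) : InjC S := by
  have hn : ∀ n, ∑ i, (p i).f n ≫ (j i).f n = 𝟙 (S.X n) := fun n => by
    have := (HomologicalComplex.eval C (ComplexShape.up ℤ) n).congr_map h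
    rw [Functor.map_sum] at this
    simpa using this
  choose a ha using fun i => (hF i).1
  obtain ⟨b, hb⟩ := (Set.finite_range a).bddBelow
  refine ⟨⟨b, ?_⟩, fun n => ⟨fun {Z W} g f _ => ?_⟩⟩
  · rw [CochainComplex.isStrictlyGE_iff]
    intro n hn'
    rw [IsZero.iff_id_eq_zero, ← hn n]
    refine Finset.sum_eq_zero fun i _ => ?_
    have := ha i
    rw [((F i).isZero_of_isStrictlyGE (a i) n (hn'.trans_le (hb ⟨i, rfl⟩))).eq_zero_of_tgt
      ((p i).f n), zero_comp]
  · have := fun i => (hF i).2 n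
    refine ⟨∑ i, Injective.factorThru (g ≫ (p i).f n) f ≫ (j i).f n, ?_⟩
    rw [Preadditive.comp_sum]
    simp only [Injective.comp_factorThru_assoc, Category.assoc]
    rw [← Preadditive.comp_sum, hn, Category.comp_id]

end shift

section sum

variable {C : Type u} [Category.{v} C] [Abelian C] [Linear k C]

/-- Finite sums of shifts exist in the graded homotopy category. -/
theorem exists_sumK {ι : Type} [Fintype ι] [DecidableEq ι] (A : ι → KG k C) (d : ι → ℤ) :
    ∃ (S : KG k C) (p : ∀ i, S ⟶ A i) (j : ∀ i, A i ⟶ S),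
      (∀ i, p i ∈ KG.deg k _ _ (-d i)) ∧ (∀ i, j i ∈ KG.deg k _ _ (d i)) ∧
      (∀ i, j i ≫ p i = 𝟙 _) ∧ (∀ i i', i ≠ i' → j i ≫ p i' = 0) ∧ ∑ i, p i ≫ j i = 𝟙 S ∧
      ((∀ i, InjC (A i).c) → InjC S.c) ∧
      ∀ P : C → Prop, (∀ i n, P ((A i).c.X n)) →
        (∀ (T : C) (E : ι → C) (q : ∀ i, T ⟶ E i) (r : ∀ i, E i ⟶ T), ∑ i, q i ≫ r i = 𝟙 T →
          (∀ i, P (E i)) → P T) → ∀ n, P (S.c.X n) := by
  have : HasFiniteBiproducts (CochainComplex C ℤ) := Abelian.hasFiniteBiproducts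
  let F : ι → CochainComplex C ℤ := fun i => (A i).c⟦-d i⟧
  refine ⟨KG.of (⨁ F), fun i => KG.hom k (biproduct.π F i) ≫ frSh (A i) (-d i),
    fun i => toSh (A i) (-d i) ≫ KG.hom k (biproduct.ι F i),
    fun i => KG.comp_mem_deg (zero_add _) (KG.hom_mem_deg _) (frSh_mem _ _),
    fun i => KG.comp_mem_deg (by simp) (toSh_mem _ _) (KG.hom_mem_deg _), fun i => ?_,
    fun i i' h => ?_, ?_, fun h => injC_of_sum (biproduct.π F) (biproduct.ι F) biproduct.total
      fun i => (h i).shift _, fun P h1 h2 n => ?_⟩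
  · rw [Category.assoc, ← Category.assoc (KG.hom k _), ← KG.hom_comp, biproduct.ι_π_self,
      KG.hom_id]
    exact (congrArg (toSh (A i) (-d i) ≫ ·) (Category.id_comp _)).trans (toSh_frSh _ _)
  · rw [Category.assoc, ← Category.assoc (KG.hom k _), ← KG.hom_comp, biproduct.ι_π_ne _ h,
      KG.hom_zero, zero_comp, comp_zero]
  · rw [← KG.hom_id, ← biproduct.total, KG.hom_sum]
    refine Finset.sum_congr rfl fun i _ => ?_
    rw [Category.assoc, ← Category.assoc (frSh _ _), frSh_toSh, KG.hom_comp]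
    exact congrArg (KG.hom k (biproduct.π F i) ≫ ·) (Category.id_comp _)
  · refine h2 _ (fun i => (F i).X n) (fun i => (biproduct.π F i).f n)
      (fun i => (biproduct.ι F i).f n) ?_ fun i => h1 i _
    have := (HomologicalComplex.eval C (ComplexShape.up ℤ) n).congr_map (biproduct.total (f := F))
    rw [Functor.map_sum] at this
    simpa using this

end sum

instance stkLinear (a : Y) : (Stk k a).Linear k where
  map_smul {F G} φ r := by
    ext z
    obtain ⟨U, -, hx, s, rfl⟩ := exists_gm F z (W := ⊤) trivial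
    change ((Stk k a).map (r • φ)).hom (gm F hx s) = r • ((Stk k a).map φ).hom (gm F hx s)
    rw [stk_map_gm, stk_map_gm, app_smul, map_smul]

/-- The stalk functor on graded homotopy categories. -/
abbrev St (k : Type) [Field k] (a : Y) : KG k (Sh k Y) ⥤ KG k (ModuleCat.{0} k) :=
  KG.map k (Stk k a)

/-- The total cohomology of the stalk. -/
abbrev HS (A : KG k (Sh k Y)) (a : Y) : Type := HT ((St k a).obj A)

/-- Germs of global sections. -/
def gmN (k : Type) [Field k] (a : Y) : Gam k ⊤ ⟶ Stk k a where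
  app F := ModuleCat.ofHom (gm F (U := ⊤) trivial)
  naturality _ _ φ := by
    ext s
    exact (stk_map_gm φ _ s).symm

/-- The germ of a hypercohomology class. -/
def germ (a : Y) (A : KG k (Sh k Y)) : (kk k Y ⟶ A) →ₗ[k] HS A a := evF (Stk k a) (gmN k a) A

theorem germ_comp (a : Y) {A B : KG k (Sh k Y)} (x : kk k Y ⟶ A) (f : A ⟶ B) :
    germ a B (x ≫ f) = germ a A x ≫ (St k a).map f := evF_comp _ _ x f

theorem germ_gcl (a : Y) {F : Cx k Y} {n : ℤ} (c : sec (F.X n) ⊤)
    (hc : app (F.d n (n + 1)) ⊤ c = 0) :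
    germ a (KG.of F) (gcl c hc) = HT.mk (M := (mapC (Stk k a)).obj F) (gm _ (U := ⊤) trivial c)
      (nat_cocycle _ (gmN k a) c hc) := evF_gcl _ _ c hc

theorem germ_pr (a : Y) {A : KG k (Sh k Y)} (n : ℤ) (x : kk k Y ⟶ A) :
    germ a A (KG.pr n x) = KG.pr n (germ a A x) := evF_pr _ _ n x

theorem germ_mem (a : Y) {A : KG k (Sh k Y)} {n : ℤ} {x : kk k Y ⟶ A} (hx : x ∈ KG.deg k _ _ n) :
    germ a A x ∈ KG.deg k _ _ n := evF_mem _ _ hx

theorem qisAt_iff_HS {F G : Cx k Y} (φ : F ⟶ G) (a : Y) : QisAt φ a ↔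
    Function.Bijective fun v : HS (KG.of F) a => v ≫ (St k a).map (KG.hom k φ) := by
  rw [qisAt_iff_stk, ← HT.bijective_iff, KG.map_hom]
  rfl

theorem zeroAt_iff_HS {F G : Cx k Y} (φ : F ⟶ G) (n : ℤ) (a : Y) : ZeroAt φ n a ↔
    ∀ v : HS (KG.of F) a, v ∈ KG.deg k _ _ n → v ≫ (St k a).map (KG.hom k φ) = 0 := by
  rw [zeroAt_iff_stk, hmap_zero_mod, KG.map_hom]
  constructor
  · intro h v hv
    obtain ⟨c, hc, rfl⟩ := HT.exists_mk (M := (mapC (Stk k a)).obj F) hv
    exact (HT.mk_comp_hom c hc _).trans ((HT.mk_eq_zero_iff _ _ (n - 1) (by simp)).2 (h c hc))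
  · intro h c hc
    exact (HT.mk_eq_zero_iff _ _ (n - 1) (by simp)).1
      ((HT.mk_comp_hom c hc _).symm.trans (h _ (HT.mk_mem c hc)))

theorem exAt_iff_HS (F : Cx k Y) (n : ℤ) (a : Y) :
    ExAt F n a ↔ ∀ v : HS (KG.of F) a, v ∈ KG.deg k _ _ n → v = 0 := by
  rw [← zeroAt_id, zeroAt_iff_HS, KG.hom_id, CategoryTheory.Functor.map_id]
  simp only [Category.comp_id]

/-- A morphism of degree zero that is bijective on all stalks is an isomorphism. -/
theorem isIso_of_HS_zero {A B : KG k (Sh k Y)} (hA : InjC A.c) (hB : InjC B.c) {φ : A ⟶ B}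
    (hφ : φ ∈ KG.deg k A B 0)
    (h : ∀ a, Function.Bijective fun v : HS A a => v ≫ (St k a).map φ) : IsIso φ := by
  obtain ⟨q, rfl⟩ := KG.mem_deg_zero.1 hφ
  have : QuasiIso q := (quasiIso_iff q).2 fun a => (qisAt_iff_HS q a).2 (h a)
  exact KG.isIso_hom q hA hB

/-- A family of homogeneous morphisms that is a direct sum decomposition on all stalks is a
direct sum decomposition. -/
theorem sum_iso {ι : Type} [Fintype ι] {A : ι → KG k (Sh k Y)} {B : KG k (Sh k Y)}
    (hA : ∀ i, InjC (A i).c) (hB : InjC B.c) (d : ι → ℤ) (φ : ∀ i, A i ⟶ B)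
    (hφ : ∀ i, φ i ∈ KG.deg k _ _ (d i))
    (h : ∀ a, Function.Bijective fun v : ∀ i, HS (A i) a => ∑ i, v i ≫ (St k a).map (φ i)) :
    ∃ ψ : ∀ i, B ⟶ A i, (∀ i, ψ i ∈ KG.deg k _ _ (-d i)) ∧ (∀ i, φ i ≫ ψ i = 𝟙 _) ∧
      (∀ i j, i ≠ j → φ i ≫ ψ j = 0) ∧ ∑ i, ψ i ≫ φ i = 𝟙 B := by
  classical
  obtain ⟨S, p, j, hp, hj, h1, h2, h3, h4, -⟩ := exists_sumK A d
  have hΦ : ∑ i, p i ≫ φ i ∈ KG.deg k S B 0 :=
    Submodule.sum_mem _ fun i _ => KG.comp_mem_deg (neg_add_cancel _) (hp i) (hφ i)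
  have hj' : ∀ i, j i ≫ ∑ i, p i ≫ φ i = φ i := fun i => by
    rw [Preadditive.comp_sum, Finset.sum_eq_single i (fun b _ hb => by
      rw [← Category.assoc, h2 i b hb.symm, zero_comp])
      (fun h => (h (Finset.mem_univ _)).elim), ← Category.assoc, h1,
      Category.id_comp]
  have : IsIso (∑ i, p i ≫ φ i) := isIso_of_HS_zero (h4 hA) hB hΦ fun a => by
    have e : (fun v : HS S a => v ≫ (St k a).map (∑ i, p i ≫ φ i)) =
        (fun v : ∀ i, HS (A i) a => ∑ i, v i ≫ (St k a).map (φ i)) ∘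
          fun v : HS S a => fun i => v ≫ (St k a).map (p i) := by
      funext v
      simp only [Functor.map_sum, Functor.map_comp, Preadditive.comp_sum, Function.comp_apply,
        Category.assoc]
    rw [e]
    refine (h a).comp (Function.bijective_iff_has_inverse.2
      ⟨fun w => ∑ i, w i ≫ (St k a).map (j i), fun v => ?_, fun w => funext fun i => ?_⟩)
    · simp only [Category.assoc, ← Functor.map_comp]
      rw [← Preadditive.comp_sum, ← Functor.map_sum, h3, CategoryTheory.Functor.map_id,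
        Category.comp_id]
    · simp only [Preadditive.sum_comp, Category.assoc, ← Functor.map_comp]
      rw [Finset.sum_eq_single i (fun b _ hb => by rw [h2 b i hb, Functor.map_zero, comp_zero])
        (fun h => (h (Finset.mem_univ _)).elim), h1, CategoryTheory.Functor.map_id, Category.comp_id]
  refine ⟨fun i => inv (∑ i, p i ≫ φ i) ≫ p i,
    fun i => KG.comp_mem_deg (zero_add _) (KG.inv_mem_deg (add_zero 0) hΦ) (hp i),
    fun i => ?_, fun i i' hi => ?_, ?_⟩
  · rw [← hj' i, Category.assoc, IsIso.hom_inv_id_assoc, h1]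
  · rw [← hj' i, Category.assoc, IsIso.hom_inv_id_assoc, h2 i i' hi]
  · simp only [Category.assoc]
    rw [← Preadditive.comp_sum, IsIso.inv_hom_id]

/-- A homogeneous morphism that is bijective on all stalks is an isomorphism. -/
theorem isIso_of_HS {A B : KG k (Sh k Y)} (hA : InjC A.c) (hB : InjC B.c) {d : ℤ} {φ : A ⟶ B}
    (hφ : φ ∈ KG.deg k A B d)
    (h : ∀ a, Function.Bijective fun v : HS A a => v ≫ (St k a).map φ) : IsIso φ := by
  obtain ⟨ψ, -, h1, -, h2⟩ := sum_iso (ι := Unit) (A := fun _ => A) (fun _ => hA) hB (fun _ => d)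
    (fun _ => φ) (fun _ => hφ) fun a => by
      have e : (fun v : Unit → HS A a => ∑ i, v i ≫ (St k a).map φ) =
          (fun v : HS A a => v ≫ (St k a).map φ) ∘ Equiv.funUnique Unit (HS A a) := by
        funext v
        simp
      rw [e]
      exact (h a).comp (Equiv.bijective _)
  exact ⟨ψ (), h1 (), by simpa using h2⟩

end P275S
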