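import Vale.Agent.P275S.Wk
import Vale.Agent.P275Z.Mid

/-! The rules for Deligne's weight filtration on the cohomology ring. -/

open CategoryTheory
open Vale.Agent.P275Z (WH evX evX_gcl Wt InWK CocyK)

noncomputable section

set_option backward.isDefEq.respectTransparency false

namespace P275S

variable {X X' Y Y' : TopCat.{0}} {j : X ⟶ Y} {j' : X' ⟶ Y} {w l : ℤ} {a v : H ℂ X}

theorem gcl_mem_Wk' {m : ℤ} (c : CocyK ℂ X m) :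
    (evI ℂ X).symm (gcl c.1 c.2) ∈ Wk ℂ j w ↔ InWK j w c := gcl_mem_Wk c.1 c.2

theorem WH_eq (j : X ⟶ Y) (w : ℤ) : WH j w = Wk ℂ j w := by
  apply le_antisymm
  · have h : Wt j w ≤ (Wk ℂ j w).comap (evX X).symm.toLinearMap := by
      rw [Wt, Submodule.span_le]
      rintro _ ⟨m, c, hc, rfl⟩
      have : (evX X).symm (Vale.Agent.P275Z.cl c) = (evI ℂ X).symm (gcl c.1 c.2) :=
        (evX X).symm_apply_eq.2 (evX_gcl c).symm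
      exact (congrArg (· ∈ Wk ℂ j w) this).mpr ((gcl_mem_Wk' c).2 hc)
    exact fun a ha => (congrArg (· ∈ Wk ℂ j w) ((evX X).symm_apply_apply a)).mp (h ha)
  · intro a ha
    obtain ⟨s, -, hs⟩ := KG.exists_sum_pr a
    rw [← hs]
    refine Submodule.sum_mem _ fun m _ => ?_
    obtain ⟨c, hc, e⟩ := exists_gcl (F := I ℂ X) (evI_mem_iff.2 (KG.pr_mem_deg m a))
    have e' : (evI ℂ X).symm (gcl c hc) = KG.pr m a := (evI ℂ X).symm_apply_eq.2 e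
    refine Submodule.subset_span ⟨m, ⟨c, hc⟩, (gcl_mem_Wk' ⟨c, hc⟩).1 ?_, ?_⟩
    · exact (congrArg (· ∈ Wk ℂ j w) e').mpr (Wk.pr ha m)
    · exact (congrArg (evX X) e'.symm).trans (evX_gcl ⟨c, hc⟩)

theorem mem_WH_gcl {m : ℤ} (c : CocyK ℂ X m) :
    (evI ℂ X).symm (gcl c.1 c.2) ∈ WH j w ↔ InWK j w c := WH_eq j w ▸ gcl_mem_Wk' c

theorem wh_mono (h : w ≤ l) : WH j w ≤ WH j l := by
  rw [WH_eq, WH_eq]
  exact Wk.mono h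

theorem wh_top {m : ℤ} (ha : a ∈ Hd ℂ X m) (h : 2 * m ≤ w) : a ∈ WH j w :=
  WH_eq j w ▸ Wk.top ha h

theorem wh_bot {m : ℤ} (ha : a ∈ Hd ℂ X m) (h : w < m) (hw : a ∈ WH j w) : a = 0 :=
  Wk.bot ha h (WH_eq j w ▸ hw)

theorem wh_pr (ha : a ∈ WH j w) (m : ℤ) : KG.pr m a ∈ WH j w :=
  WH_eq j w ▸ Wk.pr (WH_eq j w ▸ ha) m

theorem wh_of_pr (ha : ∀ m, KG.pr m a ∈ WH j w) : a ∈ WH j w :=
  WH_eq j w ▸ Wk.of_pr fun m => WH_eq j w ▸ ha m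

theorem wh_act (ha : a ∈ WH j w) {d : ℤ} (e : w + 2 * d ≤ l) {φ : K ℂ j ⟶ K ℂ j'}
    (hφ : φ ∈ KG.deg ℂ _ _ d) : act φ a ∈ WH j' l := WH_eq j' l ▸ Wk.act (WH_eq j w ▸ ha) e hφ

theorem wh_mul {p : ℤ} (ha : a ∈ Hd ℂ X p) (hv : v ∈ WH j w) (e : w + 2 * p ≤ l) :
    a * v ∈ WH j l := WH_eq j l ▸ Wk.mul ha (WH_eq j w ▸ hv) e

theorem wh_pb {j₁ : X' ⟶ Y'} (f : X' ⟶ X) (g : Y' ⟶ Y) (e : f ≫ j = j₁ ≫ g) (ha : a ∈ WH j w) :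
    pb f a ∈ WH j₁ w := WH_eq j₁ w ▸ Wk.pb f g e (WH_eq j w ▸ ha)

end P275S
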