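import Vale.Agent.P275S.HC

/-! Winding classes, the cohomology of the circle, non vanishing of first Chern classes. -/

open CategoryTheory Limits TopologicalSpace Filter Topology
open P275CC (LB Co)

noncomputable section

set_option backward.isDefEq.respectTransparency false

namespace P275S

variable {X X' : TopCat.{0}}

/-- If `d log g` is exact near a path, a logarithm of `g` along the path is single valued. -/
theorem wind_loop {F : Cx ℂ X} {e : sec (F.X 0) ⊤} (hF : RsE F e) {φ : C0 X ⟶ F.X 0}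
    (hφ : app φ ⊤ (cOne ⊤) = e) {W : Opens X} {g : X → ℂ} (hg : HasLog (𝟙 (C0 X)) g W)
    {f : sec (F.X 0) W} (hf : IsW (𝟙 _) (φ ≫ F.d 0 1) g (app (F.d 0 1) W f)) {γ : ℝ → X}
    (hγ : Continuous γ) (hW : ∀ t, γ t ∈ W) {lam : ℝ → ℂ} (hl : Continuous lam)
    (he : ∀ t, Complex.exp (lam t) = g (γ t)) {s t : ℝ} (hst : γ s = γ t) : lam s = lam t := by
  let R : ℝ → ℂ → Prop := fun t a => ∃ V, ∃ hV : V ≤ W, γ t ∈ V ∧ ∃ l : sec (C0 X) V,
    IsLog (𝟙 _) g l ∧ cv l (γ t) = lam t ∧ app φ V l - res _ hV f = a • res _ le_top e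
  have ex : ∀ t, ∃ a, R t a := by
    intro t
    obtain ⟨V, hV, xV, l, a⟩ := hg _ (hW t)
    have b : IsLog (𝟙 _) g (l + (lam t - cv l (γ t)) • cOne V) := fun x hx => by
      have a1 : Complex.exp (cv l x) = g x := a x hx
      have a2 : Complex.exp (cv l (γ t)) = g (γ t) := a _ xV
      rw [app_id, cv_add, cv_smul, cv_cOne hx, mul_one, Complex.exp_add, Complex.exp_sub, a1, a2,
        he, div_self (a.ne xV), mul_one]
    obtain ⟨V', hV', xV', c, hc⟩ := hF.loc0 V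
      (app φ V (l + (lam t - cv l (γ t)) • cOne V) - res _ hV f) (by
      rw [map_sub, app_res, hf V hV _ b, app_comp, sub_self]) _ xV
    refine ⟨c, V', hV'.trans hV, xV', _, b.res hV', ?_, ?_⟩
    · rw [cv_res _ _ xV', cv_add, cv_smul, cv_cOne xV]
      ring
    · rw [← hc, map_sub, res_res, app_res]
  have un : ∀ t t' a a', R t a → R t' a' → γ t = γ t' → a - a' = lam t - lam t' := by
    rintro t t' a a' ⟨V, hV, xV, l, a1, a2, a3⟩ ⟨V', hV', xV', l', b1, b2, b3⟩ h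
    rw [← h] at xV' b2
    have x2 : γ t ∈ V ⊓ V' := ⟨xV, xV'⟩
    obtain ⟨U, hU, xU, c⟩ := fn_id.log_one (((a1.res inf_le_left).sub
      (b1.res inf_le_right)).congr fun x hx => div_self (b1.ne hx.2)) x2
    rw [app_id, cv_sub, cv_res _ _ x2, cv_res _ _ x2, a2, b2] at c
    have c1 := congrArg (app φ U) c
    have c2 := congrArg (res _ (hU.trans inf_le_left)) a3
    have c3 := congrArg (res _ (hU.trans inf_le_right)) b3
    simp only [map_sub, map_smul, res_res, app_res, hφ] at c1 c2 c3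
    refine sub_eq_zero.1 (hF.ne U _ xU _ ?_)
    rw [sub_smul, ← c1, sub_smul, ← c2, ← c3]
    abel
  have lc : ∀ t a, R t a → ∀ᶠ t' in 𝓝 t, R t' a := by
    rintro t a ⟨V, hV, xV, l, a1, a2, a3⟩
    have m : ∀ᶠ t' in 𝓝 t, γ t' ∈ V := hγ.continuousAt.eventually (V.2.mem_nhds xV)
    have := ev_zero_of_exp (h := fun t' => cv l (γ t') - lam t') (z := t)
      (((cv_at l xV).comp hγ.continuousAt).sub hl.continuousAt) (by
        filter_upwards [m] with t' h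
        have : Complex.exp (cv l (γ t')) = g (γ t') := a1 _ h
        rw [Complex.exp_sub, this, he, div_self (a1.ne h)]) (sub_eq_zero.2 a2)
    filter_upwards [m, this] with t' h h'
    exact ⟨V, hV, h, l, a1, sub_eq_zero.1 h', a3⟩
  choose A hA using ex
  have : IsLocallyConstant A := (IsLocallyConstant.iff_eventually_eq _).2 fun t => by
    filter_upwards [lc t _ (hA t)] with t' h
    exact sub_eq_zero.1 ((un _ _ _ _ (hA t') h rfl).trans (sub_self _))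
  have := un _ _ _ _ (hA s) (hA t) hst
  rw [‹IsLocallyConstant A›.apply_eq_of_preconnectedSpace s t, sub_self] at this
  exact (sub_eq_zero.1 this.symm)

theorem isW_of_cover {S G : Sh ℂ X} {j : S ⟶ C0 X} {ψ : S ⟶ G} {g : X → ℂ} {U : Opens X}
    {w : sec G U} (h : ∀ x ∈ U, ∃ V, ∃ hV : V ≤ U, x ∈ V ∧ IsW j ψ g (res G hV w)) :
    IsW j ψ g w := by
  intro W hW l hl
  refine loc_ext _ _ _ fun x hx => ?_
  obtain ⟨V, hV, xV, a⟩ := h x (hW hx)
  refine ⟨W ⊓ V, inf_le_left, ⟨hx, xV⟩, ?_⟩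
  rw [← app_res, ← a _ inf_le_right _ (hl.res inf_le_left), res_res, res_res]

/-- A nowhere vanishing continuous function. -/
structure Nz (g : X → ℂ) : Prop where
  ct : Continuous g
  ne : ∀ x, g x ≠ 0

theorem Nz.hasLog {g : X → ℂ} (h : Nz g) : HasLog (𝟙 (C0 X)) g ⊤ :=
  hasLog_id h.ct.continuousOn fun x _ => h.ne x

theorem Nz.mul {g g' : X → ℂ} (h : Nz g) (h' : Nz g') : Nz fun x => g x * g' x :=
  ⟨h.ct.mul h'.ct, fun x => mul_ne_zero (h.ne x) (h'.ne x)⟩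

theorem Nz.pb {g : X → ℂ} (h : Nz g) (f : X' ⟶ X) : Nz fun x => g (f x) :=
  ⟨h.ct.comp f.hom.continuous, fun _ => h.ne _⟩

/-- The cocycle `d log g`. -/
def windz {g : X → ℂ} (h : Nz g) : sec ((I ℂ X).X 1) ⊤ :=
  (fn_id.exists_isW (d_phi_one X) h.hasLog).choose

theorem isW_windz {g : X → ℂ} (h : Nz g) : IsW (𝟙 _) (phi X ≫ (I ℂ X).d 0 1) g (windz h) :=
  (fn_id.exists_isW (d_phi_one X) h.hasLog).choose_spec

theorem d_windz {g : X → ℂ} (h : Nz g) (n : ℤ) : app ((I ℂ X).d 1 n) ⊤ (windz h) = 0 :=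
  (isW_windz h).d_zero h.hasLog n

/-- The winding class `[d log g]` in degree one. -/
def wind {g : X → ℂ} (h : Nz g) : H ℂ X := hc (windz h) (d_windz h _)

theorem wind_mem {g : X → ℂ} (h : Nz g) : wind h ∈ Hd ℂ X 1 := hc_mem _ _

theorem wind_mul {g g' : X → ℂ} (h : Nz g) (h' : Nz g') : wind (h.mul h') = wind h + wind h' := by
  rw [wind, wind, wind, ← hc_add]
  exact hc_congr ((isW_windz _).unique (fn_id.isW_add (d_phi_one X) h.hasLog h'.hasLog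
    (isW_windz h) (isW_windz h')) (h.mul h').hasLog) _

theorem wind_congr {g g' : X → ℂ} (h : Nz g) (h' : Nz g') (e : ∀ x, g x = g' x) :
    wind h = wind h' := by
  obtain rfl : g = g' := funext e
  rfl

theorem wind_exp {g l : X → ℂ} (h : Nz g) (hl : Continuous l) (e : ∀ x, Complex.exp (l x) = g x) :
    wind h = 0 := by
  refine (hc_eq_zero_iff _ _ 0 rfl).2 ⟨app (phi X) ⊤ (cmk l hl.continuousOn), ?_⟩
  have := isW_windz h ⊤ le_rfl (cmk l hl.continuousOn) fun x hx => by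
    rw [app_id, cv_cmk _ _ hx, e]
  rw [res_self] at this
  exact this.symm

theorem wind_pb (f : X' ⟶ X) {g : X → ℂ} (h : Nz g) : wind (h.pb f) = pb f (wind h) := by
  rw [wind, wind, pb_hc, hc_eq_iff _ _ _ _ 0 rfl]
  obtain ⟨η, hη⟩ := fn_id.exists_isW (G := ((pushC ℂ f).obj (I ℂ X')).X 0)
    (ψ := (show C0 X ⟶ ((pushC ℂ f).obj (I ℂ X')).X 0 from c0pb f ≫ (push ℂ f).map (phi X')) -
      phi X ≫ (pullC ℂ f).f 0) (by
      rw [app_sub, app_comp (phi X), phi_one, sub_eq_zero]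
      exact (phi_one X').trans (pz_eI f).symm) h.hasLog
  have a1 := hη.comp (((pushC ℂ f).obj (I ℂ X')).d 0 1)
  have a2 := (isW_windz h).comp ((pullC ℂ f).f 1)
  have a3 := IsW.push (f := f) (g := g) (U := ⊤) (isW_windz (h.pb f))
  rw [Category.assoc, ← (pullC ℂ f).comm, ← Category.assoc] at a2
  rw [Preadditive.sub_comp] at a1
  exact ⟨η, a1.unique (IsW.sub_hom (fun W hW l hl => a3 W hW l hl) a2) h.hasLog⟩

/-- A function whose logarithm is not single valued along a loop has a nonzero winding class. -/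
theorem eq_of_wind_eq_zero {g : X → ℂ} (h : Nz g) (h0 : wind h = 0) {γ : ℝ → X}
    (hγ : Continuous γ) {lam : ℝ → ℂ} (hl : Continuous lam)
    (he : ∀ t, Complex.exp (lam t) = g (γ t)) {s t : ℝ} (hst : γ s = γ t) : lam s = lam t := by
  obtain ⟨f, hf⟩ := (hc_eq_zero_iff _ _ 0 rfl).1 h0
  exact wind_loop (rs_I ℂ X) (phi_one X) h.hasLog (f := f) (hf ▸ isW_windz h) hγ
    (fun _ => trivial) hl he hst

/-- The cohomology of a circle. -/
theorem H_circ [Nice X] [CompactSpace X] {c : X → ℂ} (h : Nz c) (hi : Function.Injective c)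
    (hr : Set.range c = Metric.sphere 0 1) :
    Function.Bijective fun r : Fin 2 → ℂ => ∑ i, r i • ![1, wind h] i := by
  obtain ⟨a1, a2, a3⟩ := (res_I ℂ X).circ isCompact_univ h.ct.continuousOn hi.injOn
    (by rw [Set.image_univ, hr])
  have : PreconnectedSpace X := ⟨a1⟩
  have em := (h.ct.isClosedEmbedding hi).isEmbedding
  have m : ∀ t : ℝ, Complex.exp (t * Complex.I) ∈ Set.range c := fun t => by
    rw [hr, mem_sphere_zero_iff_norm, Complex.norm_exp_ofReal_mul_I]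
  have : Nonempty X := ⟨(m 0).choose⟩
  have ne : wind h ≠ 0 := fun h0 => by
    have := eq_of_wind_eq_zero h h0 (γ := fun t => em.toHomeomorph.symm ⟨_, m t⟩)
      (em.toHomeomorph.symm.continuous.comp (Continuous.subtype_mk (by fun_prop) _))
      (lam := fun t => t * Complex.I) (by fun_prop)
      (fun t => (congrArg Subtype.val (em.toHomeomorph.apply_symm_apply ⟨_, m t⟩)).symm)
      (s := 2 * Real.pi) (t := 0) (congrArg _ (Subtype.ext (by simp)))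
    simp [Real.pi_ne_zero] at this
  refine bij_of_deg (d := ![0, 1]) (by decide) (Fin.forall_fin_two.2 ⟨one_mem_Hd, wind_mem h⟩)
    (Fin.forall_fin_two.2 ⟨H_one_ne_zero, ne⟩) (Fin.forall_fin_two.2
      ⟨fun a ha => exists_smul_one ha, fun a ha => exists_smul_of_le1 a3 (wind_mem h) ne ha⟩)
    fun n hn a ha => ?_
  have h1 : (0 : ℤ) ≠ n := hn 0
  have h2 : (1 : ℤ) ≠ n := hn 1
  rcases lt_or_gt_of_ne h1 with h0 | h0
  · exact eq_zero_of_vn (a2 n (by omega)) ha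
  · exact eq_zero_of_neg h0 ha

instance : Nice (TopCat.of Circle) := ⟨inferInstance, inferInstance, inferInstance⟩

theorem nz_circle : Nz (X := TopCat.of Circle) fun z : Circle => (z : ℂ) :=
  ⟨continuous_subtype_val, fun z => z.coe_ne_zero⟩

/-- The cohomology of the unit circle. -/
theorem H_circle : Function.Bijective fun r : Fin 2 → ℂ => ∑ i, r i • ![1, wind nz_circle] i :=
  H_circ nz_circle Subtype.val_injective Subtype.range_coe

theorem d_of_isB {S : Sh ℂ X} {j : S ⟶ C0 X} {F : Cx ℂ X} {φ : S ⟶ F.X 0} {L : LB X}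
    {c : sec (F.X 2) ⊤} {b : ∀ i, sec (F.X 1) (covU L.toCov i)}
    (a2 : ∀ i, app (F.d 1 2) _ (b i) = res _ le_top c) {V : Opens X} {s : L.ι → X → ℂ}
    (hl : ∀ i, HasLog j (s i) (covU L.toCov i ⊓ V)) {β : sec (F.X 1) V}
    (hβ : ∀ i, IsW j (φ ≫ F.d 0 1) (s i) (res _ inf_le_left (b i) - res _ inf_le_right β :
      sec (F.X 1) (covU L.toCov i ⊓ V))) : app (F.d 1 2) V β = res _ le_top c := by
  refine loc_ext _ _ _ fun x hx => ?_
  obtain ⟨i, hi⟩ := L.cov x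
  refine ⟨covU L.toCov i ⊓ V, inf_le_right, ⟨hi, hx⟩, ?_⟩
  have := (hβ i).d_zero (hl i) 2
  rw [map_sub, app_res, app_res, a2, res_res, sub_eq_zero] at this
  rw [res_res, this]

/-- Mayer-Vietoris for the first Chern class. -/
theorem eq_of_c1_eq_zero {L : LB X} (h0 : c1 L = 0) {U₀ U₁ : Opens X} {s₀ s₁ : L.ι → X → ℂ}
    (h₀ : L.Sec U₀ s₀) (h₁ : L.Sec U₁ s₁) (n₀ : ∀ i, ∀ x ∈ L.U i, x ∈ U₀ → s₀ i x ≠ 0)
    (n₁ : ∀ i, ∀ x ∈ L.U i, x ∈ U₁ → s₁ i x ≠ 0) {g : X → ℂ}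
    (hg : ∀ i, ∀ x ∈ L.U i, x ∈ U₀ → x ∈ U₁ → s₀ i x / s₁ i x = g x) {D₀ D₁ : Set X}
    (d₀ : D₀ ⊆ U₀) (d₁ : D₁ ⊆ U₁) (v₀ : Ab.Vn (dG (I ℂ X)) (gG (I ℂ X)) ∅ D₀ 1)
    (v₁ : Ab.Vn (dG (I ℂ X)) (gG (I ℂ X)) ∅ D₁ 1) {γ : ℝ → X} (hγ : Continuous γ)
    (g₀ : ∀ t, γ t ∈ D₀) (g₁ : ∀ t, γ t ∈ D₁) {lam : ℝ → ℂ} (hl : Continuous lam)
    (he : ∀ t, Complex.exp (lam t) = g (γ t)) {s t : ℝ} (hst : γ s = γ t) : lam s = lam t := by
  obtain ⟨τ, hτ⟩ := (hc_eq_zero_iff _ _ 1 rfl).1 h0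
  obtain ⟨b, a1, a2⟩ := isC1_c1z L
  have hτ' : app ((I ℂ X).d 1 2) ⊤ τ = c1z L := hτ
  have key : ∀ {U : Opens X} {s : L.ι → X → ℂ}, L.Sec U s → (∀ i, ∀ x ∈ L.U i, x ∈ U → s i x ≠ 0) →
      ∀ {D : Set X}, D ⊆ U → Ab.Vn (dG (I ℂ X)) (gG (I ℂ X)) ∅ D 1 →
      ∃ V, ∃ hV : V ≤ U, D ⊆ V ∧ ∃ f : sec ((I ℂ X).X 0) ⊤, ∀ i, IsW (𝟙 _)
        (phi X ≫ (I ℂ X).d 0 1) (s i) (res _ inf_le_left (b i) -
          res _ le_top (τ + app ((I ℂ X).d 0 1) ⊤ f) : sec _ (covU L.toCov i ⊓ V)) := by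
    intro U s hs hn D hD hv
    have hl : ∀ i, HasLog (𝟙 _) (s i) (covU L.toCov i ⊓ U) := fun i =>
      hasLog_id (hs.1 i) fun x hx => hn i x hx.1 hx.2
    obtain ⟨β, hβ⟩ := a1.sec fn_id (d_phi_one X) (logsIn_id L) hs hl
    obtain ⟨u, hu⟩ := (flqC_I ℂ X).2 1 ⊤ U le_top (β - res _ le_top τ)
    obtain ⟨f, hf⟩ := bd_empty_iff.1 (hv 0 2 rfl rfl u (by simp) (mem_Nv_iff.1
      (mem_Nv_iff_res.2 ⟨U, hD, by
        rw [← app_res, hu, map_sub, d_of_isB a2 hl hβ, app_res, hτ', sub_self]⟩)))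
    obtain ⟨V, hV, e⟩ := mem_Nv_iff_res.1 hf
    refine ⟨U ⊓ V, inf_le_left, fun x hx => ⟨hD hx, hV hx⟩, f, fun i => ?_⟩
    have c := (hβ i).res (inf_le_inf_left _ (inf_le_left : U ⊓ V ≤ U))
    have e1 := congrArg (res _ (inf_le_right.trans inf_le_right :
      covU L.toCov i ⊓ (U ⊓ V) ≤ V)) e
    have e2 := congrArg (res _ (inf_le_right.trans inf_le_left :
      covU L.toCov i ⊓ (U ⊓ V) ≤ U)) hu
    simp only [map_sub, map_add, res_res, map_zero, LinearMap.id_apply] at c e1 e2 ⊢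
    rwa [← sub_eq_zero.1 e1, e2, add_sub_cancel]
  obtain ⟨V₀, p1, p2, f₀, p3⟩ := key h₀ n₀ d₀ v₀
  obtain ⟨V₁, q1, q2, f₁, q3⟩ := key h₁ n₁ d₁ v₁
  have lg : ∀ i, HasLog (𝟙 _) (s₀ i) (covU L.toCov i ⊓ (V₀ ⊓ V₁)) ∧
      HasLog (𝟙 _) (s₁ i) (covU L.toCov i ⊓ (V₀ ⊓ V₁)) := fun i =>
    ⟨hasLog_id ((h₀.1 i).mono fun x hx => ⟨hx.1, p1 hx.2.1⟩) fun x hx => n₀ i x hx.1 (p1 hx.2.1),
      hasLog_id ((h₁.1 i).mono fun x hx => ⟨hx.1, q1 hx.2.2⟩) fun x hx => n₁ i x hx.1 (q1 hx.2.2)⟩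
  refine wind_loop (rs_I ℂ X) (phi_one X) (W := V₀ ⊓ V₁) (g := g) (fun x hx => ?_)
    (f := res _ le_top (f₁ - f₀)) (isW_of_cover fun x hx => ?_) hγ (fun t => ⟨p2 (g₀ t), q2 (g₁ t)⟩)
    hl he hst
  · obtain ⟨i, hi⟩ := L.cov x
    obtain ⟨W, a, b, l, l', c, c'⟩ := (lg i).1.two (lg i).2 (x := x) ⟨hi, hx⟩
    exact ⟨W, a.trans inf_le_right, b, _, (c.sub c').congr fun y hy =>
      hg i y (a hy).1 (p1 (a hy).2.1) (q1 (a hy).2.2)⟩
  · obtain ⟨i, hi⟩ := L.cov x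
    refine ⟨covU L.toCov i ⊓ (V₀ ⊓ V₁), inf_le_right, ⟨hi, hx⟩, ?_⟩
    have := (fn_id.isW_sub (d_phi_one X) (lg i).1 (lg i).2
      ((p3 i).res (inf_le_inf_left _ inf_le_left))
      ((q3 i).res (inf_le_inf_left _ inf_le_right))).congr fun y hy =>
        hg i y hy.1 (p1 hy.2.1) (q1 hy.2.2)
    simp only [map_sub, map_add, res_res, app_res] at this ⊢
    rwa [sub_sub_sub_cancel_left, add_sub_add_left_eq_sub] at this

end P275S
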