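import Vale.Agent.P275S.Fib
import Vale.Agent.P275S.Trunc

/-! The canonical filtration in the graded homotopy category. -/

open CategoryTheory TopologicalSpace Limits DerivedCategory

noncomputable section

set_option backward.isDefEq.respectTransparency false

namespace P275S

variable {k : Type} [Field k] {X X' Y Y' : TopCat.{0}} {A B : KG k (Sh k Y)} {j : ℤ}

/-- Classes which come from the truncation `τ ≤ j`. -/
def TL (j : ℤ) (A : KG k (Sh k Y)) : Submodule k (kk k Y ⟶ A) where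
  carrier := {x | ∀ (B : KG k (Sh k Y)) (d : ℤ), InjC B.c → B.c.IsStrictlyGE (j + d + 1) →
    ∀ g ∈ KG.deg k A B d, x ≫ g = 0}
  zero_mem' _ _ _ _ _ _ := zero_comp
  add_mem' hx hy B d h1 h2 g hg := by
    rw [Preadditive.add_comp, hx B d h1 h2 g hg, hy B d h1 h2 g hg, add_zero]
  smul_mem' r x hx B d h1 h2 g hg := by rw [Linear.smul_comp, hx B d h1 h2 g hg, smul_zero]

theorem TL.comp {x : kk k Y ⟶ A} (hx : x ∈ TL j A) {d l : ℤ} (e : j + d ≤ l) {φ : A ⟶ B}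
    (hφ : φ ∈ KG.deg k A B d) : x ≫ φ ∈ TL l B := fun D d' h1 h2 g hg => by
  rw [Category.assoc]
  exact hx D (d + d') h1 (D.c.isStrictlyGE_of_ge _ (l + d' + 1) (by omega)) _
    (KG.comp_mem_deg rfl hφ hg)

theorem TL.mono {l : ℤ} (h : j ≤ l) : TL j A ≤ TL l A := fun x hx =>
  Category.comp_id x ▸ TL.comp hx (by omega) (KG.id_mem_deg A)

theorem TL.top {m : ℤ} {x : kk k Y ⟶ A} (hx : x ∈ KG.deg k _ A m) (h : m ≤ j) : x ∈ TL j A :=
  fun D d _ h2 g hg => by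
    obtain ⟨c, hc, e⟩ := exists_gcl (F := D.c) (KG.comp_mem_deg rfl hx hg)
    rw [← e, gcl_eq_zero_iff _ _ (m + d - 1) (by omega)]
    exact ⟨0, by rw [map_zero,
      (isZero_iff_sec _).1 (D.c.isZero_of_isStrictlyGE (j + d + 1) (m + d) (by omega)) ⊤ c]⟩

theorem TL.bot (hA : InjC A.c) (h : A.c.IsStrictlyGE (j + 1)) {x : kk k Y ⟶ A}
    (hx : x ∈ TL j A) : x = 0 :=
  (Category.comp_id x).symm.trans (hx A 0 hA (by rwa [add_zero]) _ (KG.id_mem_deg A))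

theorem TL.push (g : Y' ⟶ Y) {A' : KG k (Sh k Y')} {x : kk k Y' ⟶ A'}
    (hx : cU k g ≫ (pushK k g).map x ∈ TL j ((pushK k g).obj A')) : x ∈ TL j A' :=
  fun D d h1 h2 φ hφ => (cU_bijective g D).1 (by
    have := hx ((pushK k g).obj D) d (h1.push g) (mapC_isStrictlyGE (P275S.push k g) D.c _) _
      (KG.map_mem_deg _ hφ)
    rw [Category.assoc, ← Functor.map_comp] at this
    exact this.trans (by simp only [Functor.map_zero, comp_zero]))

theorem gcl_mem_TL {F : Cx k Y} {m : ℤ} (c : sec (F.X m) ⊤) (hc : app (F.d m (m + 1)) ⊤ c = 0) :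
    gcl c hc ∈ TL j (KG.of F) ↔ TrLE j (cls c hc) := by
  constructor
  · intro h
    obtain ⟨L, _, ⟨e⟩⟩ :=
      exists_iso_Q_obj_of_isGE ((TStructure.t.truncGT j).obj (Q.obj F : Der k Y)) (j + 1)
    obtain ⟨J, i, _, h1, h2⟩ := exists_inj' L (j + 1)
    obtain ⟨g, hg⟩ := P275JM.Q_surj (L := J) ⟨⟨_, h2⟩, h1⟩
      (((TStructure.t.truncGTπ j).app (Q.obj F) ≫ e.hom) ≫ Q.map i)
    have h3 := h (KG.of J) 0 ⟨⟨_, h2⟩, h1⟩ (by rwa [add_zero]) _ (KG.hom_mem_deg g)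
    rw [gcl_comp_hom, gcl_eq_zero_iff _ _ (m - 1) (by omega)] at h3
    obtain ⟨b, hb⟩ := h3
    have h4 := (cls_comp c hc g).trans (cls_eq_zero_of _ b hb)
    rw [hg, ← Category.assoc, Preadditive.IsIso.comp_right_eq_zero, ← Category.assoc,
      Preadditive.IsIso.comp_right_eq_zero] at h4
    exact (trLE_iff_zero _).2 h4
  · intro h D d h1 h2 φ hφ
    obtain ⟨g, hg⟩ := KG.mem_deg_zero.1 (KG.comp_mem_deg (add_neg_cancel d) hφ (toSh_mem D d))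
    have : (shK D d).c.IsStrictlyGE (j + 1) := D.c.isStrictlyGE_shift (j + d + 1) d _ (by omega)
    have h3 := h.zero (Q.map g)
    rw [cls_comp, (h1.shift d).clsOK.eq_zero_iff] at h3
    have h4 := (gcl_comp_hom c hc g).trans ((gcl_eq_zero_iff _ _ (m - 1) (by omega)).2 h3)
    rw [← Category.comp_id φ, ← toSh_frSh D d, ← Category.assoc φ, ← hg, ← Category.assoc, h4,
      zero_comp]

/-- The weight filtration of an object. -/
def WK (w : ℤ) (A : KG k (Sh k Y)) : Submodule k (kk k Y ⟶ A) :=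
  ⨅ m, (TL (w - m) A).comap (KG.pr m)

variable {w : ℤ}

theorem mem_WK {x : kk k Y ⟶ A} : x ∈ WK w A ↔ ∀ m, KG.pr m x ∈ TL (w - m) A := by
  simp only [WK, Submodule.mem_iInf, Submodule.mem_comap]

theorem mem_WK_of_deg {m : ℤ} {x : kk k Y ⟶ A} (hx : x ∈ KG.deg k _ A m) :
    x ∈ WK w A ↔ x ∈ TL (w - m) A :=
  mem_WK.trans ⟨fun h => KG.pr_of_mem hx ▸ h m, fun h n => by
    by_cases e : m = n
    · subst e
      rwa [KG.pr_of_mem hx]
    · rw [KG.pr_of_ne hx e]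
      exact zero_mem _⟩

theorem WK.comp {x : kk k Y ⟶ A} (hx : x ∈ WK w A) {d l : ℤ} (e : w + 2 * d ≤ l) {φ : A ⟶ B}
    (hφ : φ ∈ KG.deg k A B d) : x ≫ φ ∈ WK l B := mem_WK.2 fun m => by
  rw [KG.pr_comp_of_right (sub_add_cancel m d) x hφ]
  exact TL.comp (mem_WK.1 hx _) (by omega) hφ

theorem WK.push (g : Y' ⟶ Y) {A' : KG k (Sh k Y')} {x : kk k Y' ⟶ A'}
    (hx : cU k g ≫ (pushK k g).map x ∈ WK w ((pushK k g).obj A')) : x ∈ WK w A' :=
  mem_WK.2 fun m => TL.push g (by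
    rw [KG.map_pr, ← KG.pr_comp_of_left (zero_add m) (cU_mem g)]
    exact mem_WK.1 hx m)

/-- The weight filtration of the cohomology of `X` for the map `j`. -/
def Wk (k : Type) [Field k] (j : X ⟶ Y) (w : ℤ) : Submodule k (H k X) :=
  (WK w (K k j)).comap (evK j).toLinearMap

variable {j : X ⟶ Y} {j' : X' ⟶ Y} {a v : H k X}

theorem mem_Wk : a ∈ Wk k j w ↔ evK j a ∈ WK w (K k j) := Iff.rfl

theorem Wk.act (ha : a ∈ Wk k j w) {d l : ℤ} (e : w + 2 * d ≤ l) {φ : K k j ⟶ K k j'}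
    (hφ : φ ∈ KG.deg k _ _ d) : act φ a ∈ Wk k j' l := by
  rw [mem_Wk, evK_act]
  exact WK.comp ha e hφ

theorem Wk.mono {l : ℤ} (h : w ≤ l) : Wk k j w ≤ Wk k j l := fun a ha =>
  act_id j a ▸ Wk.act ha (by omega) (KG.id_mem_deg _)

theorem Wk.mul {p l : ℤ} (ha : a ∈ Hd k X p) (hv : v ∈ Wk k j w) (e : w + 2 * p ≤ l) :
    a * v ∈ Wk k j l := act_mul j a v ▸ Wk.act hv e (mul_mem j ha)

theorem mem_Wk_of_Hd {m : ℤ} (ha : a ∈ Hd k X m) : a ∈ Wk k j w ↔ evK j a ∈ TL (w - m) (K k j) :=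
  mem_WK_of_deg ((evK_mem_iff j).2 ha)

theorem Wk.top {m : ℤ} (ha : a ∈ Hd k X m) (h : 2 * m ≤ w) : a ∈ Wk k j w :=
  (mem_Wk_of_Hd ha).2 (TL.top ((evK_mem_iff j).2 ha) (by omega))

theorem Wk.bot {m : ℤ} (ha : a ∈ Hd k X m) (h : w < m) (hw : a ∈ Wk k j w) : a = 0 :=
  have : (I k X).IsStrictlyGE 0 :=
    inferInstanceAs ((injectiveResolution (cst k X)).cochainComplex.IsStrictlyGE 0)
  have h0 : (K k j).c.IsStrictlyGE 0 := mapC_isStrictlyGE (P275S.push k j) (I k X) 0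
  (evK j).map_eq_zero_iff.1 (TL.bot (j := -1) (A := K k j) (injC_K j)
    ((K k j).c.isStrictlyGE_of_ge _ 0 (by omega)) (TL.mono (by omega) ((mem_Wk_of_Hd ha).1 hw)))

theorem Wk.pr (ha : a ∈ Wk k j w) (m : ℤ) : KG.pr m a ∈ Wk k j w :=
  (mem_Wk_of_Hd (KG.pr_mem_deg m a)).2 (evK_pr j m a ▸ mem_WK.1 ha m)

theorem Wk.of_pr (ha : ∀ m, KG.pr m a ∈ Wk k j w) : a ∈ Wk k j w :=
  mem_WK.2 fun m => evK_pr j m a ▸ (mem_Wk_of_Hd (KG.pr_mem_deg m a)).1 (ha m)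

theorem Wk.base {j₁ : X ⟶ Y'} (g : Y' ⟶ Y) (e : j₁ ≫ g = j) (ha : a ∈ Wk k j w) :
    a ∈ Wk k j₁ w := by
  subst e
  exact WK.push g ((cU_evK j₁ g a).symm ▸ ha)

/-- Functoriality. -/
theorem Wk.pb {j₁ : X' ⟶ Y'} (f : X' ⟶ X) (g : Y' ⟶ Y) (e : f ≫ j = j₁ ≫ g)
    (ha : a ∈ Wk k j w) : pb f a ∈ Wk k j₁ w :=
  Wk.base g rfl (act_pullo f e a ▸ Wk.act ha (by omega) (pullo_mem f e))

/-- The class of a cocycle of the resolution. -/
theorem gcl_mem_Wk {m : ℤ} (c : sec ((I k X).X m) ⊤) (hc : app ((I k X).d m (m + 1)) ⊤ c = 0) :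
    (evI k X).symm (gcl c hc) ∈ Wk k j w ↔
      TrLE (w - m) (cls (F := (pushC k j).obj (I k X)) c hc) := by
  have e : evK j ((evI k X).symm (gcl c hc)) = gcl (F := (pushC k j).obj (I k X)) c hc :=
    (evK_eq j _).trans ((congrArg (fun x : kk k X ⟶ IK k X => cU k j ≫ (pushK k j).map x)
      ((evI k X).apply_symm_apply _)).trans (cU_gcl j c hc))
  rw [mem_Wk, e]
  exact (mem_WK_of_deg (A := KG.of ((pushC k j).obj (I k X))) (gcl_mem _ _)).trans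
    (gcl_mem_TL (F := (pushC k j).obj (I k X)) c hc)

end P275S
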